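import Vale.Agent.P146.Bdl.B2

/-!
Partial averages of functions of Gaussian coordinates over a set `R` of coordinates, and the
Gaussian Poincare inequality in the coordinates of `R`.
-/

open MeasureTheory ProbabilityTheory

namespace Vale.Agent.P146.H712

open Vale.Agent.P157.Lv

variable {ι : Type} [Fintype ι] [DecidableEq ι]

/-- The point with the coordinates `w` in `R` and `z` outside. -/
def sw (R : Finset ι) (z w : ι → ℝ) : ι → ℝ := fun e => if e ∈ R then w e else z e

/-- The average over the coordinates in `R`. -/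
noncomputable def Av (R : Finset ι) (F : (ι → ℝ) → ℝ) (z : ι → ℝ) : ℝ :=
  ∫ w, F (sw R z w) ∂(gI ι)

/-- The levels which belong to `R`. -/
def lvR (R : Finset ι) (e : ι) : ℕ := if e ∈ R then 1 else 0

lemma mix_lvR (R : Finset ι) (z w : ι → ℝ) : mix (lvR R) 0 z w = sw R z w := by
  funext e
  unfold mix sw lvR
  by_cases h : e ∈ R <;> simp [h]

lemma Av_eq (R : Finset ι) (F : (ι → ℝ) → ℝ) : Av R F = J (lvR R) 0 F := by
  funext z
  unfold Av J
  simp only [mix_lvR]

lemma eg_Av (R : Finset ι) {F : (ι → ℝ) → ℝ} (hF : EG F) : EG (Av R F) := by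
  rw [Av_eq]; exact hF.J _ _

lemma integral_Av (R : Finset ι) {F : (ι → ℝ) → ℝ} (hF : EG F) :
    ∫ z, Av R F z ∂(gI ι) = ∫ z, F z ∂(gI ι) := by
  rw [Av_eq]; exact integral_J hF

/-- A function which does not depend on the coordinates in `R`. -/
def Ind (R : Finset ι) (F : (ι → ℝ) → ℝ) : Prop := ∀ z w, F (sw R z w) = F z

lemma ind_iff {R : Finset ι} {F : (ι → ℝ) → ℝ} : Ind R F ↔ Dep (lvR R) 0 F := by
  unfold Ind Dep
  simp only [mix_lvR]

lemma ind_Av (R : Finset ι) (F : (ι → ℝ) → ℝ) : Ind R (Av R F) := by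
  rw [ind_iff, Av_eq]; exact dep_J _ _ _

lemma Av_mul {R : Finset ι} {φ : (ι → ℝ) → ℝ} (hφ : Ind R φ) (F : (ι → ℝ) → ℝ) (z : ι → ℝ) :
    Av R (fun z => φ z * F z) z = φ z * Av R F z := by
  rw [Av_eq, Av_eq]; exact (ind_iff.1 hφ).J_mul F z

lemma Av_ind {R : Finset ι} {F : (ι → ℝ) → ℝ} (h : Ind R F) (z : ι → ℝ) : Av R F z = F z := by
  rw [Av_eq]; exact (ind_iff.1 h).J_eq z

lemma Av_mono {R : Finset ι} {F G : (ι → ℝ) → ℝ} (hF : EG F) (hG : EG G) (h : ∀ z, F z ≤ G z)
    (z : ι → ℝ) : Av R F z ≤ Av R G z := by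
  rw [Av_eq, Av_eq]; exact J_mono hF hG h z

lemma Av_sq_le {R : Finset ι} {F : (ι → ℝ) → ℝ} (hF : EG F) (z : ι → ℝ) :
    Av R F z ^ 2 ≤ Av R (fun z => F z ^ 2) z := by
  rw [Av_eq, Av_eq]; exact cc_sq_J_le hF z

/-- **The Gaussian Poincare inequality in the coordinates of `R`.** -/
theorem row_poincare (R : Finset ι) {F : (ι → ℝ) → ℝ} {F' : ι → (ι → ℝ) → ℝ} (hF : EG F)
    (hd : ∀ e ∈ R, PD e F (F' e)) (hF' : ∀ e ∈ R, EG (F' e)) :
    ∫ z, (F z - Av R F z) ^ 2 ∂(gI ι) ≤ ∑ e ∈ R, ∫ z, F' e z ^ 2 ∂(gI ι) := by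
  obtain ⟨n, ⟨eq⟩⟩ : ∃ n, Nonempty (ι ≃ Fin n) := ⟨_, ⟨Fintype.equivFin ι⟩⟩
  obtain ⟨lev, hlev⟩ : ∃ lev : ι → ℕ, ∀ e, lev e = if e ∈ R then (eq e : ℕ) + 1 else 0 :=
    ⟨_, fun _ => rfl⟩
  have hK : ∀ e, lev e ≤ n := fun e => by
    rw [hlev]
    have := (eq e).2
    split_ifs <;> omega
  have hR : ∀ {e l}, lev e = l + 1 → e ∈ R ∧ (eq e : ℕ) = l := by
    intro e l h
    rw [hlev] at h
    by_cases he : e ∈ R
    · rw [if_pos he] at h
      exact ⟨he, by omega⟩
    · rw [if_neg he] at h
      omega
  have hJ0 : ∀ z, J lev 0 F z = Av R F z := by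
    intro z
    rw [Av_eq]
    unfold J
    congr 1
    funext w
    congr 1
    funext e
    unfold mix lvR
    rw [hlev]
    by_cases he : e ∈ R <;> simp [he]
  have hJn : ∀ z, J lev n F z = F z := by
    intro z
    unfold J
    simp only [mix_top hK]
    simp
  have hpy : ∀ l, ∫ z, (J lev (l + 1) F z - J lev 0 F z) ^ 2 ∂(gI ι) =
      ∫ z, (J lev (l + 1) F z - J lev l F z) ^ 2 ∂(gI ι) +
        ∫ z, (J lev l F z - J lev 0 F z) ^ 2 ∂(gI ι) := by
    intro l
    have hJ1 := hF.J lev (l + 1)
    have hJl := hF.J lev l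
    have hJz := hF.J lev 0
    have h0 : ∫ z, (J lev l F z - J lev 0 F z) * (J lev (l + 1) F z - J lev l F z) ∂(gI ι) = 0 := by
      rw [← integral_J (lev := lev) (l := l) ((hJl.sub hJz).mul (hJ1.sub hJl))]
      have : ∀ z, J lev l (fun z => (J lev l F z - J lev 0 F z) *
          (J lev (l + 1) F z - J lev l F z)) z = 0 := by
        intro z
        have hdep : Dep lev l fun z => J lev l F z - J lev 0 F z := by
          intro z w
          have h1 := dep_J lev l F z w
          have h2 := (dep_J lev 0 F).mono (Nat.zero_le l) z w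
          simp only [h1, h2]
        rw [hdep.J_mul, J_sub hJ1 hJl, (dep_J lev l F).J_eq, J_J (Nat.le_succ l) hF, sub_self,
          mul_zero]
      simp only [this, integral_zero]
    have e : ∀ z, (J lev (l + 1) F z - J lev 0 F z) ^ 2 =
        ((J lev (l + 1) F z - J lev l F z) ^ 2 + (J lev l F z - J lev 0 F z) ^ 2) +
        2 * ((J lev l F z - J lev 0 F z) * (J lev (l + 1) F z - J lev l F z)) := fun z => by ring
    simp only [e]
    rw [integral_add, integral_const_mul, h0, integral_add, mul_zero, add_zero]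
    · exact ((hJ1.sub hJl).pow 2).integrable
    · exact ((hJl.sub hJz).pow 2).integrable
    · exact (((hJ1.sub hJl).pow 2).add ((hJl.sub hJz).pow 2)).integrable
    · exact (((hJl.sub hJz).mul (hJ1.sub hJl)).const_mul 2).integrable
  have key : ∀ l ≤ n, ∫ z, (J lev l F z - J lev 0 F z) ^ 2 ∂(gI ι) ≤
      ∑ e ∈ R, (if lev e ≤ l then ∫ z, F' e z ^ 2 ∂(gI ι) else 0) := by
    intro l
    induction l with
    | zero =>
      intro _
      simp only [sub_self]
      rw [integral_eq_zero_of_ae (Filter.Eventually.of_forall fun z => by simp)]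
      exact Finset.sum_nonneg fun e _ => by
        split_ifs <;> [exact integral_nonneg fun z => sq_nonneg _; exact le_rfl]
    | succ l ih =>
      intro hl
      have ih' := ih (by omega)
      have hG := hF.J lev (l + 1)
      rw [hpy l]
      have h2 : ∀ z, J lev l (J lev (l + 1) F) z = J lev l F z := fun z => J_J (Nat.le_succ l) hF z
      by_cases hex : ∃ e, lev e = l + 1
      · obtain ⟨e, he⟩ := hex
        have heR := (hR he).1
        have huniq : ∀ e', lev e' = l + 1 → e' = e := fun e' h' =>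
          eq.injective (Fin.ext ((hR h').2.trans (hR he).2.symm))
        have h3 := cc_var_step (l := l) he huniq hG ((hF' e heR).J lev (l + 1))
          (PD.J (hd e heR) hF (hF' e heR) he.le) (dep_J lev (l + 1) F)
        have h4 : ∫ z, J lev (l + 1) (F' e) z ^ 2 ∂(gI ι) ≤ ∫ z, F' e z ^ 2 ∂(gI ι) := by
          rw [← integral_J (lev := lev) (l := l + 1) ((hF' e heR).pow 2)]
          exact integral_mono (((hF' e heR).J lev (l + 1)).pow 2).integrable
            (((hF' e heR).pow 2).J lev (l + 1)).integrable fun z => cc_sq_J_le (hF' e heR) z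
        have h5 : ∑ e' ∈ R, (if lev e' ≤ l + 1 then ∫ z, F' e' z ^ 2 ∂(gI ι) else 0) =
            (∫ z, F' e z ^ 2 ∂(gI ι)) +
            ∑ e' ∈ R, (if lev e' ≤ l then ∫ z, F' e' z ^ 2 ∂(gI ι) else 0) := by
          have h6 : ∀ e' ∈ R, (if lev e' ≤ l + 1 then ∫ z, F' e' z ^ 2 ∂(gI ι) else 0) =
              (if e' = e then ∫ z, F' e' z ^ 2 ∂(gI ι) else 0) +
              (if lev e' ≤ l then ∫ z, F' e' z ^ 2 ∂(gI ι) else 0) := by
            intro e' _
            by_cases h : e' = e
            · subst h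
              rw [if_pos (by omega), if_pos rfl, if_neg (by omega), add_zero]
            · rw [if_neg h, zero_add]
              by_cases h' : lev e' ≤ l
              · rw [if_pos h', if_pos (by omega)]
              · rw [if_neg h', if_neg]
                intro h''
                exact h (huniq e' (by omega))
          rw [Finset.sum_congr rfl h6, Finset.sum_add_distrib, Finset.sum_ite_eq' R e, if_pos heR]
        rw [h5]
        simp only [h2] at h3
        linarith only [ih', h4, h3]
      · have h3 : ∀ z, J lev (l + 1) F z = J lev l F z := by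
          intro z
          unfold J
          congr 1
          funext w
          congr 1
          funext e
          unfold mix
          by_cases h : lev e ≤ l
          · rw [if_pos h, if_pos (by omega)]
          · rw [if_neg h, if_neg]
            intro h'
            exact hex ⟨e, by omega⟩
        have h4 : ∫ z, (J lev (l + 1) F z - J lev l F z) ^ 2 ∂(gI ι) = 0 := by
          simp only [h3, sub_self]
          rw [integral_eq_zero_of_ae (Filter.Eventually.of_forall fun z => by simp)]
        rw [h4, zero_add]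
        refine ih'.trans (Finset.sum_le_sum fun e _ => ?_)
        by_cases h : lev e ≤ l
        · rw [if_pos h, if_pos (by omega)]
        · rw [if_neg h]
          split_ifs
          · exact integral_nonneg fun z => sq_nonneg _
          · exact le_rfl
  have := key n le_rfl
  simp only [hJn, hJ0, hK, if_true] at this
  exact this

end Vale.Agent.P146.H712
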