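import Vale.Agent.P146.H712.RowQ
import Vale.Agent.P146.H332.CDef

/-!
The chain rule for functions of the four positions `p0, p1, p2, p3` of `R1Def4`.
`bs j` is the coupling of the coordinate `j : K4 κ`; `lf R` are the four copies of `R`.
-/

open MeasureTheory ProbabilityTheory

namespace Vale.Agent.P146.H712

open Vale.Agent.P157.Lv Vale.Agent.P146.R1 Vale.Agent.P146.R1C

set_option linter.unusedSectionVars false
set_option linter.unusedSimpArgs false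

variable {κ : Type} [Fintype κ] [DecidableEq κ]

/-- The coupling of a coordinate. -/
def bs : K4 κ → κ
  | Sum.inl e => e
  | Sum.inr (Sum.inl e) => e
  | Sum.inr (Sum.inr (Sum.inl e)) => e
  | Sum.inr (Sum.inr (Sum.inr e)) => e

/-- membership in the four copies -/
lemma mem_lf_bs {R : Finset κ} {j : K4 κ} : j ∈ lf R ↔ bs j ∈ R := by
  unfold lf
  rcases j with j | j | j | j <;> simp [bs]

lemma lf_subset {R R' : Finset κ} (h : R ⊆ R') : lf R ⊆ lf R' := fun j hj => by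
  rw [mem_lf_bs] at hj ⊢; exact h hj

/-- A sum over the four copies. -/
lemma sum_lf4 (R : Finset κ) (g : K4 κ → ℝ) : ∑ j ∈ lf R, g j =
    ∑ e ∈ R, (g (Sum.inl e) + g (Sum.inr (Sum.inl e)) + g (Sum.inr (Sum.inr (Sum.inl e))) +
      g (Sum.inr (Sum.inr (Sum.inr e)))) := by
  rw [sum_lf, ← Finset.sum_add_distrib, ← Finset.sum_add_distrib, ← Finset.sum_add_distrib]
  refine Finset.sum_congr rfl fun e _ => ?_
  ring

/-- A linear position: `c` are the coefficients of the four blocks. -/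
noncomputable def lp (c : Fin 4 → ℝ) (w : K4 κ → ℝ) : κ → ℝ := fun e =>
  c 0 * w (Sum.inl e) + c 1 * w (Sum.inr (Sum.inl e)) + c 2 * w (Sum.inr (Sum.inr (Sum.inl e))) +
    c 3 * w (Sum.inr (Sum.inr (Sum.inr e)))

/-- The block of a coordinate. -/
def bl : K4 κ → Fin 4
  | Sum.inl _ => 0
  | Sum.inr (Sum.inl _) => 1
  | Sum.inr (Sum.inr (Sum.inl _)) => 2
  | Sum.inr (Sum.inr (Sum.inr _)) => 3

lemma lp_update (c : Fin 4 → ℝ) (w : K4 κ → ℝ) (j : K4 κ) (t : ℝ) :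
    lp c (Function.update w j t) =
      Function.update (lp c w) (bs j) (lp c w (bs j) + c (bl j) * (t - w j)) := by
  funext e
  by_cases he : e = bs j
  · subst he
    rw [Function.update_self]
    unfold lp
    rcases j with j | j | j | j <;>
      simp only [bs, bl, Function.update_self, Function.update_apply, Sum.inl.injEq, Sum.inr.injEq,
        reduceCtorEq, if_true, if_false] <;> ring
  · rw [Function.update_of_ne he]
    unfold lp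
    rcases j with j | j | j | j <;> simp only [bs] at he <;>
      simp only [Function.update_apply, Sum.inl.injEq, Sum.inr.injEq, reduceCtorEq, he, if_false]

/-- **The chain rule** for a linear position. -/
theorem pd_lp (c : Fin 4 → ℝ) {f f' : (κ → ℝ) → ℝ} {j : K4 κ} (hd : PD (bs j) f f') :
    PD j (fun w => f (lp c w)) (fun w => c (bl j) * f' (lp c w)) := by
  intro w t
  have h1 : ∀ t, lp c (Function.update w j t) =
      Function.update (lp c w) (bs j) (lp c w (bs j) + c (bl j) * (t - w j)) :=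
    fun t => lp_update c w j t
  have h2 : HasDerivAt (fun t => lp c w (bs j) + c (bl j) * (t - w j)) (c (bl j)) t := by
    have := (((hasDerivAt_id t).sub_const (w j)).const_mul (c (bl j))).const_add (lp c w (bs j))
    simpa using this
  have h3 := (hd (lp c w) (lp c w (bs j) + c (bl j) * (t - w j))).comp t h2
  refine (h3.congr_deriv ?_).congr_of_eventuallyEq (Filter.Eventually.of_forall fun t => ?_)
  · simp only [h1]
    ring
  · simp only [h1, Function.comp_apply]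

lemma continuous_lp (c : Fin 4 → ℝ) : Continuous (lp (κ := κ) c) := by
  unfold lp
  fun_prop

lemma norm_lp_le (c : Fin 4 → ℝ) (w : K4 κ → ℝ) :
    ‖lp c w‖ ≤ (|c 0| + |c 1| + |c 2| + |c 3|) * ‖w‖ := by
  refine (pi_norm_le_iff_of_nonneg (by positivity)).2 fun e => ?_
  have h : ∀ j : K4 κ, |w j| ≤ ‖w‖ := fun j => norm_le_pi_norm w j
  unfold lp
  rw [Real.norm_eq_abs]
  calc _ ≤ |c 0 * w (Sum.inl e)| + |c 1 * w (Sum.inr (Sum.inl e))| +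
        |c 2 * w (Sum.inr (Sum.inr (Sum.inl e)))| + |c 3 * w (Sum.inr (Sum.inr (Sum.inr e)))| :=
        (abs_add_le _ _).trans (add_le_add ((abs_add_le _ _).trans
          (add_le_add (abs_add_le _ _) le_rfl)) le_rfl)
    _ ≤ |c 0| * ‖w‖ + |c 1| * ‖w‖ + |c 2| * ‖w‖ + |c 3| * ‖w‖ := by
        simp only [abs_mul]
        have h0 := h (Sum.inl e)
        have h1 := h (Sum.inr (Sum.inl e))
        have h2 := h (Sum.inr (Sum.inr (Sum.inl e)))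
        have h3 := h (Sum.inr (Sum.inr (Sum.inr e)))
        gcongr
    _ = _ := by ring

/-- composition with a position -/
lemma eg_lp (c : Fin 4 → ℝ) {f : (κ → ℝ) → ℝ} (hf : EG f) :
    EG fun w : K4 κ → ℝ => f (lp c w) := by
  obtain ⟨C, a, hC, ha, hb⟩ := hf.bdd
  refine ⟨hf.meas.comp (continuous_lp c).measurable, C,
    a * (|c 0| + |c 1| + |c 2| + |c 3|), hC, by positivity, fun w => (hb _).trans ?_⟩
  rw [mul_assoc]
  exact mul_le_mul_of_nonneg_left (Real.exp_le_exp.2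
    (mul_le_mul_of_nonneg_left (norm_lp_le c w) ha)) hC

/-- the gradient of a function of a position, summed over the copies -/
lemma sum_lp_sq (c : Fin 4 → ℝ) (R : Finset κ) (g : κ → ℝ) :
    ∑ j ∈ lf R, (c (bl j) * g (bs j)) ^ 2 =
      (c 0 ^ 2 + c 1 ^ 2 + c 2 ^ 2 + c 3 ^ 2) * ∑ e ∈ R, g e ^ 2 := by
  rw [sum_lf4, Finset.mul_sum]
  refine Finset.sum_congr rfl fun e _ => ?_
  simp only [bs, bl]
  ring

/-- two positions: the mixed sum -/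
lemma sum_lp_mul (c d : Fin 4 → ℝ) (R : Finset κ) (g h : κ → ℝ) :
    ∑ j ∈ lf R, (c (bl j) * g (bs j)) * (d (bl j) * h (bs j)) =
      (c 0 * d 0 + c 1 * d 1 + c 2 * d 2 + c 3 * d 3) * ∑ e ∈ R, g e * h e := by
  rw [sum_lf4, Finset.mul_sum]
  refine Finset.sum_congr rfl fun e _ => ?_
  simp only [bs, bl]
  ring

/-- The coefficients of the four positions. -/
noncomputable def q0 (t0 : ℝ) : Fin 4 → ℝ := ![√t0, 0, 0, 0]
noncomputable def q1 (t0 t1 : ℝ) : Fin 4 → ℝ := ![√t0, √(t1 - t0), 0, 0]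
noncomputable def q2 (t0 t1 s1 : ℝ) : Fin 4 → ℝ := ![√t0, √(t1 - t0), √(s1 - t1), 0]
noncomputable def q3 (t0 t1 s1 s2 : ℝ) : Fin 4 → ℝ := ![√t0, √(t1 - t0), √(s1 - t1), √(s2 - s1)]

lemma p0_lp (t0 : ℝ) (w : K4 κ → ℝ) : p0 t0 w = lp (q0 t0) w := by
  funext e
  simp [p0, c0, lp, q0]
lemma p1_lp (t0 t1 : ℝ) (w : K4 κ → ℝ) : p1 t0 t1 w = lp (q1 t0 t1) w := by
  funext e
  simp [p1, p0, c0, c1, lp, q1]
lemma p2_lp (t0 t1 s1 : ℝ) (w : K4 κ → ℝ) : p2 t0 t1 s1 w = lp (q2 t0 t1 s1) w := by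
  funext e
  simp [p2, p1, p0, c0, c1, c2, lp, q2]
lemma p3_lp (t0 t1 s1 s2 : ℝ) (w : K4 κ → ℝ) : p3 t0 t1 s1 s2 w = lp (q3 t0 t1 s1 s2) w := by
  funext e
  simp [p3, p2, p1, p0, c0, c1, c2, c3, lp, q3]

variable {f f' : (κ → ℝ) → ℝ} {j : K4 κ} {t0 t1 s1 s2 : ℝ}

theorem pd_p0 (t0 : ℝ) (hd : PD (bs j) f f') :
    PD j (fun w => f (p0 t0 w)) (fun w => q0 t0 (bl j) * f' (p0 t0 w)) := by
  simp only [p0_lp]; exact pd_lp _ hd
theorem pd_p1 (t0 t1 : ℝ) (hd : PD (bs j) f f') :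
    PD j (fun w => f (p1 t0 t1 w)) (fun w => q1 t0 t1 (bl j) * f' (p1 t0 t1 w)) := by
  simp only [p1_lp]; exact pd_lp _ hd
theorem pd_p2 (t0 t1 s1 : ℝ) (hd : PD (bs j) f f') :
    PD j (fun w => f (p2 t0 t1 s1 w)) (fun w => q2 t0 t1 s1 (bl j) * f' (p2 t0 t1 s1 w)) := by
  simp only [p2_lp]; exact pd_lp _ hd
theorem pd_p3 (t0 t1 s1 s2 : ℝ) (hd : PD (bs j) f f') :
    PD j (fun w => f (p3 t0 t1 s1 s2 w))
      (fun w => q3 t0 t1 s1 s2 (bl j) * f' (p3 t0 t1 s1 s2 w)) := by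
  simp only [p3_lp]; exact pd_lp _ hd

lemma eg_p0 (t0 : ℝ) (hf : EG f) : EG fun w : K4 κ → ℝ => f (p0 t0 w) := by
  simp only [p0_lp]; exact eg_lp _ hf
lemma eg_p1 (t0 t1 : ℝ) (hf : EG f) : EG fun w : K4 κ → ℝ => f (p1 t0 t1 w) := by
  simp only [p1_lp]; exact eg_lp _ hf
lemma eg_p2 (t0 t1 s1 : ℝ) (hf : EG f) : EG fun w : K4 κ → ℝ => f (p2 t0 t1 s1 w) := by
  simp only [p2_lp]; exact eg_lp _ hf
lemma eg_p3 (t0 t1 s1 s2 : ℝ) (hf : EG f) : EG fun w : K4 κ → ℝ => f (p3 t0 t1 s1 s2 w) := by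
  simp only [p3_lp]; exact eg_lp _ hf

theorem sum_q0 (h0 : 0 ≤ t0) (R : Finset κ) (g : κ → ℝ) :
    ∑ j ∈ lf R, (q0 t0 (bl j) * g (bs j)) ^ 2 = t0 * ∑ e ∈ R, g e ^ 2 := by
  rw [sum_lp_sq]
  simp only [q0, Matrix.cons_val]
  rw [Real.sq_sqrt h0]
  ring
theorem sum_q1 (h0 : 0 ≤ t0) (h1 : t0 ≤ t1) (R : Finset κ) (g : κ → ℝ) :
    ∑ j ∈ lf R, (q1 t0 t1 (bl j) * g (bs j)) ^ 2 = t1 * ∑ e ∈ R, g e ^ 2 := by
  rw [sum_lp_sq]
  simp only [q1, Matrix.cons_val]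
  rw [Real.sq_sqrt h0, Real.sq_sqrt (sub_nonneg.2 h1)]
  ring
theorem sum_q2 (h0 : 0 ≤ t0) (h1 : t0 ≤ t1) (h2 : t1 ≤ s1) (R : Finset κ) (g : κ → ℝ) :
    ∑ j ∈ lf R, (q2 t0 t1 s1 (bl j) * g (bs j)) ^ 2 = s1 * ∑ e ∈ R, g e ^ 2 := by
  rw [sum_lp_sq]
  simp only [q2, Matrix.cons_val]
  rw [Real.sq_sqrt h0, Real.sq_sqrt (sub_nonneg.2 h1), Real.sq_sqrt (sub_nonneg.2 h2)]
  ring
theorem sum_q3 (h0 : 0 ≤ t0) (h1 : t0 ≤ t1) (h2 : t1 ≤ s1) (h3 : s1 ≤ s2) (R : Finset κ)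
    (g : κ → ℝ) : ∑ j ∈ lf R, (q3 t0 t1 s1 s2 (bl j) * g (bs j)) ^ 2 = s2 * ∑ e ∈ R, g e ^ 2 := by
  rw [sum_lp_sq]
  simp only [q3, Matrix.cons_val]
  rw [Real.sq_sqrt h0, Real.sq_sqrt (sub_nonneg.2 h1), Real.sq_sqrt (sub_nonneg.2 h2),
    Real.sq_sqrt (sub_nonneg.2 h3)]
  ring

/-! ### the positions of `CDef` -/

section par

variable (q : Par)

/-- The coefficients of the positions of `q`. -/
noncomputable def k0 : Fin 4 → ℝ := q0 q.t0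
noncomputable def k1 : Fin 4 → ℝ := q1 q.t0 q.t1
noncomputable def k2 : Fin 4 → ℝ := q2 q.t0 q.t1 q.s1
noncomputable def k3 : Fin 4 → ℝ := q3 q.t0 q.t1 q.s1 q.s2

variable {q}

theorem pd_P0 (hd : PD (bs j) f f') :
    PD j (fun w => f (P0 q w)) (fun w => k0 q (bl j) * f' (P0 q w)) := pd_p0 _ hd
theorem pd_P1 (hd : PD (bs j) f f') :
    PD j (fun w => f (P1 q w)) (fun w => k1 q (bl j) * f' (P1 q w)) := pd_p1 _ _ hd
theorem pd_P2 (hd : PD (bs j) f f') :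
    PD j (fun w => f (P2 q w)) (fun w => k2 q (bl j) * f' (P2 q w)) := pd_p2 _ _ _ hd
theorem pd_P3 (hd : PD (bs j) f f') :
    PD j (fun w => f (P3 q w)) (fun w => k3 q (bl j) * f' (P3 q w)) := pd_p3 _ _ _ _ hd

lemma eg_P0 (hf : EG f) : EG fun w : K4 κ → ℝ => f (P0 q w) := eg_p0 _ hf
lemma eg_P1 (hf : EG f) : EG fun w : K4 κ → ℝ => f (P1 q w) := eg_p1 _ _ hf
lemma eg_P2 (hf : EG f) : EG fun w : K4 κ → ℝ => f (P2 q w) := eg_p2 _ _ _ hf
lemma eg_P3 (hf : EG f) : EG fun w : K4 κ → ℝ => f (P3 q w) := eg_p3 _ _ _ _ hf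

theorem sum_k0 (hq : q.Ok) (R : Finset κ) (g : κ → ℝ) :
    ∑ j ∈ lf R, (k0 q (bl j) * g (bs j)) ^ 2 = q.t0 * ∑ e ∈ R, g e ^ 2 := sum_q0 hq.h0 R g
theorem sum_k1 (hq : q.Ok) (R : Finset κ) (g : κ → ℝ) :
    ∑ j ∈ lf R, (k1 q (bl j) * g (bs j)) ^ 2 = q.t1 * ∑ e ∈ R, g e ^ 2 := sum_q1 hq.h0 hq.h01 R g
theorem sum_k2 (hq : q.Ok) (R : Finset κ) (g : κ → ℝ) :
    ∑ j ∈ lf R, (k2 q (bl j) * g (bs j)) ^ 2 = q.s1 * ∑ e ∈ R, g e ^ 2 :=
  sum_q2 hq.h0 hq.h01 hq.h1 R g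
theorem sum_k3 (hq : q.Ok) (R : Finset κ) (g : κ → ℝ) :
    ∑ j ∈ lf R, (k3 q (bl j) * g (bs j)) ^ 2 = q.s2 * ∑ e ∈ R, g e ^ 2 :=
  sum_q3 hq.h0 hq.h01 hq.h1 hq.h12 R g

end par

end Vale.Agent.P146.H712
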