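import Vale.Agent.P146.H712.RowQ
import Vale.Agent.P146.H826.LawP

/-!
The Gaussian Poincare inequality for the average `AvP s R` over the couplings `R` at the
variance `s`.
-/

open MeasureTheory ProbabilityTheory

namespace Vale.Agent.P146.H712

open Vale.Agent.P157.Lv Vale.Agent.P146.R1 Vale.Agent.P146.R1C

set_option linter.unusedSectionVars false

variable {κ : Type} [Fintype κ] [DecidableEq κ] {R : Finset κ} {s : ℝ}

lemma sw_upd {e : κ} (he : e ∈ R) (z y : κ → ℝ) (t : ℝ) :
    H712.sw R z (Function.update y e t) = Function.update (H712.sw R z y) e t := by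
  funext j
  unfold H712.sw
  by_cases hj : j = e
  · subst hj
    simp [he]
  · rw [Function.update_of_ne hj, Function.update_of_ne hj]

/-- the chain rule along the average -/
lemma pd_avp {F F' : (κ → ℝ) → ℝ} {e : κ} (he : e ∈ R) (hd : PD e F F') (s : ℝ) (z : κ → ℝ) :
    PD e (fun g => F (H712.sw R z (√s • g))) (fun g => √s * F' (H712.sw R z (√s • g))) := by
  intro y x
  have h1 : ∀ t, H712.sw R z (√s • Function.update y e t) =
      Function.update (H712.sw R z (√s • y)) e (√s * t) := by
    intro t
    have : √s • Function.update y e t = Function.update (√s • y) e (√s * t) := by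
      funext j
      by_cases hj : j = e
      · subst hj
        simp
      · simp [Function.update_of_ne hj]
    rw [this, sw_upd he]
  have h2 : HasDerivAt (fun t => √s * t) (√s) x := by
    simpa using (hasDerivAt_id x).const_mul (√s)
  have h3 := (hd (H712.sw R z (√s • y)) (√s * x)).comp x h2
  refine (h3.congr_deriv ?_).congr_of_eventuallyEq (Filter.Eventually.of_forall fun t => ?_)
  · simp only [h1]
    ring
  · simp only [h1, Function.comp_apply]

lemma pd_avp_not {F : (κ → ℝ) → ℝ} {e : κ} (he : e ∉ R) (s : ℝ) (z : κ → ℝ) :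
    PD e (fun g => F (H712.sw R z (√s • g))) (fun _ => 0) := by
  refine PD.of_indep fun y t => ?_
  congr 1
  funext j
  unfold H712.sw
  by_cases hj : j = e
  · subst hj
    simp [he]
  · simp [Function.update_of_ne hj]

lemma AvP_sw (F : (κ → ℝ) → ℝ) (z w : κ → ℝ) : AvP s R F (H712.sw R z w) = AvP s R F z :=
  ind_AvP s R F z w

lemma AvP_congr {F G : (κ → ℝ) → ℝ} (h : ∀ z, F z = G z) (z : κ → ℝ) :
    AvP s R F z = AvP s R G z := by
  rw [show F = G from funext h]

/-- **Conditional Poincare inequality at the variance `s`.** -/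
theorem AvP_poincare (hs : 0 ≤ s) {F : (κ → ℝ) → ℝ} {F' : κ → (κ → ℝ) → ℝ} (hF : EG F)
    (hd : ∀ e ∈ R, PD e F (F' e)) (hF' : ∀ e ∈ R, EG (F' e)) (z : κ → ℝ) :
    AvP s R (fun z => (F z - AvP s R F z) ^ 2) z ≤
      s * AvP s R (fun z => ∑ e ∈ R, F' e z ^ 2) z := by
  have h1 := cc_var_le_one (F := fun w => F (H712.sw R z (√s • w)))
    (F' := fun e w => if e ∈ R then √s * F' e (H712.sw R z (√s • w)) else 0)
    (eg_AvP_in hF s R z)
    (fun e => by
      by_cases he : e ∈ R
      · simp only [he, if_true]
        exact pd_avp he (hd e he) s z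
      · simp only [he, if_false]
        exact pd_avp_not he s z)
    (fun e => by
      by_cases he : e ∈ R
      · simp only [he, if_true]
        exact (eg_AvP_in (hF' e he) s R z).const_mul _
      · simp only [he, if_false]
        exact EG.const 0)
  have h2 : AvP s R (fun z => (F z - AvP s R F z) ^ 2) z =
      ∫ w, (F (H712.sw R z (√s • w)) - ∫ w, F (H712.sw R z (√s • w)) ∂(gI κ)) ^ 2 ∂(gI κ) := by
    have e1 : ∀ w, AvP s R F (H712.sw R z (√s • w)) = ∫ w, F (H712.sw R z (√s • w)) ∂(gI κ) :=
      fun w => AvP_sw F z _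
    show ∫ g, (F (H712.sw R z (√s • g)) - AvP s R F (H712.sw R z (√s • g))) ^ 2 ∂(gI κ) = _
    simp only [e1]
  rw [h2]
  refine h1.trans (le_of_eq ?_)
  rw [AvP_sum R fun e he => (hF' e he).pow 2, Finset.mul_sum,
    ← Finset.sum_subset (Finset.subset_univ R)]
  · refine Finset.sum_congr rfl fun e he => ?_
    unfold AvP
    simp only [he, if_true]
    rw [← integral_const_mul]
    congr 1
    funext w
    rw [mul_pow, Real.sq_sqrt hs]
  · intro e _ he
    simp [he]

end Vale.Agent.P146.H712
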