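import Vale.Agent.P146.H712.RowP

/-!
Partial averages over a set `R` of Gaussian coordinates: pointwise (conditional) Poincare
inequality, fourth moments, linearity, iterated averages, weights.
-/

open MeasureTheory ProbabilityTheory

namespace Vale.Agent.P146.H712

open Vale.Agent.P157.Lv

set_option linter.unusedSectionVars false

variable {ι : Type} [Fintype ι] [DecidableEq ι] {R R' : Finset ι}

lemma norm_sw_le (R : Finset ι) (z w : ι → ℝ) : ‖sw R z w‖ ≤ ‖z‖ + ‖w‖ := by
  refine (pi_norm_le_iff_of_nonneg (by positivity)).2 fun e => ?_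
  unfold sw
  split_ifs
  · exact (norm_le_pi_norm w e).trans (by linarith [norm_nonneg z])
  · exact (norm_le_pi_norm z e).trans (by linarith [norm_nonneg w])

lemma measurable_sw (R : Finset ι) (z : ι → ℝ) : Measurable fun w : ι → ℝ => sw R z w := by
  refine measurable_pi_lambda _ fun e => ?_
  unfold sw
  by_cases h : e ∈ R
  · simp only [if_pos h]
    exact measurable_pi_apply e
  · simp only [if_neg h]
    exact measurable_const

/-- the function on the coordinates of `R` -/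
lemma eg_sw {F : (ι → ℝ) → ℝ} (hF : EG F) (z : ι → ℝ) : EG fun w => F (sw R z w) := by
  obtain ⟨C, a, hC, ha, hb⟩ := hF.bdd
  refine ⟨hF.meas.comp (measurable_sw R z), C * Real.exp (a * ‖z‖), a, by positivity, ha,
    fun w => (hb _).trans ?_⟩
  rw [mul_assoc, ← Real.exp_add, ← mul_add]
  have := norm_sw_le R z w
  gcongr

lemma sw_sw (R : Finset ι) (z w w' : ι → ℝ) : sw R (sw R z w) w' = sw R z w' := by
  funext e
  unfold sw
  split_ifs <;> rfl

lemma sw_self (R : Finset ι) (z : ι → ℝ) : sw R z z = z := by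
  funext e
  unfold sw
  split_ifs <;> rfl

lemma pd_sw {F F' : (ι → ℝ) → ℝ} {e : ι} (he : e ∈ R) (hd : PD e F F') (z : ι → ℝ) :
    PD e (fun w => F (sw R z w)) (fun w => F' (sw R z w)) := by
  intro y x
  have h1 : ∀ t, sw R z (Function.update y e t) = Function.update (sw R z y) e t := by
    intro t
    funext j
    unfold sw
    by_cases hj : j = e
    · subst hj
      simp [he]
    · rw [Function.update_of_ne hj, Function.update_of_ne hj]
  simp only [h1]
  exact hd (sw R z y) x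

lemma pd_sw_not {F : (ι → ℝ) → ℝ} {e : ι} (he : e ∉ R) (z : ι → ℝ) :
    PD e (fun w => F (sw R z w)) (fun _ => 0) := by
  refine PD.of_indep fun y t => ?_
  congr 1
  funext j
  unfold sw
  by_cases hj : j = e
  · subst hj
    simp [he]
  · rw [Function.update_of_ne hj]

lemma Av_add {F G : (ι → ℝ) → ℝ} (hF : EG F) (hG : EG G) (z : ι → ℝ) :
    Av R (fun z => F z + G z) z = Av R F z + Av R G z :=
  integral_add (eg_sw hF z).integrable (eg_sw hG z).integrable

lemma Av_sub {F G : (ι → ℝ) → ℝ} (hF : EG F) (hG : EG G) (z : ι → ℝ) :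
    Av R (fun z => F z - G z) z = Av R F z - Av R G z :=
  integral_sub (eg_sw hF z).integrable (eg_sw hG z).integrable

lemma Av_const_mul (c : ℝ) (F : (ι → ℝ) → ℝ) (z : ι → ℝ) :
    Av R (fun z => c * F z) z = c * Av R F z := integral_const_mul _ _

lemma Av_const (c : ℝ) (z : ι → ℝ) : Av R (fun _ => c) z = c := by
  unfold Av
  rw [integral_const, probReal_univ, one_smul]

lemma Av_sum {κ : Type*} (s : Finset κ) {F : κ → (ι → ℝ) → ℝ} (hF : ∀ i ∈ s, EG (F i))
    (z : ι → ℝ) : Av R (fun z => ∑ i ∈ s, F i z) z = ∑ i ∈ s, Av R (F i) z :=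
  integral_finsetSum s fun i hi => (eg_sw (hF i hi) z).integrable

lemma Av_nonneg {F : (ι → ℝ) → ℝ} (h : ∀ z, 0 ≤ F z) (z : ι → ℝ) : 0 ≤ Av R F z :=
  integral_nonneg fun _ => h _

lemma Av_congr {F G : (ι → ℝ) → ℝ} (h : ∀ z, F z = G z) (z : ι → ℝ) : Av R F z = Av R G z := by
  rw [show F = G from funext h]

/-- The average is constant along `R`. -/
lemma Av_sw (F : (ι → ℝ) → ℝ) (z w : ι → ℝ) : Av R F (sw R z w) = Av R F z := by
  unfold Av
  simp only [sw_sw]

lemma Ind.mul {F G : (ι → ℝ) → ℝ} (hF : Ind R F) (hG : Ind R G) : Ind R fun z => F z * G z :=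
  fun z w => by
    show F (sw R z w) * G (sw R z w) = F z * G z
    rw [hF z w, hG z w]

lemma Ind.mono {F : (ι → ℝ) → ℝ} (hF : Ind R F) (h : R' ⊆ R) : Ind R' F := by
  intro z w
  have h1 : sw R' z w = sw R z (sw R' z w) := by
    funext e
    unfold sw
    by_cases h1 : e ∈ R'
    · rw [if_pos h1, if_pos (h h1)]
    · rw [if_neg h1]
      split_ifs <;> rfl
  rw [h1, hF]

/-- Iterated averages. -/
lemma Av_Av {F : (ι → ℝ) → ℝ} (hF : EG F) (R R' : Finset ι) (z : ι → ℝ) :
    Av R (Av R' F) z = Av (R ∪ R') F z := by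
  set lev : ι → ℕ := fun e => if e ∈ R then 1 else if e ∈ R' then 2 else 0 with hlev
  have h0 : Av (R ∪ R') F z = J lev 0 F z := by
    unfold Av J
    congr 1
    funext w
    congr 1
    funext e
    unfold sw mix
    rw [hlev]
    by_cases h1 : e ∈ R
    · simp [h1]
    · by_cases h2 : e ∈ R'
      · simp [h1, h2]
      · simp [h1, h2]
  have h1 : Av R (Av R' F) z = J lev 0 (J lev 1 F) z := by
    -- both are double integrals; compare after integrating
    have hL : Av R (Av R' F) z = ∫ w, ∫ w', F (sw R' (sw R z w) w') ∂(gI ι) ∂(gI ι) := rfl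
    have hR : J lev 0 (J lev 1 F) z = ∫ w, ∫ w', F (mix lev 1 (mix lev 0 z w) w') ∂(gI ι) ∂(gI ι) :=
      rfl
    rw [hL, hR]
    -- second form: the coordinates in `R ∩ R'` are irrelevant
    have e1 : ∀ w w', mix lev 1 (mix lev 0 z w) w' =
        sw (R' \ R) (sw R z w) w' := by
      intro w w'
      funext e
      unfold sw mix
      rw [hlev]
      by_cases h1 : e ∈ R
      · simp [h1]
      · by_cases h2 : e ∈ R'
        · simp [h1, h2]
        · simp [h1, h2]
    simp only [e1]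
    -- swap the two integrals and move the coordinates of `R ∩ R'`
    have key : ∀ (Q : Finset ι), ∫ w, ∫ w', F (sw Q (sw R z w) w') ∂(gI ι) ∂(gI ι) =
        ∫ w, F (sw (R ∪ Q) z w) ∂(gI ι) := by
      intro Q
      set G : (ι → ℝ) → ℝ := fun w => F (sw (R ∪ Q) z w) with hG
      have hGe : EG G := eg_sw hF z
      have h2 : ∀ w w', F (sw Q (sw R z w) w') = G (sw Q w w') := by
        intro w w'
        rw [hG]
        dsimp only
        congr 1
        funext e
        unfold sw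
        by_cases h1 : e ∈ Q
        · simp [h1]
        · by_cases h2 : e ∈ R
          · simp [h1, h2]
          · simp [h1, h2]
      simp only [h2]
      exact integral_Av Q hGe
    rw [key R', key (R' \ R), Finset.union_sdiff_self_eq_union]
  rw [h0, h1, J_J (Nat.zero_le 1) hF]

lemma Av_comm {F : (ι → ℝ) → ℝ} (hF : EG F) (R R' : Finset ι) (z : ι → ℝ) :
    Av R (Av R' F) z = Av R' (Av R F) z := by
  rw [Av_Av hF, Av_Av hF, Finset.union_comm]

/-- Two functions of different groups of coordinates are independent given the rest. -/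
lemma Av_prod {F G : (ι → ℝ) → ℝ} (hF : EG F) (hG : EG G) (h1 : Ind R' F)
    (h2 : Ind R G) (z : ι → ℝ) :
    Av (R ∪ R') (fun z => F z * G z) z = Av R F z * Av R' G z := by
  rw [← Av_Av (hF.mul hG)]
  have e1 : ∀ z, Av R' (fun z => F z * G z) z = Av R' G z * F z := fun z => by
    rw [Av_mul h1 G z, mul_comm]
  have h3 : Ind R (Av R' G) := by
    intro z w
    unfold Av
    congr 1
    funext w'
    rw [← h2 (sw R' z w') w]
    have e2 : ∀ a b : ι → ℝ, G a = G (sw R a b) := fun a b => (h2 a b).symm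
    rw [e2 (sw R' (sw R z w) w') w]
    congr 1
    funext e
    unfold sw
    by_cases h1 : e ∈ R
    · simp [h1]
    · simp [h1]
  rw [Av_congr e1 z, Av_mul h3, mul_comm]

/-- **Conditional Poincare inequality.** -/
theorem Av_poincare {F : (ι → ℝ) → ℝ} {F' : ι → (ι → ℝ) → ℝ} (hF : EG F)
    (hd : ∀ e ∈ R, PD e F (F' e)) (hF' : ∀ e ∈ R, EG (F' e)) (z : ι → ℝ) :
    Av R (fun z => (F z - Av R F z) ^ 2) z ≤ ∑ e ∈ R, Av R (fun z => F' e z ^ 2) z := by
  have h1 := cc_var_le_one (F := fun w => F (sw R z w))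
    (F' := fun e w => if e ∈ R then F' e (sw R z w) else 0) (eg_sw hF z)
    (fun e => by
      by_cases he : e ∈ R
      · simp only [he, if_true]
        exact pd_sw he (hd e he) z
      · simp only [he, if_false]
        exact pd_sw_not he z)
    (fun e => by
      by_cases he : e ∈ R
      · simp only [he, if_true]
        exact eg_sw (hF' e he) z
      · simp only [he, if_false]
        exact EG.const 0)
  have h2 : Av R (fun z => (F z - Av R F z) ^ 2) z =
      ∫ w, (F (sw R z w) - ∫ w, F (sw R z w) ∂(gI ι)) ^ 2 ∂(gI ι) := by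
    unfold Av
    simp only [sw_sw]
  rw [h2]
  refine h1.trans (le_of_eq ?_)
  rw [← Finset.sum_subset (Finset.subset_univ R)]
  · refine Finset.sum_congr rfl fun e he => ?_
    unfold Av
    simp only [he, if_true]
  · intro e _ he
    simp [he]

/-- the variance form -/
lemma Av_var {F : (ι → ℝ) → ℝ} (hF : EG F) (z : ι → ℝ) :
    Av R (fun z => (F z - Av R F z) ^ 2) z = Av R (fun z => F z ^ 2) z - Av R F z ^ 2 := by
  have e : ∀ w, (F w - Av R F w) ^ 2 = (F w ^ 2 - 2 * (Av R F w * F w)) + Av R F w ^ 2 :=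
    fun w => by ring
  have hA := eg_Av R hF
  have h1 : Av R (fun w => Av R F w * F w) z = Av R F z * Av R F z := Av_mul (ind_Av R F) F z
  have h2 : Av R (fun w => Av R F w ^ 2) z = Av R F z ^ 2 := by
    refine Av_ind (fun z w => ?_) z
    rw [ind_Av R F z w]
  rw [Av_congr e z, Av_add ((hF.pow 2).sub ((hA.mul hF).const_mul 2)) (hA.pow 2),
    Av_sub (hF.pow 2) ((hA.mul hF).const_mul 2), Av_const_mul, h1, h2]
  ring

/-- **Fourth moments**: if `q = ∑ f_i²` and `|∇_R f|² ≤ h` then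
`E q² ≤ (E q)² + 4 E q h`, given the other coordinates. -/
theorem Av_fourth {κ : Type*} (s : Finset κ) {f : κ → (ι → ℝ) → ℝ} {f' : κ → ι → (ι → ℝ) → ℝ}
    {h : (ι → ℝ) → ℝ} (hf : ∀ i ∈ s, EG (f i)) (hd : ∀ i ∈ s, ∀ e ∈ R, PD e (f i) (f' i e))
    (hf' : ∀ i ∈ s, ∀ e ∈ R, EG (f' i e)) (hh : EG h)
    (hb : ∀ z, ∑ e ∈ R, ∑ i ∈ s, f' i e z ^ 2 ≤ h z) (z : ι → ℝ) :
    Av R (fun z => (∑ i ∈ s, f i z ^ 2) ^ 2) z ≤
      Av R (fun z => ∑ i ∈ s, f i z ^ 2) z ^ 2 +
        4 * Av R (fun z => (∑ i ∈ s, f i z ^ 2) * h z) z := by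
  have hq : EG fun z => ∑ i ∈ s, f i z ^ 2 := EG.sum s fun i hi => (hf i hi).pow 2
  have hq' : ∀ e ∈ R, EG fun z => ∑ i ∈ s, 2 * (f i z * f' i e z) := fun e he =>
    EG.sum s fun i hi => ((hf i hi).mul (hf' i hi e he)).const_mul 2
  have hdq : ∀ e ∈ R, PD e (fun z => ∑ i ∈ s, f i z ^ 2) (fun z => ∑ i ∈ s, 2 * (f i z * f' i e z)) :=
    fun e he => PD.sum s fun i hi => by
      have h1 := (hd i hi e he).mul (hd i hi e he)
      have h2 : PD e (fun z => f i z * f i z) (fun z => 2 * (f i z * f' i e z)) :=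
        h1.congr fun y => by ring
      have e3 : (fun z => f i z ^ 2) = fun z => f i z * f i z := by
        funext z
        exact sq _
      rw [e3]
      exact h2
  have h1 := Av_poincare (R := R) (F' := fun e z => ∑ i ∈ s, 2 * (f i z * f' i e z)) hq hdq hq' z
  rw [Av_var hq z] at h1
  have h2 : ∑ e ∈ R, Av R (fun z => (∑ i ∈ s, 2 * (f i z * f' i e z)) ^ 2) z ≤
      4 * Av R (fun z => (∑ i ∈ s, f i z ^ 2) * h z) z := by
    rw [← Av_sum R (fun e he => (hq' e he).pow 2), ← Av_const_mul]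
    refine Av_mono (EG.sum R fun e he => (hq' e he).pow 2) ((hq.mul hh).const_mul 4)
      (fun z => ?_) z
    have h3 : ∀ e, (∑ i ∈ s, 2 * (f i z * f' i e z)) ^ 2 ≤
        4 * ((∑ i ∈ s, f i z ^ 2) * ∑ i ∈ s, f' i e z ^ 2) := by
      intro e
      have h4 := Finset.sum_mul_sq_le_sq_mul_sq s (fun i => f i z) (fun i => f' i e z)
      rw [← Finset.mul_sum]
      nlinarith [h4]
    calc ∑ e ∈ R, (∑ i ∈ s, 2 * (f i z * f' i e z)) ^ 2
        ≤ ∑ e ∈ R, 4 * ((∑ i ∈ s, f i z ^ 2) * ∑ i ∈ s, f' i e z ^ 2) :=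
          Finset.sum_le_sum fun e _ => h3 e
      _ = 4 * ((∑ i ∈ s, f i z ^ 2) * ∑ e ∈ R, ∑ i ∈ s, f' i e z ^ 2) := by
          rw [← Finset.mul_sum, ← Finset.mul_sum]
      _ ≤ 4 * ((∑ i ∈ s, f i z ^ 2) * h z) := by
          have h5 : 0 ≤ ∑ i ∈ s, f i z ^ 2 := Finset.sum_nonneg fun i _ => sq_nonneg _
          have := mul_le_mul_of_nonneg_left (hb z) h5
          linarith
  linarith

/-- Integration with a weight which does not depend on `R`. -/
lemma integral_weight {Y F : (ι → ℝ) → ℝ} (hY : EG Y) (hi : Ind R Y) (hF : EG F) :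
    ∫ z, Y z * F z ∂(gI ι) = ∫ z, Y z * Av R F z ∂(gI ι) := by
  rw [← integral_Av R (hY.mul hF)]
  congr 1
  funext z
  exact Av_mul hi F z

/-- **(L1)** the conditional Poincare inequality with the sum inside. -/
theorem Av_poincare' {F : (ι → ℝ) → ℝ} {F' : ι → (ι → ℝ) → ℝ} (hF : EG F)
    (hd : ∀ e ∈ R, PD e F (F' e)) (hF' : ∀ e ∈ R, EG (F' e)) (z : ι → ℝ) :
    Av R (fun w => (F w - Av R F w) ^ 2) z ≤ Av R (fun w => ∑ e ∈ R, F' e w ^ 2) z := by
  rw [Av_sum R fun e he => (hF' e he).pow 2]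
  exact Av_poincare hF hd hF' z

/-- **(L3)** the average is self-adjoint. -/
theorem integral_mul_Av {p f : (ι → ℝ) → ℝ} (hp : EG p) (hf : EG f) (R : Finset ι) :
    ∫ z, p z * Av R f z ∂(gI ι) = ∫ z, Av R p z * f z ∂(gI ι) := by
  have h1 : ∫ z, p z * Av R f z ∂(gI ι) = ∫ z, Av R p z * Av R f z ∂(gI ι) := by
    rw [← integral_Av R (hp.mul (eg_Av R hf))]
    congr 1
    funext z
    rw [Av_congr (fun z => mul_comm (p z) (Av R f z)) z, Av_mul (ind_Av R f), mul_comm]
  have h2 : ∫ z, Av R p z * f z ∂(gI ι) = ∫ z, Av R p z * Av R f z ∂(gI ι) := by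
    rw [← integral_Av R ((eg_Av R hp).mul hf)]
    congr 1
    funext z
    exact Av_mul (ind_Av R p) f z
  rw [h1, h2]

/-- The weighted Poincare inequality. -/
theorem weighted_poincare {Y F : (ι → ℝ) → ℝ} {F' : ι → (ι → ℝ) → ℝ} (hY : EG Y) (hi : Ind R Y)
    (h0 : ∀ z, 0 ≤ Y z) (hF : EG F) (hd : ∀ e ∈ R, PD e F (F' e)) (hF' : ∀ e ∈ R, EG (F' e)) :
    ∫ z, Y z * (F z - Av R F z) ^ 2 ∂(gI ι) ≤ ∫ z, Y z * ∑ e ∈ R, F' e z ^ 2 ∂(gI ι) := by
  have hA := (hF.sub (eg_Av R hF)).pow 2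
  have hS : EG fun z => ∑ e ∈ R, F' e z ^ 2 := EG.sum R fun e he => (hF' e he).pow 2
  rw [integral_weight hY hi hA, integral_weight hY hi hS]
  refine integral_mono (hY.mul (eg_Av R hA)).integrable (hY.mul (eg_Av R hS)).integrable
    fun z => mul_le_mul_of_nonneg_left ?_ (h0 z)
  rw [Av_sum R fun e he => (hF' e he).pow 2]
  exact Av_poincare hF hd hF' z

end Vale.Agent.P146.H712
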