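import Vale.Agent.P146.H712.En1a
import Vale.Agent.P146.H693.RowY

/-!
The energy with the weight `tr (Y C_t)` (power one) at the same time, part 2: one short step in the
layered law; the deep weight may increase with the time. Bounds of the potential.
-/

open MeasureTheory ProbabilityTheory

namespace Vale.Agent.P146.H712.En1

open Vale.Agent.P157.Lv Vale.Agent.P146.H425 Vale.Agent.P146.H325 Vale.Agent.P146.H332
  Vale.Agent.P146.H712 Vale.Agent.P146.H816 Vale.Agent.P146.R1 Vale.Agent.P146.R1C Matrix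
  Vale.Agent.P146.R1S Vale.Agent.P146.H693 Vale.Agent.P146.H655
open Vale.Agent.P146.H785 (Ax)
open Vale.Agent.P146.H946.En2 (bd eg_bd bd_nonneg frA_le_bd frA_nonneg frA_le eg_frA eg_sDA pB
  fr_pr GA_A eg_pB pB_nonneg)

set_option linter.unusedSectionVars false

variable {n : ℕ} {k x : ℝ} {S : CS n k x} {w t t' : ℝ} {m σ : ℕ → ℝ} {N : ℕ}
  {M M' : Matrix (Fin n) (Fin n) ℝ} {Y Y' : (Pair n → ℝ) → Matrix (Fin n) (Fin n) ℝ}

/-! ### the layered law -/

/-- `E (<Y, C_t> + 1) ∑_e |D_e C_t|²` -/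
noncomputable def ETW (S : CS n k x) (w : ℝ) (m σ : ℕ → ℝ) (N : ℕ) (c : ℝ)
    (Y : (Pair n → ℝ) → Matrix (Fin n) (Fin n) ℝ) (t : ℝ) : ℝ :=
  ∫ g, E1 S w m σ N t (ET S t (Y (c • g))) (c • g) ∂(gI (Pair n))

/-- `E (<Y, C_t> + 1) |C_t|²` -/
noncomputable def TNW (S : CS n k x) (w : ℝ) (m σ : ℕ → ℝ) (N : ℕ) (c : ℝ)
    (Y : (Pair n → ℝ) → Matrix (Fin n) (Fin n) ℝ) (t : ℝ) : ℝ :=
  ∫ g, E1 S w m σ N t (TN S t (Y (c • g))) (c • g) ∂(gI (Pair n))

/-- `E (<Y, C_t> + 1) log (<Y, C_t> + 1)` -/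
noncomputable def TLW (S : CS n k x) (w : ℝ) (m σ : ℕ → ℝ) (N : ℕ) (c : ℝ)
    (Y : (Pair n → ℝ) → Matrix (Fin n) (Fin n) ℝ) (t : ℝ) : ℝ :=
  ∫ g, E1 S w m σ N t (TL S t (Y (c • g))) (c • g) ∂(gI (Pair n))

/-- `E <Y, C_t>` -/
noncomputable def TFW (S : CS n k x) (w : ℝ) (m σ : ℕ → ℝ) (N : ℕ) (c : ℝ)
    (Y : (Pair n → ℝ) → Matrix (Fin n) (Fin n) ℝ) (t : ℝ) : ℝ :=
  ∫ g, E1 S w m σ N t (tF S t (Y (c • g))) (c • g) ∂(gI (Pair n))

/-- the potential -/
noncomputable def f1 (S : CS n k x) (w : ℝ) (m σ : ℕ → ℝ) (N : ℕ) (c Nb : ℝ)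
    (Y : (Pair n → ℝ) → Matrix (Fin n) (Fin n) ℝ) (t : ℝ) : ℝ :=
  8 * TNW S w m σ N c Y t + 64 * Nb * TLW S w m σ N c Y t

lemma E1_tF (hm : Pm m N) {φ : (Pair n → ℝ) → ℝ} (hφ : EG φ)
    (M : Matrix (Fin n) (Fin n) ℝ) (z : Pair n → ℝ) :
    E1 S w m σ N t (fun u => tF S t M u * φ u) z =
      ∑ i, ∑ j, M i j * E1 S w m σ N t (fun u => S.A t u i j * φ u) z := by
  have h : (fun u => tF S t M u * φ u) = fun u => ∑ i, ∑ j, M i j * (S.A t u i j * φ u) := by
    funext u
    unfold tF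
    rw [Finset.sum_mul]
    refine Finset.sum_congr rfl fun i _ => ?_
    rw [Finset.sum_mul]
    exact Finset.sum_congr rfl fun j _ => by ring
  rw [h]
  exact E1_sum2 hm M (fun i j => (S.eg_A t i j).mul hφ) z

lemma eg_lin1 (hm : Pm m N) (hY : ∀ i j, EG fun z => Y z i j) {φ : (Pair n → ℝ) → ℝ}
    (hφ : EG φ) (c : ℝ) :
    EG fun g : Pair n → ℝ => E1 S w m σ N t (fun u => tF S t (Y (c • g)) u * φ u) (c • g) := by
  refine H655.eg_sc (G := fun z => E1 S w m σ N t (fun u => tF S t (Y z) u * φ u) z) ?_ c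
  have h : (fun z => E1 S w m σ N t (fun u => tF S t (Y z) u * φ u) z) = fun z =>
      ∑ i, ∑ j, Y z i j * E1 S w m σ N t (fun u => S.A t u i j * φ u) z :=
    funext fun z => E1_tF hm hφ _ z
  rw [h]
  exact EG.sum _ fun i _ => EG.sum _ fun j _ => (hY i j).mul (eg_E1 hm ((S.eg_A t i j).mul hφ))

lemma eg_lin2 (hm : Pm m N) (hY : ∀ i j, EG fun z => Y z i j) {φ : (Pair n → ℝ) → ℝ}
    (hφ : EG φ) (c : ℝ) :
    EG fun g : Pair n → ℝ =>
      E1 S w m σ N t (fun u => (tF S t (Y (c • g)) u + 1) * φ u) (c • g) := by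
  have h1 := eg_lin1 (S := S) (w := w) (t := t) (σ := σ) hm hY hφ c
  have h2 := H655.eg_sc (eg_E1 (S := S) (w := w) (t := t) (σ := σ) hm hφ) c
  have e : (fun g : Pair n → ℝ =>
      E1 S w m σ N t (fun u => (tF S t (Y (c • g)) u + 1) * φ u) (c • g)) = fun g =>
      E1 S w m σ N t (fun u => tF S t (Y (c • g)) u * φ u) (c • g) +
        E1 S w m σ N t φ (c • g) := by
    funext g
    rw [← E1_add hm ((eg_tF t _).mul hφ) hφ]
    congr 1
    funext u
    ring
  rw [e]
  exact h1.add h2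

lemma eg_ETW (hm : Pm m N) (hY : ∀ i j, EG fun z => Y z i j) (c : ℝ) :
    EG fun g : Pair n → ℝ => E1 S w m σ N t (ET S t (Y (c • g))) (c • g) :=
  eg_lin2 hm hY (eg_sDA t) c

lemma eg_TNW (hm : Pm m N) (hY : ∀ i j, EG fun z => Y z i j) (c : ℝ) :
    EG fun g : Pair n → ℝ => E1 S w m σ N t (TN S t (Y (c • g))) (c • g) :=
  eg_lin2 hm hY (eg_frA t) c

lemma eg_TFW (hm : Pm m N) (hY : ∀ i j, EG fun z => Y z i j) (c : ℝ) :
    EG fun g : Pair n → ℝ => E1 S w m σ N t (tF S t (Y (c • g))) (c • g) := by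
  have h := eg_lin1 (S := S) (w := w) (t := t) (σ := σ) hm hY (EG.const 1) c
  simpa only [mul_one] using h

lemma eg_TLW {bY : ℝ} (hm : Pm m N) (hY : ∀ i j, EG fun z => Y z i j) (hp : ∀ z, Psd (Y z))
    (hb : ∀ z i j, |Y z i j| ≤ bY) (c : ℝ) :
    EG fun g : Pair n → ℝ => E1 S w m σ N t (TL S t (Y (c • g))) (c • g) := by
  refine H655.eg_sc (G := fun z => E1 S w m σ N t (TL S t (Y z)) z) ?_ c
  refine eg_par hm (meas_TL hY t) (fun z => eg_TL (hp z) (hb z) t)
    (C := ((n : ℝ) ^ 2 * bY + 1) * Real.log ((n : ℝ) ^ 2 * bY + 1)) fun z u => ?_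
  rw [abs_of_nonneg (TL_nonneg (hp z) u)]
  exact TL_le (hp z) (hb z) u

lemma sDA_nonneg (t : ℝ) (u : Pair n → ℝ) : 0 ≤ ∑ e : Pair n, fr (S.DA t e u) :=
  Finset.sum_nonneg fun _ _ => Finset.sum_nonneg fun _ _ => Finset.sum_nonneg fun _ _ =>
    sq_nonneg _

lemma ETW_nonneg (c : ℝ) (hp : ∀ z, Psd (Y z)) : 0 ≤ ETW S w m σ N c Y t :=
  integral_nonneg fun g => E1_nonneg (fun u => mul_nonneg
    (by have := tF_nonneg (S := S) (t := t) (hp (c • g)) u; linarith) (sDA_nonneg t u)) (c • g)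

lemma TFW_nonneg (c : ℝ) (hp : ∀ z, Psd (Y z)) : 0 ≤ TFW S w m σ N c Y t :=
  integral_nonneg fun g => E1_nonneg (fun u => tF_nonneg (hp (c • g)) u) (c • g)

lemma tF_mono (h : Psd (M' - M)) (u : Pair n → ℝ) : tF S t M u ≤ tF S t M' u := by
  have h1 := tF_nonneg (S := S) (t := t) h u
  have h2 : tF S t (M' - M) u = tF S t M' u - tF S t M u := by
    unfold tF
    rw [← Finset.sum_sub_distrib]
    refine Finset.sum_congr rfl fun i _ => ?_
    rw [← Finset.sum_sub_distrib]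
    exact Finset.sum_congr rfl fun j _ => by
      rw [Matrix.sub_apply]
      ring
  linarith

/-- **[EN1] One short step, integrated.** The weight may increase with the time. -/
theorem e1_step {bY Nb : ℝ} (hm : Pm m N) (c : ℝ) (hY : ∀ i j, EG fun z => Y z i j)
    (hY' : ∀ i j, EG fun z => Y' z i j) (hp : ∀ z, Psd (Y z)) (hp' : ∀ z, Psd (Y' z))
    (hpp : ∀ z, Psd (Y' z - Y z))
    (hb : ∀ z i j, |Y z i j| ≤ bY) (hb' : ∀ z i j, |Y' z i j| ≤ bY) (hN : 0 ≤ Nb) (h1 : w ≤ t)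
    (h2 : t < t') (h3 : t' ≤ 1) (hk : Sh S (t' - t)) :
    (t' - t) * ETW S w m σ N c Y t ≤ f1 S w m σ N c Nb Y' t' - f1 S w m σ N c Nb Y t +
      48 * (n : ℝ) ^ 2 * ((n : ℝ) ^ 2 * bY + 1) *
        (pB S w m σ N c Nb t' + pB S w m σ N c Nb t) := by
  set K := 48 * (n : ℝ) ^ 2 * ((n : ℝ) ^ 2 * bY + 1) with hK
  have i1 := eg_ETW (S := S) (w := w) (t := t) (σ := σ) hm hY c
  have i2 := eg_TNW (S := S) (w := w) (t := t') (σ := σ) hm hY' c
  have i3 := eg_TNW (S := S) (w := w) (t := t) (σ := σ) hm hY c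
  have i2' := eg_TLW (S := S) (w := w) (t := t') (σ := σ) hm hY' hp' hb' c
  have i3' := eg_TLW (S := S) (w := w) (t := t) (σ := σ) hm hY hp hb c
  have i5 := eg_pB (S := S) (w := w) (t := t') (σ := σ) hm c Nb
  have i6 := eg_pB (S := S) (w := w) (t := t) (σ := σ) hm c Nb
  have key : ∀ z, (t' - t) * E1 S w m σ N t (ET S t (Y z)) z ≤
      8 * (E1 S w m σ N t' (TN S t' (Y' z)) z - E1 S w m σ N t (TN S t (Y z)) z) +
      (64 * Nb * (E1 S w m σ N t' (TL S t' (Y' z)) z - E1 S w m σ N t (TL S t (Y z)) z) +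
        K * (E1 S w m σ N t' (bd S Nb t') z + E1 S w m σ N t (bd S Nb t) z)) := by
    intro z
    have eq' := eg_Aw S t t' (eg_TN (S := S) t' (Y z))
    have el' := eg_Aw S t t' (eg_TL (S := S) (hp z) (hb z) t')
    have eb' := eg_Aw S t t' (eg_bd S Nb t')
    have el := eg_TL (S := S) (hp z) (hb z) t
    have en := eg_TN (S := S) t (Y z)
    have eb := eg_bd S Nb t
    have a1 := E1_mono (S := S) (w := w) (t := t) (σ := σ) hm
      ((eg_ET (S := S) t (Y z)).const_mul (t' - t))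
      (((eq'.sub en).const_mul 8).add (((el'.sub el).const_mul (64 * Nb)).add
        ((eb'.add eb).const_mul K)))
      (fun u => pos_le (hp z) (hb z) hN h2 h3 hk u) z
    rw [E1_const_mul, E1_add hm ((eq'.sub en).const_mul 8) (((el'.sub el).const_mul
      (64 * Nb)).add ((eb'.add eb).const_mul K)), E1_const_mul, E1_sub hm eq' en,
      E1_add hm ((el'.sub el).const_mul _) ((eb'.add eb).const_mul _), E1_const_mul,
      E1_const_mul, E1_add hm eb' eb, E1_sub hm el' el] at a1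
    have b1 : E1 S w m σ N t (fun u => Aw S t t' (TN S t' (Y z)) u) z =
        E1 S w m σ N t' (TN S t' (Y z)) z := (E1_tower h1 h2.le h3 (eg_TN t' (Y z)) z).symm
    have b2 : E1 S w m σ N t (fun u => Aw S t t' (bd S Nb t') u) z =
        E1 S w m σ N t' (bd S Nb t') z := (E1_tower h1 h2.le h3 (eg_bd S Nb t') z).symm
    have b3 : E1 S w m σ N t (fun u => Aw S t t' (TL S t' (Y z)) u) z =
        E1 S w m σ N t' (TL S t' (Y z)) z :=
      (E1_tower h1 h2.le h3 (eg_TL (S := S) (hp z) (hb z) t') z).symm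
    rw [b1, b2, b3] at a1
    have a2 : E1 S w m σ N t' (TN S t' (Y z)) z ≤ E1 S w m σ N t' (TN S t' (Y' z)) z := by
      refine E1_mono hm (eg_TN t' _) (eg_TN t' _) (fun u => ?_) z
      have c1 := tF_mono (S := S) (t := t') (hpp z) u
      exact mul_le_mul_of_nonneg_right (by linarith) (frA_nonneg t' u)
    have a3 : E1 S w m σ N t' (TL S t' (Y z)) z ≤ E1 S w m σ N t' (TL S t' (Y' z)) z := by
      refine E1_mono hm (eg_TL (hp z) (hb z) t') (eg_TL (hp' z) (hb' z) t') (fun u => ?_) z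
      exact ulog_mono (tF_nonneg (hp z) u) (tF_mono (S := S) (t := t') (hpp z) u)
    have a4 := mul_le_mul_of_nonneg_left a3 (show 0 ≤ 64 * Nb by positivity)
    linarith
  have j1 := (i2.sub i3).const_mul 8
  have j2 := (i2'.sub i3').const_mul (64 * Nb)
  have j3 := (i5.add i6).const_mul K
  have e1 := integral_mono (i1.const_mul (t' - t)).integrable (j1.add (j2.add j3)).integrable
    fun g => key (c • g)
  rw [integral_add j1.integrable (j2.add j3).integrable, integral_add j2.integrable j3.integrable,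
    integral_const_mul, integral_const_mul, integral_const_mul, integral_const_mul,
    integral_sub i2.integrable i3.integrable, integral_sub i2'.integrable i3'.integrable,
    integral_add i5.integrable i6.integrable] at e1
  unfold f1 ETW TNW TLW pB
  linarith

/-! ### bounds of the potential -/

lemma frA_ge (t : ℝ) (u : Pair n → ℝ) : (n : ℝ) ≤ fr (S.A t u) := by
  unfold fr
  have h : ∀ i ∈ (Finset.univ : Finset (Fin n)), (1 : ℝ) ≤ ∑ j, S.A t u i j ^ 2 := by
    intro i _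
    have h3 : S.A t u i i ^ 2 ≤ ∑ j, S.A t u i j ^ 2 :=
      Finset.single_le_sum (f := fun j => S.A t u i j ^ 2) (fun j _ => sq_nonneg _)
        (Finset.mem_univ i)
    rw [S.A_self] at h3
    linarith
  have h4 := Finset.sum_le_sum h
  simp only [Finset.sum_const, Finset.card_univ, Fintype.card_fin, nsmul_eq_mul, mul_one] at h4
  exact h4

theorem TNW_ge (hm : Pm m N) (hY : ∀ i j, EG fun z => Y z i j) (hp : ∀ z, Psd (Y z)) (c : ℝ) :
    (n : ℝ) ≤ TNW S w m σ N c Y t := by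
  have h := integral_mono (integrable_const (μ := gI (Pair n)) (n : ℝ))
    (eg_TNW (S := S) (w := w) (t := t) (σ := σ) hm hY c).integrable fun g => by
      have h1 := E1_mono (S := S) (w := w) (t := t) (σ := σ) hm (EG.const (n : ℝ))
        (eg_TN t (Y (c • g))) (fun u => by
          have a1 := tF_nonneg (S := S) (t := t) (hp (c • g)) u
          have a2 := frA_ge (S := S) t u
          have a3 : (0 : ℝ) ≤ n := Nat.cast_nonneg n
          unfold TN
          nlinarith) (c • g)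
      rwa [E1_const hm] at h1
  rw [integral_const, probReal_univ, one_smul] at h
  exact h

lemma TLW_nonneg (c : ℝ) (hp : ∀ z, Psd (Y z)) : 0 ≤ TLW S w m σ N c Y t :=
  integral_nonneg fun g => E1_nonneg (fun u => TL_nonneg (hp (c • g)) u) (c • g)

theorem f1_ge {Nb : ℝ} (hm : Pm m N) (hY : ∀ i j, EG fun z => Y z i j) (hp : ∀ z, Psd (Y z))
    (hN : 0 ≤ Nb) (c : ℝ) : 8 * (n : ℝ) ≤ f1 S w m σ N c Nb Y t := by
  have h1 := TNW_ge (S := S) (w := w) (t := t) (σ := σ) hm hY hp c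
  have h2 : 0 ≤ 64 * Nb * TLW S w m σ N c Y t := mul_nonneg (by positivity) (TLW_nonneg c hp)
  unfold f1
  linarith

lemma pt_bound {bY Nb : ℝ} (hp : Psd M) (hb : ∀ i j, |M i j| ≤ bY) (hN : 0 ≤ Nb)
    (u : Pair n → ℝ) :
    TN S t M u ≤ Nb * (tF S t M u + 1) + (n : ℝ) ^ 2 * ((n : ℝ) ^ 2 * bY + 1) * bd S Nb t u := by
  have a1 := tF_nonneg (S := S) (t := t) hp u
  have a2 := frA_le_bd (S := S) hN t u
  have a3 := (le_abs_self _).trans (tF_le (S := S) hb t u)
  have a4 := bd_nonneg (S := S) Nb t u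
  unfold TN
  calc (tF S t M u + 1) * fr (S.A t u) ≤ (tF S t M u + 1) * (Nb + (n : ℝ) ^ 2 * bd S Nb t u) :=
        mul_le_mul_of_nonneg_left a2 (by linarith)
    _ = Nb * (tF S t M u + 1) + (tF S t M u + 1) * ((n : ℝ) ^ 2 * bd S Nb t u) := by ring
    _ ≤ Nb * (tF S t M u + 1) + ((n : ℝ) ^ 2 * bY + 1) * ((n : ℝ) ^ 2 * bd S Nb t u) := by
        have : (tF S t M u + 1) * ((n : ℝ) ^ 2 * bd S Nb t u) ≤
            ((n : ℝ) ^ 2 * bY + 1) * ((n : ℝ) ^ 2 * bd S Nb t u) :=
          mul_le_mul_of_nonneg_right (by linarith) (by positivity)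
        linarith
    _ = _ := by ring

/-- **The potential is bounded by the size times the weight.** -/
theorem f1_le {bY Nb : ℝ} (hm : Pm m N) (hY : ∀ i j, EG fun z => Y z i j)
    (hp : ∀ z, Psd (Y z)) (hb : ∀ z i j, |Y z i j| ≤ bY) (hbY : 0 ≤ bY) (hN : 0 ≤ Nb) (c : ℝ) :
    f1 S w m σ N c Nb Y t ≤
      (8 + 64 * Real.log ((n : ℝ) ^ 2 * bY + 1)) * Nb * (TFW S w m σ N c Y t + 1) +
        8 * ((n : ℝ) ^ 2 * ((n : ℝ) ^ 2 * bY + 1)) * pB S w m σ N c Nb t := by
  set lg := Real.log ((n : ℝ) ^ 2 * bY + 1) with hlg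
  have hlg0 : 0 ≤ lg := Real.log_nonneg (by
    have : 0 ≤ (n : ℝ) ^ 2 * bY := by positivity
    linarith)
  set K := (n : ℝ) ^ 2 * ((n : ℝ) ^ 2 * bY + 1) with hK
  have i1 := eg_TNW (S := S) (w := w) (t := t) (σ := σ) hm hY c
  have i2 := eg_TLW (S := S) (w := w) (t := t) (σ := σ) hm hY hp hb c
  have i3 := eg_TFW (S := S) (w := w) (t := t) (σ := σ) hm hY c
  have i4 := eg_pB (S := S) (w := w) (t := t) (σ := σ) hm c Nb
  have k1 : ∀ z, E1 S w m σ N t (TN S t (Y z)) z ≤ Nb * (E1 S w m σ N t (tF S t (Y z)) z + 1) +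
      K * E1 S w m σ N t (bd S Nb t) z := by
    intro z
    have e0 := eg_tF (S := S) t (Y z)
    have a1 := E1_mono (S := S) (w := w) (t := t) (σ := σ) hm (eg_TN t (Y z))
      (((e0.add (EG.const 1)).const_mul Nb).add ((eg_bd S Nb t).const_mul K))
      (fun u => pt_bound (hp z) (hb z) hN u) z
    rw [E1_add hm ((e0.add (EG.const 1)).const_mul Nb) ((eg_bd S Nb t).const_mul K),
      E1_const_mul, E1_const_mul, E1_add hm e0 (EG.const 1), E1_const hm] at a1
    exact a1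
  have k2 : ∀ z, E1 S w m σ N t (TL S t (Y z)) z ≤
      lg * (E1 S w m σ N t (tF S t (Y z)) z + 1) := by
    intro z
    have e0 := eg_tF (S := S) t (Y z)
    have a1 := E1_mono (S := S) (w := w) (t := t) (σ := σ) hm (eg_TL (hp z) (hb z) t)
      ((e0.add (EG.const 1)).const_mul lg) (fun u => by
        have b1 := tF_nonneg (S := S) (t := t) (hp z) u
        have b2 := (le_abs_self _).trans (tF_le (S := S) (hb z) t u)
        unfold TL
        rw [mul_comm]
        exact mul_le_mul_of_nonneg_right (Real.log_le_log (by linarith) (by linarith))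
          (by linarith)) z
    rw [E1_const_mul, E1_add hm e0 (EG.const 1), E1_const hm] at a1
    exact a1
  have j1 := (i3.add (EG.const 1)).const_mul Nb
  have j2 := i4.const_mul K
  have e1 := integral_mono i1.integrable (j1.add j2).integrable fun g => k1 (c • g)
  have e2 := integral_mono i2.integrable ((i3.add (EG.const 1)).const_mul lg).integrable
    fun g => k2 (c • g)
  rw [integral_add j1.integrable j2.integrable, integral_const_mul, integral_const_mul,
    integral_add i3.integrable (EG.const 1).integrable, integral_const, probReal_univ,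
    one_smul] at e1
  rw [integral_const_mul, integral_add i3.integrable (EG.const 1).integrable, integral_const,
    probReal_univ, one_smul] at e2
  have e3 := mul_le_mul_of_nonneg_left e2 (show 0 ≤ 64 * Nb by positivity)
  unfold f1 TNW TLW TFW pB
  nlinarith

theorem TFW_le {bY : ℝ} (hm : Pm m N) (hY : ∀ i j, EG fun z => Y z i j)
    (hb : ∀ z i j, |Y z i j| ≤ bY) (c : ℝ) : TFW S w m σ N c Y t ≤ (n : ℝ) ^ 2 * bY := by
  have h := integral_mono (eg_TFW (S := S) (w := w) (t := t) (σ := σ) hm hY c).integrable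
    (integrable_const (μ := gI (Pair n)) ((n : ℝ) ^ 2 * bY)) fun g =>
      (le_abs_self _).trans (abs_E1 hm (eg_tF t _) (fun u => tF_le (hb (c • g)) t u) (c • g))
  rw [integral_const, probReal_univ, one_smul] at h
  exact h

lemma pB_le_one (hm : Pm m N) (c Nb : ℝ) : pB S w m σ N c Nb t ≤ 1 := by
  have h := integral_mono (eg_pB (S := S) (w := w) (t := t) (σ := σ) hm c Nb).integrable
    (integrable_const (μ := gI (Pair n)) (1 : ℝ)) fun g => by
      have h1 := E1_mono (S := S) (w := w) (t := t) (σ := σ) hm (eg_bd S Nb t)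
        (EG.const (1 : ℝ)) (fun u => by unfold bd; split_ifs <;> norm_num) (c • g)
      rwa [E1_const hm] at h1
  rw [integral_const, probReal_univ, one_smul] at h
  exact h

/-! ### monotone families of weights -/

/-- a family of psd weights of the deep position, increasing with the time -/
structure MonoY (w bY : ℝ) (Yt : ℝ → (Pair n → ℝ) → Matrix (Fin n) (Fin n) ℝ) : Prop where
  eg : ∀ t i j, EG fun z => Yt t z i j
  ps : ∀ t z, Psd (Yt t z)
  mo : ∀ t t', w ≤ t → t ≤ t' → t' ≤ 1 → ∀ z, Psd (Yt t' z - Yt t z)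
  bd : ∀ t z i j, |Yt t z i j| ≤ bY

theorem mono_Q1 (hm : Pm m N) : MonoY w n (Q1 S w m σ N) where
  eg _ i j := eg_Q1 hm i j
  ps _ z := Q1_psd hm z
  mo _ _ h1 h2 h3 z := Q1_inc hm h1 h2 h3 z
  bd _ z i j := abs_Q1 hm z i j

/-- the sum of the row averages of a weight -/
noncomputable def Yrow (t0 : ℝ) (Yt : ℝ → (Pair n → ℝ) → Matrix (Fin n) (Fin n) ℝ) (t : ℝ)
    (z : Pair n → ℝ) : Matrix (Fin n) (Fin n) ℝ :=
  fun i j => ∑ b, AvP t0 (row b) (fun z => Yt t z i j) z

lemma psd_AvP {f : (Pair n → ℝ) → Matrix (Fin n) (Fin n) ℝ} (hf : ∀ i j, EG fun z => f z i j)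
    (hp : ∀ z, Psd (f z)) (t0 : ℝ) (R : Finset (Pair n)) (z : Pair n → ℝ) :
    Psd (Matrix.of fun i j => AvP t0 R (fun z => f z i j) z) := by
  refine ⟨?_, fun c => ?_⟩
  · ext i j
    rw [transpose_apply, Matrix.of_apply, Matrix.of_apply]
    have h : (fun u => f u j i) = fun u => f u i j := by
      funext u
      have := congrFun (congrFun (hp u).1 i) j
      rw [transpose_apply] at this
      exact this
    rw [h]
  · have h1 : AvP t0 R (fun z => ∑ i, ∑ j, c i * c j * f z i j) z =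
        ∑ i, ∑ j, c i * c j * AvP t0 R (fun z => f z i j) z := by
      rw [AvP_sum _ fun i _ => EG.sum _ fun j _ => (hf i j).const_mul _]
      refine Finset.sum_congr rfl fun i _ => ?_
      rw [AvP_sum _ fun j _ => (hf i j).const_mul _]
      exact Finset.sum_congr rfl fun j _ => AvP_const_mul _ _ _
    simp only [Matrix.of_apply]
    rw [← h1]
    exact AvP_nonneg (fun z => (hp z).2 c) z

lemma psd_sum' {ι : Type*} (T : Finset ι) {f : ι → Matrix (Fin n) (Fin n) ℝ}
    (h : ∀ b ∈ T, Psd (f b)) : Psd (Matrix.of fun i j => ∑ b ∈ T, f b i j) := by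
  refine ⟨?_, fun c => ?_⟩
  · ext i j
    rw [transpose_apply, Matrix.of_apply, Matrix.of_apply]
    refine Finset.sum_congr rfl fun b hb => ?_
    have := congrFun (congrFun (h b hb).1 i) j
    rw [transpose_apply] at this
    exact this
  · have e : ∑ i, ∑ j, c i * c j * Matrix.of (fun i j => ∑ b ∈ T, f b i j) i j =
        ∑ b ∈ T, ∑ i, ∑ j, c i * c j * f b i j := by
      simp only [Matrix.of_apply, Finset.mul_sum]
      have e1 : ∀ i : Fin n, ∑ j, ∑ b ∈ T, c i * c j * f b i j =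
          ∑ b ∈ T, ∑ j, c i * c j * f b i j := fun i => Finset.sum_comm
      simp only [e1]
      rw [Finset.sum_comm]
    rw [e]
    exact Finset.sum_nonneg fun b hb => (h b hb).2 c

theorem mono_row {bY : ℝ} {Yt : ℝ → (Pair n → ℝ) → Matrix (Fin n) (Fin n) ℝ}
    (h : MonoY w bY Yt) (t0 : ℝ) : MonoY w (n * bY) (Yrow t0 Yt) where
  eg t i j := EG.sum _ fun b _ => eg_AvP (h.eg t i j) t0 (row b)
  ps t z := psd_sum' Finset.univ (f := fun b => Matrix.of fun i j =>
    AvP t0 (row b) (fun z => Yt t z i j) z) fun b _ => psd_AvP (h.eg t) (h.ps t) t0 (row b) z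
  mo t t' h1 h2 h3 z := by
    have e : Yrow t0 Yt t' z - Yrow t0 Yt t z = Matrix.of fun i j => ∑ b,
        (Matrix.of fun i j => AvP t0 (row b) (fun z => (Yt t' z - Yt t z) i j) z :
          Matrix (Fin n) (Fin n) ℝ) i j := by
      ext i j
      rw [Matrix.sub_apply, Matrix.of_apply]
      unfold Yrow
      rw [← Finset.sum_sub_distrib]
      refine Finset.sum_congr rfl fun b _ => ?_
      rw [Matrix.of_apply]
      simp only [Matrix.sub_apply]
      exact (AvP_sub (h.eg t' i j) (h.eg t i j) z).symm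
    rw [e]
    refine psd_sum' Finset.univ fun b _ => psd_AvP (fun i j => ?_)
      (fun z => h.mo t t' h1 h2 h3 z) t0 (row b) z
    simp only [Matrix.sub_apply]
    exact (h.eg t' i j).sub (h.eg t i j)
  bd t z i j := by
    unfold Yrow
    refine (Finset.abs_sum_le_sum_abs _ _).trans ?_
    have h1 : ∀ b ∈ (Finset.univ : Finset (Fin n)),
        |AvP t0 (row b) (fun z => Yt t z i j) z| ≤ bY := by
      intro b _
      refine abs_le.2 ⟨?_, ?_⟩
      · have := AvP_mono (s := t0) (R := row b) (EG.const (-bY)) (h.eg t i j)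
          (fun z => (abs_le.1 (h.bd t z i j)).1) z
        rwa [AvP_const] at this
      · have := AvP_mono (s := t0) (R := row b) (h.eg t i j) (EG.const bY)
          (fun z => (abs_le.1 (h.bd t z i j)).2) z
        rwa [AvP_const] at this
    have h2 := Finset.sum_le_sum h1
    simpa using h2

/-- **[EN1] with a monotone family.** -/
theorem e1_mono {bY Nb : ℝ} {Yt : ℝ → (Pair n → ℝ) → Matrix (Fin n) (Fin n) ℝ} (hm : Pm m N)
    (h : MonoY w bY Yt) (c : ℝ) (hN : 0 ≤ Nb) (h1 : w ≤ t) (h2 : t < t') (h3 : t' ≤ 1)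
    (hk : Sh S (t' - t)) :
    (t' - t) * ETW S w m σ N c (Yt t) t ≤
      f1 S w m σ N c Nb (Yt t') t' - f1 S w m σ N c Nb (Yt t) t +
      48 * (n : ℝ) ^ 2 * ((n : ℝ) ^ 2 * bY + 1) *
        (pB S w m σ N c Nb t' + pB S w m σ N c Nb t) :=
  e1_step hm c (h.eg t) (h.eg t') (h.ps t) (h.ps t') (h.mo t t' h1 h2.le h3) (h.bd t) (h.bd t')
    hN h1 h2 h3 hk

end Vale.Agent.P146.H712.En1
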