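import Vale.Agent.P146.H325.Fis1
import Vale.Agent.P146.H946.EnC

/-!
The energy with the weight `tr (Y C_t)` (power one) at the same time, part 1: one short step at a
position; means of functions which depend on the deep position as a parameter.
-/

open MeasureTheory ProbabilityTheory

namespace Vale.Agent.P146.H712.En1

open Vale.Agent.P157.Lv Vale.Agent.P146.H425 Vale.Agent.P146.H325 Vale.Agent.P146.H332
  Vale.Agent.P146.H712 Vale.Agent.P146.H816 Vale.Agent.P146.R1 Vale.Agent.P146.R1C Matrix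
  Vale.Agent.P146.R1S Vale.Agent.P146.H693 Vale.Agent.P146.H655
open Vale.Agent.P146.H785 (Ax)
open Vale.Agent.P146.H946.En2 (bd eg_bd bd_nonneg frA_le_bd frA_nonneg frA_le eg_frA eg_sDA pB
  fr_pr GA_A eg_pB pB_nonneg)

set_option linter.unusedSectionVars false

section par

variable {κ : Type} [Fintype κ] {F : (κ → ℝ) → ℝ} {D : κ → (κ → ℝ) → ℝ} {B L : ℝ}
  {m σ : ℕ → ℝ}

/-- the mean over one layer of a function with a parameter -/
lemma meas_Ax {U : (κ → ℝ) → ℝ} (hU : Measurable U) (x s : ℝ)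
    {φ : (κ → ℝ) → (κ → ℝ) → ℝ} (hφ : Measurable fun p : (κ → ℝ) × (κ → ℝ) => φ p.1 p.2) :
    Measurable fun p : (κ → ℝ) × (κ → ℝ) => Ax x s U (φ p.1) p.2 := by
  have h1 : Measurable fun p : ((κ → ℝ) × (κ → ℝ)) × (κ → ℝ) =>
      Real.exp (x * U (p.1.2 + s • p.2)) * φ p.1.1 (p.1.2 + s • p.2) := by
    have a1 : Measurable fun p : ((κ → ℝ) × (κ → ℝ)) × (κ → ℝ) => p.1.2 + s • p.2 := by
      fun_prop
    have a2 : Measurable fun p : ((κ → ℝ) × (κ → ℝ)) × (κ → ℝ) =>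
        (p.1.1, p.1.2 + s • p.2) := Measurable.prodMk (by fun_prop) a1
    exact ((hU.comp a1).const_mul x).exp.mul (hφ.comp a2)
  have h2 : Measurable fun p : ((κ → ℝ) × (κ → ℝ)) × (κ → ℝ) =>
      Real.exp (x * U (p.1.2 + s • p.2)) := by
    have a1 : Measurable fun p : ((κ → ℝ) × (κ → ℝ)) × (κ → ℝ) => p.1.2 + s • p.2 := by
      fun_prop
    exact ((hU.comp a1).const_mul x).exp
  have i1 := (h1.stronglyMeasurable.integral_prod_right' (ν := gI κ)).measurable
  have i2 := (h2.stronglyMeasurable.integral_prod_right' (ν := gI κ)).measurable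
  exact i1.div i2

lemma meas_TD (h : C11 F D B L) : ∀ i, Pm m i → ∀ {φ : (κ → ℝ) → (κ → ℝ) → ℝ},
    Measurable (fun p : (κ → ℝ) × (κ → ℝ) => φ p.1 p.2) →
    Measurable fun p : (κ → ℝ) × (κ → ℝ) => TD F m σ (φ p.1) i p.2
  | 0, _, _, hφ => hφ
  | i + 1, hm, φ, hφ => by
    have hc := c11_FD (σ := σ) h i hm.pos
    exact meas_Ax (hc.lip.lip hc.B0).eg.meas (m i) (σ i)
      (φ := fun z => TD F m σ (φ z) i) (meas_TD h i hm.low hφ)

end par

variable {n : ℕ} {k x : ℝ} {S : CS n k x} {w t t' : ℝ} {m σ : ℕ → ℝ} {N : ℕ}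
  {M M' : Matrix (Fin n) (Fin n) ℝ}

/-- the mean of a bounded function with a parameter -/
lemma eg_par (hm : Pm m N) {φ : (Pair n → ℝ) → (Pair n → ℝ) → ℝ}
    (hφ : Measurable fun p : (Pair n → ℝ) × (Pair n → ℝ) => φ p.1 p.2)
    (hE : ∀ z, EG (φ z)) {C : ℝ} (hC : ∀ z u, |φ z u| ≤ C) :
    EG fun z => E1 S w m σ N t (φ z) z := by
  have hc := c11_uu S.c11 S.x0 t
  have a1 : Measurable fun p : (Pair n → ℝ) × (Pair n → ℝ) => Aw S w t (φ p.1) p.2 :=
    meas_Ax (hc.lip.lip hc.B0).eg.meas x (√(t - w)) hφ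
  have a2 : Measurable fun p : (Pair n → ℝ) × (Pair n → ℝ) =>
      E1 S w m σ N t (φ p.1) p.2 := meas_TD (φ := fun z => Aw S w t (φ z)) hU N hm a1
  refine EG.of_bdd (C := C) (a2.comp (Measurable.prodMk measurable_id measurable_id)) fun z => ?_
  exact abs_E1 hm (hE z) (hC z) z

/-- `<M, C_t>` -/
def tF (S : CS n k x) (t : ℝ) (M : Matrix (Fin n) (Fin n) ℝ) (u : Pair n → ℝ) : ℝ :=
  ∑ i, ∑ j, M i j * S.A t u i j

lemma eg_tF (t : ℝ) (M : Matrix (Fin n) (Fin n) ℝ) : EG (tF S t M) :=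
  EG.sum _ fun i _ => EG.sum _ fun j _ => (S.eg_A t i j).const_mul _

lemma meas_tF {Y : (Pair n → ℝ) → Matrix (Fin n) (Fin n) ℝ} (hY : ∀ i j, EG fun z => Y z i j)
    (t : ℝ) : Measurable fun p : (Pair n → ℝ) × (Pair n → ℝ) => tF S t (Y p.1) p.2 := by
  unfold tF
  refine Finset.measurable_sum _ fun i _ => Finset.measurable_sum _ fun j _ => ?_
  exact ((hY i j).meas.comp measurable_fst).mul ((S.eg_A t i j).meas.comp measurable_snd)

lemma tF_nonneg (hM : Psd M) (u : Pair n → ℝ) : 0 ≤ tF S t M u := by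
  obtain ⟨V, lam, hl, hV⟩ := H499.psd_decomp hM
  unfold tF
  have h1 : ∑ i, ∑ j, M i j * S.A t u i j =
      ∑ a, lam a * ∑ i, ∑ j, V i a * V j a * S.A t u i j := by
    simp only [hV, Finset.sum_mul, Finset.mul_sum]
    have e1 : ∀ i : Fin n, ∑ j, ∑ a, lam a * V i a * V j a * S.A t u i j =
        ∑ a, ∑ j, lam a * V i a * V j a * S.A t u i j := fun i => Finset.sum_comm
    simp only [e1]
    rw [Finset.sum_comm]
    exact Finset.sum_congr rfl fun a _ => Finset.sum_congr rfl fun i _ =>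
      Finset.sum_congr rfl fun j _ => by ring
  rw [h1]
  exact Finset.sum_nonneg fun a _ => mul_nonneg (hl a) ((S.psd_A t u).2 fun i => V i a)

lemma tF_le {bM : ℝ} (hb : ∀ i j, |M i j| ≤ bM) (t : ℝ) (u : Pair n → ℝ) :
    |tF S t M u| ≤ (n : ℝ) ^ 2 * bM := by
  unfold tF
  have hb0 : ∀ i : Fin n, 0 ≤ bM := fun i => (abs_nonneg _).trans (hb i i)
  have h1 : ∀ i ∈ (Finset.univ : Finset (Fin n)), |∑ j, M i j * S.A t u i j| ≤
      (n : ℝ) * bM := by
    intro i _
    refine (Finset.abs_sum_le_sum_abs _ _).trans ?_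
    have h2 : ∀ j ∈ (Finset.univ : Finset (Fin n)), |M i j * S.A t u i j| ≤ bM := by
      intro j _
      rw [abs_mul]
      have := mul_le_mul (hb i j) (S.abs_A t u i j) (abs_nonneg _) (hb0 i)
      linarith
    have h3 := Finset.sum_le_sum h2
    simpa using h3
  refine (Finset.abs_sum_le_sum_abs _ _).trans ((Finset.sum_le_sum h1).trans (le_of_eq ?_))
  rw [Finset.sum_const, Finset.card_univ, Fintype.card_fin, nsmul_eq_mul]
  ring

lemma Aw_tF (h2 : t ≤ t') (h3 : t' ≤ 1) (M : Matrix (Fin n) (Fin n) ℝ) (u : Pair n → ℝ) :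
    Aw S t t' (tF S t' M) u = tF S t M u := by
  have a1 : Aw S t t' (fun v => ∑ i, ∑ j, M i j * S.A t' v i j) u =
      ∑ i, Aw S t t' (fun v => ∑ j, M i j * S.A t' v i j) u :=
    Aw_sum S t t' Finset.univ
      (fun i _ => EG.sum _ fun j _ => (S.eg_A t' i j).const_mul (M i j)) u
  refine a1.trans (Finset.sum_congr rfl fun i _ => ?_)
  have a2 : Aw S t t' (fun v => ∑ j, M i j * S.A t' v i j) u =
      ∑ j, Aw S t t' (fun v => M i j * S.A t' v i j) u :=
    Aw_sum S t t' Finset.univ (fun j _ => (S.eg_A t' i j).const_mul _) u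
  refine a2.trans (Finset.sum_congr rfl fun j _ => ?_)
  rw [Aw_const_mul, ← A_tw S h2 h3]

/-- `(<M, C_t> + 1) ∑_e |D_e C_t|²` -/
def ET (S : CS n k x) (t : ℝ) (M : Matrix (Fin n) (Fin n) ℝ) (u : Pair n → ℝ) : ℝ :=
  (tF S t M u + 1) * ∑ e : Pair n, fr (S.DA t e u)

/-- `(<M, C_t> + 1) |C_t|²` -/
def TN (S : CS n k x) (t : ℝ) (M : Matrix (Fin n) (Fin n) ℝ) (u : Pair n → ℝ) : ℝ :=
  (tF S t M u + 1) * fr (S.A t u)

/-- `(<M, C_t> + 1) log (<M, C_t> + 1)` -/
noncomputable def TL (S : CS n k x) (t : ℝ) (M : Matrix (Fin n) (Fin n) ℝ) (u : Pair n → ℝ) : ℝ :=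
  (tF S t M u + 1) * Real.log (tF S t M u + 1)

lemma eg_ET (t : ℝ) (M : Matrix (Fin n) (Fin n) ℝ) : EG (ET S t M) :=
  ((eg_tF t M).add (EG.const 1)).mul (eg_sDA t)

lemma eg_TN (t : ℝ) (M : Matrix (Fin n) (Fin n) ℝ) : EG (TN S t M) :=
  ((eg_tF t M).add (EG.const 1)).mul (eg_frA t)

lemma TL_nonneg (hM : Psd M) (u : Pair n → ℝ) : 0 ≤ TL S t M u := by
  have h := tF_nonneg (S := S) (t := t) hM u
  exact mul_nonneg (by linarith) (Real.log_nonneg (by linarith))

lemma TL_le {bM : ℝ} (hM : Psd M) (hb : ∀ i j, |M i j| ≤ bM) (u : Pair n → ℝ) :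
    TL S t M u ≤ ((n : ℝ) ^ 2 * bM + 1) * Real.log ((n : ℝ) ^ 2 * bM + 1) := by
  have h := tF_nonneg (S := S) (t := t) hM u
  have h1 := (le_abs_self _).trans (tF_le (S := S) hb t u)
  unfold TL
  have h2 : Real.log (tF S t M u + 1) ≤ Real.log ((n : ℝ) ^ 2 * bM + 1) :=
    Real.log_le_log (by linarith) (by linarith)
  exact mul_le_mul (by linarith) h2 (Real.log_nonneg (by linarith)) (by linarith)

lemma meas_TL {Y : (Pair n → ℝ) → Matrix (Fin n) (Fin n) ℝ} (hY : ∀ i j, EG fun z => Y z i j)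
    (t : ℝ) : Measurable fun p : (Pair n → ℝ) × (Pair n → ℝ) => TL S t (Y p.1) p.2 :=
  ((meas_tF hY t).add_const 1).mul ((meas_tF hY t).add_const 1).log

lemma eg_TL {bM : ℝ} (hM : Psd M) (hb : ∀ i j, |M i j| ≤ bM) (t : ℝ) : EG (TL S t M) := by
  refine EG.of_bdd (C := ((n : ℝ) ^ 2 * bM + 1) * Real.log ((n : ℝ) ^ 2 * bM + 1)) ?_ fun u => ?_
  · have := (eg_tF (S := S) t M).meas
    exact (this.add_const 1).mul (this.add_const 1).log
  · rw [abs_of_nonneg (TL_nonneg hM u)]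
    exact TL_le hM hb u

/-- the function `(a + 1) log (a + 1)` is increasing -/
lemma ulog_mono {a b : ℝ} (ha : 0 ≤ a) (hab : a ≤ b) :
    (a + 1) * Real.log (a + 1) ≤ (b + 1) * Real.log (b + 1) :=
  mul_le_mul (by linarith) (Real.log_le_log (by linarith) (by linarith))
    (Real.log_nonneg (by linarith)) (by linarith)

/-- **One short step at a position.** -/
theorem pos_le {bM Nb : ℝ} (hM : Psd M) (hb : ∀ i j, |M i j| ≤ bM) (hN : 0 ≤ Nb) (h2 : t < t')
    (h3 : t' ≤ 1) (hk : Sh S (t' - t)) (u : Pair n → ℝ) :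
    (t' - t) * ET S t M u ≤ 8 * (Aw S t t' (TN S t' M) u - TN S t M u) +
      (64 * Nb * (Aw S t t' (TL S t' M) u - TL S t M u) +
        48 * (n : ℝ) ^ 2 * ((n : ℝ) ^ 2 * bM + 1) * (Aw S t t' (bd S Nb t') u + bd S Nb t u)) := by
  have hc := c11_uu S.c11 S.x0 t'
  set s := √(t' - t) with hs
  have hs2 : s ^ 2 = t' - t := Real.sq_sqrt (by linarith)
  have hs0 : 0 < s := Real.sqrt_pos.2 (by linarith)
  have hMt : tF S t M u + 1 = Ax x s (uu x t' S.F) (fun v => tF S t' M v + 1) u := by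
    have h := Aw_add S t t' (eg_tF (S := S) t' M) (EG.const 1) u
    rw [Aw_tF h2.le h3, Aw_const] at h
    exact h.symm
  set a0 := tF S t M u with ha0
  have ha00 : 0 ≤ a0 := tF_nonneg hM u
  have hbM : (n : ℝ) ^ 2 * bM + 1 ≥ a0 + 1 := by
    have := (le_abs_self _).trans (tF_le (S := S) hb t u)
    linarith
  have e0 := eg_tF (S := S) t' M
  have eL := eg_TL (S := S) hM hb t'
  have eb := eg_bd S Nb t'
  -- the majorant
  set c1 : ℝ := 32 * Nb with hc1
  set c2 : ℝ := 24 * (n : ℝ) ^ 2 * ((n : ℝ) ^ 2 * bM + 1) with hc2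
  have eΨ1 : EG fun v => c1 * (TL S t' M v - (tF S t' M v + 1) * Real.log (a0 + 1) -
      (tF S t' M v + 1) + (a0 + 1)) :=
    (((eL.sub ((e0.add (EG.const 1)).mul (EG.const _))).sub (e0.add (EG.const 1))).add
      (EG.const _)).const_mul _
  have eΨ2 : EG fun v => c2 * (bd S Nb t' v + bd S Nb t u) :=
    (eb.add (EG.const _)).const_mul _
  have key := St.en1_layer hc x (K := Fin n × Fin n) (ψ := fun v => tF S t' M v + 1)
    (φ := fun p v => S.A t' v p.1 p.2) (φ' := fun p e v => S.DA t' e v p.1 p.2) (d0 := 1)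
    (s := s) (e0.add (EG.const 1)) one_pos
    (fun v => by have := tF_nonneg (S := S) (t := t') hM v; linarith)
    (fun p => S.eg_A t' p.1 p.2) (fun p e => S.eg_DA t' e p.1 p.2)
    (fun p => S.fd_A t' p.1 p.2) hs0 (by rw [hs2]; exact hk) u (eΨ1.add eΨ2) (by
      intro v
      rw [← hMt]
      have a2 : ∀ p : Fin n × Fin n, Ax x s (uu x t' S.F) (fun v => S.A t' v p.1 p.2) u =
        S.A t u p.1 p.2 := fun p => (A_tw S h2.le h3 u p.1 p.2).symm
      simp only [a2]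
      have hv0 := tF_nonneg (S := S) (t := t') hM v
      have hvM : tF S t' M v ≤ (n : ℝ) ^ 2 * bM :=
        (le_abs_self _).trans (tF_le (S := S) hb t' v)
      have f1 : ∑ p : Fin n × Fin n, (S.A t' v p.1 p.2 + 3 * S.A t u p.1 p.2) ^ 2 ≤
          16 * Nb + 12 * (n : ℝ) ^ 2 * (bd S Nb t' v + bd S Nb t u) := by
        have g1 : ∑ p : Fin n × Fin n, (S.A t' v p.1 p.2 + 3 * S.A t u p.1 p.2) ^ 2 ≤
            4 * fr (S.A t' v) + 12 * fr (S.A t u) := by
          rw [fr_pr, fr_pr, Finset.mul_sum, Finset.mul_sum, ← Finset.sum_add_distrib]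
          refine Finset.sum_le_sum fun p _ => ?_
          nlinarith [sq_nonneg (S.A t' v p.1 p.2 - S.A t u p.1 p.2)]
        have g2 := frA_le_bd (S := S) hN t' v
        have g3 := frA_le_bd (S := S) hN t u
        have g4 : 0 ≤ (n : ℝ) ^ 2 * bd S Nb t' v := mul_nonneg (by positivity) (bd_nonneg _ _ _)
        linarith
      have f2 := St.chi_ent (a := tF S t' M v + 1) (m := a0 + 1) (by linarith) (by linarith)
      have f3 : (tF S t' M v + 1 - (a0 + 1)) ^ 2 / (tF S t' M v + 1 + (a0 + 1)) ≤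
          2 * ((n : ℝ) ^ 2 * bM + 1) := by
        rw [div_le_iff₀ (by linarith)]
        have g5 : (tF S t' M v + 1 - (a0 + 1)) ^ 2 ≤ (tF S t' M v + 1 + (a0 + 1)) ^ 2 := by
          nlinarith
        calc (tF S t' M v + 1 - (a0 + 1)) ^ 2 ≤ (tF S t' M v + 1 + (a0 + 1)) ^ 2 := g5
          _ = (tF S t' M v + 1 + (a0 + 1)) * (tF S t' M v + 1 + (a0 + 1)) := by ring
          _ ≤ 2 * ((n : ℝ) ^ 2 * bM + 1) * (tF S t' M v + 1 + (a0 + 1)) :=
              mul_le_mul_of_nonneg_right (by linarith) (by linarith)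
      set R := (tF S t' M v + 1 - (a0 + 1)) ^ 2 / (tF S t' M v + 1 + (a0 + 1)) with hR
      have hR0 : 0 ≤ R := div_nonneg (sq_nonneg _) (by linarith)
      have g6 : 0 ≤ 12 * (n : ℝ) ^ 2 * (bd S Nb t' v + bd S Nb t u) :=
        mul_nonneg (by positivity) (add_nonneg (bd_nonneg _ _ _) (bd_nonneg _ _ _))
      calc R * ∑ p : Fin n × Fin n, (S.A t' v p.1 p.2 + 3 * S.A t u p.1 p.2) ^ 2
          ≤ R * (16 * Nb + 12 * (n : ℝ) ^ 2 * (bd S Nb t' v + bd S Nb t u)) :=
            mul_le_mul_of_nonneg_left f1 hR0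
        _ = R * (16 * Nb) + R * (12 * (n : ℝ) ^ 2 * (bd S Nb t' v + bd S Nb t u)) := by ring
        _ ≤ 2 * ((tF S t' M v + 1) * Real.log (tF S t' M v + 1) -
            (tF S t' M v + 1) * Real.log (a0 + 1) - (tF S t' M v + 1) + (a0 + 1)) * (16 * Nb) +
            2 * ((n : ℝ) ^ 2 * bM + 1) *
              (12 * (n : ℝ) ^ 2 * (bd S Nb t' v + bd S Nb t u)) :=
            add_le_add (mul_le_mul_of_nonneg_right f2 (by positivity))
              (mul_le_mul_of_nonneg_right f3 g6)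
        _ = _ := by
            simp only [hc1, hc2]
            unfold TL
            ring)
  rw [← hMt] at key
  have a2 : ∀ p : Fin n × Fin n, Ax x s (uu x t' S.F) (fun v => S.A t' v p.1 p.2) u =
    S.A t u p.1 p.2 := fun p => (A_tw S h2.le h3 u p.1 p.2).symm
  have a3 : ∀ (p : Fin n × Fin n) (e : Pair n), GA x s (uu x t' S.F) (dd x t' S.F S.D)
      (fun v => S.A t' v p.1 p.2) (fun e v => S.DA t' e v p.1 p.2) u e =
      S.DA t e u p.1 p.2 := fun p e => GA_A h2.le h3 p.1 p.2 u e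
  simp only [a2, a3] at key
  rw [hs2] at key
  have b4 : ∑ p : Fin n × Fin n, ∑ e : Pair n, S.DA t e u p.1 p.2 ^ 2 =
      ∑ e : Pair n, fr (S.DA t e u) := by
    rw [Finset.sum_comm]
    exact Finset.sum_congr rfl fun e _ => (fr_pr _).symm
  simp only [b4, ← fr_pr] at key
  have b5 : Ax x s (uu x t' S.F) (fun v => c1 * (TL S t' M v -
      (tF S t' M v + 1) * Real.log (a0 + 1) - (tF S t' M v + 1) + (a0 + 1)) +
      c2 * (bd S Nb t' v + bd S Nb t u)) u =
      c1 * (Aw S t t' (TL S t' M) u - TL S t M u) +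
        c2 * (Aw S t t' (bd S Nb t') u + bd S Nb t u) := by
    have g1 := Aw_add S t t' eΨ1 eΨ2 u
    have g2 := Aw_const_mul S t t' c1 (fun v => TL S t' M v -
      (tF S t' M v + 1) * Real.log (a0 + 1) - (tF S t' M v + 1) + (a0 + 1)) u
    have g3 := Aw_const_mul S t t' c2 (fun v => bd S Nb t' v + bd S Nb t u) u
    have g4 := Aw_add S t t' eb (EG.const (bd S Nb t u)) u
    have g5 := Aw_add S t t' ((eL.sub ((e0.add (EG.const 1)).mul (EG.const
      (Real.log (a0 + 1))))).sub (e0.add (EG.const 1))) (EG.const (a0 + 1)) u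
    have g6 : Aw S t t' (fun v => TL S t' M v - (tF S t' M v + 1) * Real.log (a0 + 1) -
        (tF S t' M v + 1)) u = Aw S t t' (TL S t' M) u -
        (a0 + 1) * Real.log (a0 + 1) - (a0 + 1) := by
      have e : (fun v => TL S t' M v - (tF S t' M v + 1) * Real.log (a0 + 1) -
          (tF S t' M v + 1)) = fun v => TL S t' M v +
          (-(Real.log (a0 + 1)) - 1) * (tF S t' M v + 1) := by funext v; ring
      have g7 := Aw_add S t t' eL ((e0.add (EG.const 1)).const_mul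
        (-(Real.log (a0 + 1)) - 1)) u
      have g8 := Aw_const_mul S t t' (-(Real.log (a0 + 1)) - 1)
        (fun v => tF S t' M v + 1) u
      have g9 := Aw_add S t t' e0 (EG.const 1) u
      rw [Aw_tF h2.le h3, Aw_const] at g9
      rw [e, g7, g8, g9]
      ring
    rw [Aw_const] at g4 g5
    rw [g6] at g5
    rw [g4] at g3
    rw [g5] at g2
    rw [g2, g3] at g1
    refine g1.trans ?_
    have g10 : TL S t M u = (a0 + 1) * Real.log (a0 + 1) := rfl
    rw [g10]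
    ring
  rw [b5] at key
  have b6 : (a0 + 1) * fr (S.A t u) = TN S t M u := rfl
  rw [b6] at key
  have b7 : (t' - t) * ET S t M u = (t' - t) * ((a0 + 1) * ∑ e : Pair n, fr (S.DA t e u)) := rfl
  rw [b7]
  have b8 : Ax x s (uu x t' S.F) (fun v => (tF S t' M v + 1) * fr (S.A t' v)) u =
    Aw S t t' (TN S t' M) u := rfl
  rw [b8] at key
  have b9 : 2 * (c1 * (Aw S t t' (TL S t' M) u - TL S t M u) +
        c2 * (Aw S t t' (bd S Nb t') u + bd S Nb t u)) =
      64 * Nb * (Aw S t t' (TL S t' M) u - TL S t M u) +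
        48 * (n : ℝ) ^ 2 * ((n : ℝ) ^ 2 * bM + 1) * (Aw S t t' (bd S Nb t') u + bd S Nb t u) := by
    simp only [hc1, hc2]
    ring
  linarith

end Vale.Agent.P146.H712.En1
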