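import Vale.Agent.P146.H712.En1
import Vale.Agent.P146.H941.KapG

/-!
The numbers of the row [KAP] at the two-layer law `GTwo` in the letters of the layered law.
-/

open MeasureTheory ProbabilityTheory

namespace Vale.Agent.P146.H712.En1

open Vale.Agent.P157.Lv Vale.Agent.P146.H425 Vale.Agent.P146.H325 Vale.Agent.P146.H332
  Vale.Agent.P146.H712 Vale.Agent.P146.H816 Vale.Agent.P146.R1 Vale.Agent.P146.R1C Matrix
  Vale.Agent.P146.R1S Vale.Agent.P146.H693 Vale.Agent.P146.H655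
open Vale.Agent.P146.H785 (Ax)
open Vale.Agent.P146.H946.En2 (bd eg_bd bd_nonneg frA_le_bd frA_nonneg frA_le eg_frA eg_sDA pB
  fr_pr GA_A eg_pB pB_nonneg)
open Vale.Agent.P146.Cum (cF2 Rn)
open Vale.Agent.P146.H941 (yC)

set_option linter.unusedSectionVars false

variable {n : ℕ} {k : ℝ} {q : Par} {S : CS n k q.x} {y h : ℝ} {m σ : ℕ → ℝ}

/-- the layers below the window of the two-layer law -/
structure Two2 (q : Par) (y h : ℝ) (m σ : ℕ → ℝ) : Prop where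
  m0 : m 0 = y
  m1 : m 1 = 0
  s0 : σ 0 = √h
  s1 : σ 1 = √(q.t1 - h - q.t0)

lemma Two2.pm (h2 : Two2 q y h m σ) (hy : 0 < y) : Pm m 2 := by
  intro j hj
  have : j = 0 := by omega
  subst this
  rw [h2.m0]
  exact hy

lemma two2_m3 : Two2 q y h (fun j => m3 q y (1 + j)) (fun j => s3 q h (1 + j)) := by
  refine ⟨?_, ?_, ?_, ?_⟩ <;> simp [m3, s3]

lemma E1_congr {x w t : ℝ} {S : CS n k x} {m' σ' : ℕ → ℝ} (h0 : m 0 = m' 0)
    (h1 : m 1 = m' 1) (h2 : σ 0 = σ' 0) (h3 : σ 1 = σ' 1) (φ : (Pair n → ℝ) → ℝ)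
    (z : Pair n → ℝ) : E1 S w m σ 2 t φ z = E1 S w m' σ' 2 t φ z := by
  show Ax (m 1) (σ 1) (W (m 0) (σ 0) (uu x w S.F)) (Ax (m 0) (σ 0) (uu x w S.F) (Aw S w t φ)) z =
    Ax (m' 1) (σ' 1) (W (m' 0) (σ' 0) (uu x w S.F))
      (Ax (m' 0) (σ' 0) (uu x w S.F) (Aw S w t φ)) z
  rw [h0, h1, h2, h3]

lemma Tl_E1 (hT : Tm q y h) (h2 : Two2 q y h m σ) (φ : (Pair n → ℝ) → ℝ) (z : Pair n → ℝ) :
    Tl S q.s2 (m3 q y) (s3 q h) φ 3 z = E1 S q.t1 m σ 2 q.s2 φ z := by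
  have h3 := two2_m3 (q := q) (y := y) (h := h)
  rw [Tl_eq_E1 (S := S) (t := q.s2) (w := q.t1) (hT.h1.trans hT.h2) hT.h3 (by simp [m3])
    (by simp [s3]) φ 2 z]
  exact E1_congr (h3.m0.trans h2.m0.symm) (h3.m1.trans h2.m1.symm) (h3.s0.trans h2.s0.symm)
    (h3.s1.trans h2.s1.symm) φ z

/-- the mean of a weight times a function of the last position -/
theorem ewg_tF (hT : Tm q y h) (h2 : Two2 q y h m σ)
    {V : (Pair n → ℝ) → Matrix (Fin n) (Fin n) ℝ} (hV : ∀ i j, EG fun z => V z i j)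
    {φ : (Pair n → ℝ) → ℝ} (hφ : EG φ) :
    EwG q (R1C.GTwo q y h S.F S.D) S.F (fun w => tF S q.s2 (V (P0 q w)) (P3 q w) * φ (P3 q w)) =
      ∫ g, E1 S q.t1 m σ 2 q.s2 (fun u => tF S q.s2 (V (√q.t0 • g)) u * φ u) (√q.t0 • g)
        ∂(gI (Pair n)) := by
  have h1 := EwG_deep (S := S) hT (Finset.univ : Finset (Fin n × Fin n))
    (α := fun p z => V z p.1 p.2) (δ := fun p u => S.A q.s2 u p.1 p.2 * φ u)
    (fun p _ => hV p.1 p.2) fun p _ => (S.eg_A q.s2 p.1 p.2).mul hφ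
  have e1 : (fun w : K4 (Pair n) → ℝ => tF S q.s2 (V (P0 q w)) (P3 q w) * φ (P3 q w)) = fun w =>
      ∑ p : Fin n × Fin n, (fun p z => V z p.1 p.2) p (P0 q w) *
        (fun p u => S.A q.s2 u p.1 p.2 * φ u) p (P3 q w) := by
    funext w
    rw [Fintype.sum_prod_type]
    unfold tF
    rw [Finset.sum_mul]
    refine Finset.sum_congr rfl fun i _ => ?_
    rw [Finset.sum_mul]
    exact Finset.sum_congr rfl fun j _ => by ring
  rw [e1, h1]
  refine integral_congr_ae (Filter.Eventually.of_forall fun g => ?_)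
  simp only
  rw [E1_tF (h2.pm hT.hy) hφ, Fintype.sum_prod_type]
  refine Finset.sum_congr rfl fun i _ => Finset.sum_congr rfl fun j _ => ?_
  rw [Tl_E1 hT h2]

/-- the mean of a function of the last position -/
theorem ewg_one (hT : Tm q y h) (h2 : Two2 q y h m σ) {φ : (Pair n → ℝ) → ℝ} (hφ : EG φ) :
    EwG q (R1C.GTwo q y h S.F S.D) S.F (fun w => φ (P3 q w)) =
      ∫ g, E1 S q.t1 m σ 2 q.s2 φ (√q.t0 • g) ∂(gI (Pair n)) := by
  have h1 := EwG_deep (S := S) hT (Finset.univ : Finset Unit)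
    (α := fun _ _ => 1) (δ := fun _ u => φ u) (fun _ _ => EG.const 1) fun _ _ => hφ
  simp only [Finset.univ_unique, Finset.sum_singleton, one_mul] at h1
  rw [h1]
  refine integral_congr_ae (Filter.Eventually.of_forall fun g => ?_)
  simp only
  rw [Tl_E1 hT h2]

/-- the row mean of `Q_1` in both letters -/
lemma Yd_Q1 (hT : Tm q y h) (h2 : Two2 q y h m σ) (z : Pair n → ℝ) (i j : Fin n) :
    Yd S y h z i j = Q1 S q.t1 m σ 2 q.s2 z i j := by
  unfold H693.Yd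
  show Tl S q.s2 (m3 q y) (s3 q h) (A2 S q.s2 i j) 3 z = _
  rw [Tl_E1 hT h2]
  rfl

lemma yC_tF (hT : Tm q y h) (h2 : Two2 q y h m σ) (w : K4 (Pair n) → ℝ) :
    yC S y h w = tF S q.s2 (Yrow q.t0 (Q1 S q.t1 m σ 2) q.s2 (P0 q w)) (P3 q w) := by
  unfold H941.yC tF
  rw [Finset.sum_comm]
  refine Finset.sum_congr rfl fun i _ => ?_
  rw [Finset.sum_comm]
  refine Finset.sum_congr rfl fun j _ => ?_
  rw [← Finset.sum_mul]
  congr 1
  unfold Yrow H693.Yb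
  refine Finset.sum_congr rfl fun b _ => ?_
  congr 1
  funext z
  exact Yd_Q1 hT h2 z i j

/-- `∑_b E tr (Y_b C)` in the letters of the layered law -/
theorem yC_TFW (hT : Tm q y h) (h2 : Two2 q y h m σ) :
    EwG q (R1C.GTwo q y h S.F S.D) S.F (yC S y h) =
      TFW S q.t1 m σ 2 (√q.t0) (Yrow q.t0 (Q1 S q.t1 m σ 2) q.s2) q.s2 := by
  have hm := h2.pm hT.hy
  have hY := (mono_row (mono_Q1 (S := S) (w := q.t1) (σ := σ) hm) q.t0).eg q.s2
  have h1 := ewg_tF (S := S) hT h2 hY (EG.const 1)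
  simp only [mul_one] at h1
  have e : yC S y h = fun w => tF S q.s2 (Yrow q.t0 (Q1 S q.t1 m σ 2) q.s2 (P0 q w)) (P3 q w) :=
    funext fun w => yC_tF hT h2 w
  rw [e, h1]
  rfl

/-- `∑_b E tr (Y_b C) ∑_e |D_e C|²` in the letters of the layered law -/
theorem yC_ETW (hT : Tm q y h) (h2 : Two2 q y h m σ) :
    EwG q (R1C.GTwo q y h S.F S.D) S.F (fun w => yC S y h w * Rn S q.s2 (P3 q w)) ≤
      ETW S q.t1 m σ 2 (√q.t0) (Yrow q.t0 (Q1 S q.t1 m σ 2) q.s2) q.s2 := by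
  have hm := h2.pm hT.hy
  have hY := (mono_row (mono_Q1 (S := S) (w := q.t1) (σ := σ) hm) q.t0).eg q.s2
  have h1 := ewg_tF (S := S) hT h2 hY (eg_sDA (S := S) q.s2)
  have e : (fun w => yC S y h w * Rn S q.s2 (P3 q w)) = fun w =>
      tF S q.s2 (Yrow q.t0 (Q1 S q.t1 m σ 2) q.s2 (P0 q w)) (P3 q w) *
        (fun u => ∑ e : Pair n, fr (S.DA q.s2 e u)) (P3 q w) := by
    funext w
    rw [yC_tF hT h2]
    rfl
  rw [e, h1]
  unfold ETW
  refine integral_mono (eg_lin1 (S := S) (w := q.t1) (t := q.s2) (σ := σ) hm hY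
    (eg_sDA q.s2) (√q.t0)).integrable (eg_ETW (S := S) (w := q.t1) (t := q.s2) (σ := σ) hm hY
    (√q.t0)).integrable fun g => ?_
  refine E1_mono hm ((eg_tF q.s2 _).mul (eg_sDA q.s2)) (eg_ET q.s2 _) (fun u => ?_) _
  have := sDA_nonneg (S := S) q.s2 u
  unfold ET
  nlinarith

/-- the probability of a large matrix in the letters of the layered law -/
theorem cF2_pB (hT : Tm q y h) (h2 : Two2 q y h m σ) (Nb : ℝ) :
    EwG q (R1C.GTwo q y h S.F S.D) S.F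
      (fun w => if Nb < cF2 S q.s2 (P3 q w) then (1 : ℝ) else 0) =
      pB S q.t1 m σ 2 (√q.t0) Nb q.s2 := by
  have h1 := ewg_one (S := S) hT h2 (eg_bd S Nb q.s2)
  have e : (fun w => if Nb < cF2 S q.s2 (P3 q w) then (1 : ℝ) else 0) = fun w =>
      bd S Nb q.s2 (P3 q w) := by
    funext w
    unfold H946.En2.bd
    have e2 : cF2 S q.s2 (P3 q w) = fr (S.A q.s2 (P3 q w)) := rfl
    rw [e2]
    by_cases hc : Nb < fr (S.A q.s2 (P3 q w))
    · rw [if_pos hc, if_neg (not_le.2 hc)]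
    · rw [if_neg hc, if_pos (not_lt.1 hc)]
  rw [e, h1]
  rfl

end Vale.Agent.P146.H712.En1
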