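import Vale.Agent.P146.H712.KapD

/-!
The row [KAP] at the two-layer law as a number: `∑_b E nl_b ≤ C K³ ρ R / n` plus the linear part.
-/

open MeasureTheory ProbabilityTheory Filter Topology

namespace Vale.Agent.P146.H712.En1

open Vale.Agent.P157.Lv Vale.Agent.P146.H425 Vale.Agent.P146.H325 Vale.Agent.P146.H332
  Vale.Agent.P146.H712 Vale.Agent.P146.H816 Vale.Agent.P146.R1 Vale.Agent.P146.R1C
  Vale.Agent.P146.R1S Vale.Agent.P146.H693 Vale.Agent.P146.H655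
open Vale.Agent.P146.H785 (Ax)
open Vale.Agent.P146.H946.En2 (pB)
open Vale.Agent.P146.Cum (cF2 Rn cK cR cR_le cR_one cK_nonneg eKap Fn)
open Vale.Agent.P146.H941 (yC nl)

set_option linter.unusedSectionVars false

/-- the constant of the row [KAP] -/
noncomputable def CK (β : ℝ) : ℝ := β ^ 6 * (6 * 4 ^ 3) ^ 2 * Real.exp (256 * β ^ 2)

lemma CK_pos {β : ℝ} (hβ : 0 < β) : 0 < CK β := by
  unfold CK
  positivity

lemma cK_le {β s : ℝ} {n : ℕ} (hβ : 0 < β) (hn : 0 < n) (hs : 0 ≤ s) (hs1 : s ≤ 1) :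
    cK s (β / √n) 4 n ≤ CK β / (n : ℝ) ^ 3 := by
  have hn0 : (0 : ℝ) < n := by exact_mod_cast hn
  set k := β / √n with hk
  have hk2 : k ^ 2 = β ^ 2 / n := by rw [hk, div_pow, Real.sq_sqrt hn0.le]
  have hk0 : 0 ≤ k := by positivity
  have h1 := cR_le s k 4 hs n
  have h2 : 16 * s * k ^ 2 * 4 ^ 2 * n ≤ 256 * β ^ 2 := by
    rw [hk2]
    have e : 16 * s * (β ^ 2 / n) * 4 ^ 2 * n = 256 * β ^ 2 * s := by
      field_simp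
      ring
    rw [e]
    have : 0 ≤ 256 * β ^ 2 := by positivity
    nlinarith
  have h3 : cR s k 4 n ≤ Real.exp (256 * β ^ 2) := h1.trans (Real.exp_le_exp.2 h2)
  have h4 : 0 ≤ cR s k 4 n := le_trans zero_le_one (cR_one hs)
  unfold Cum.cK
  have e6 : CK β / (n : ℝ) ^ 3 = k ^ 2 * (k ^ 4 * (6 * 4 ^ 3) ^ 2 * Real.exp (256 * β ^ 2)) := by
    have e4 : k ^ 4 = β ^ 4 / n ^ 2 := by
      have : k ^ 4 = (k ^ 2) ^ 2 := by ring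
      rw [this, hk2]
      field_simp
    rw [e4, hk2]
    unfold CK
    field_simp
  rw [e6]
  have s2 : s ^ 2 ≤ 1 := pow_le_one₀ hs hs1
  have h5 : s ^ 2 * (k ^ 4 * (6 * 4 ^ 3) ^ 2) * (cR s k 4 n / 2) ≤
      k ^ 4 * (6 * 4 ^ 3) ^ 2 * Real.exp (256 * β ^ 2) := by
    have a1 : s ^ 2 * (k ^ 4 * (6 * 4 ^ 3) ^ 2) ≤ 1 * (k ^ 4 * (6 * 4 ^ 3) ^ 2) :=
      mul_le_mul_of_nonneg_right s2 (by positivity)
    rw [one_mul] at a1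
    exact mul_le_mul a1 (by linarith) (by positivity) (by positivity)
  have h6 : s * k ^ 2 ≤ k ^ 2 := by
    have : 0 ≤ k ^ 2 := sq_nonneg k
    nlinarith
  exact mul_le_mul h6 h5 (by positivity) (by positivity)

/-- powers against constants and logarithms -/
lemma ev_cl {β c c2 : ℝ} (hβ : 0 < β) (hc : c2 < c) : ∀ᶠ n : ℕ in atTop,
    (n : ℝ) ^ c2 * (10 + 64 * Real.log ((n : ℝ) ^ 4 + 1)) ≤ β ^ 2 * (n : ℝ) ^ c := by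
  have hd : 0 < (c - c2) / 2 := by linarith
  have h1 : Tendsto (fun n : ℕ => (n : ℝ) ^ ((c - c2) / 2)) atTop atTop :=
    (tendsto_rpow_atTop hd).comp tendsto_natCast_atTop_atTop
  filter_upwards [h1.eventually_ge_atTop (640 / ((c - c2) / 2) / β ^ 2 + 75 / β ^ 2),
    eventually_ge_atTop 1] with n h2 hn
  have hn1 : (1 : ℝ) ≤ n := by exact_mod_cast hn
  have hn0 : (0 : ℝ) < n := by linarith
  set u := (n : ℝ) ^ ((c - c2) / 2) with hu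
  have hu0 : 0 < u := Real.rpow_pos_of_pos hn0 _
  have hu1 : 1 ≤ u := Real.one_le_rpow hn1 hd.le
  have hlog : Real.log n ≤ u / ((c - c2) / 2) := Real.log_le_rpow_div hn0.le hd
  have h3 : Real.log ((n : ℝ) ^ 4 + 1) ≤ 1 + 4 * Real.log n := by
    have a1 : (n : ℝ) ^ 4 + 1 ≤ Real.exp 1 * (n : ℝ) ^ 4 := by
      have b1 : 1 ≤ (n : ℝ) ^ 4 := one_le_pow₀ hn1
      have b2 : (2 : ℝ) ≤ Real.exp 1 := by
        have := Real.add_one_le_exp (1 : ℝ)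
        linarith
      nlinarith
    have a2 := Real.log_le_log (by positivity) a1
    rw [Real.log_mul (Real.exp_pos 1).ne' (by positivity), Real.log_exp, Real.log_pow] at a2
    push_cast at a2
    exact a2
  have h4 : 10 + 64 * Real.log ((n : ℝ) ^ 4 + 1) ≤ β ^ 2 * (u * u) := by
    have a1 : 10 + 64 * Real.log ((n : ℝ) ^ 4 + 1) ≤ 75 * u + 256 * (u / ((c - c2) / 2)) := by
      linarith
    have a2 : 75 + 256 / ((c - c2) / 2) ≤ β ^ 2 * u := by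
      have b1 : β ^ 2 * (640 / ((c - c2) / 2) / β ^ 2 + 75 / β ^ 2) =
          640 / ((c - c2) / 2) + 75 := by field_simp
      have b2 := mul_le_mul_of_nonneg_left h2 (sq_nonneg β)
      rw [b1] at b2
      have b3 : 256 / ((c - c2) / 2) ≤ 640 / ((c - c2) / 2) :=
        div_le_div_of_nonneg_right (by norm_num) hd.le
      linarith
    calc 10 + 64 * Real.log ((n : ℝ) ^ 4 + 1) ≤ 75 * u + 256 * (u / ((c - c2) / 2)) := a1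
      _ = (75 + 256 / ((c - c2) / 2)) * u := by ring
      _ ≤ β ^ 2 * u * u := mul_le_mul_of_nonneg_right a2 hu0.le
      _ = _ := by ring
  have h5 : u * u * (n : ℝ) ^ c2 = (n : ℝ) ^ c := by
    rw [hu, ← Real.rpow_add hn0, ← Real.rpow_add hn0]
    congr 1
    ring
  calc (n : ℝ) ^ c2 * (10 + 64 * Real.log ((n : ℝ) ^ 4 + 1)) ≤
        (n : ℝ) ^ c2 * (β ^ 2 * (u * u)) :=
        mul_le_mul_of_nonneg_left h4 (Real.rpow_nonneg hn0.le _)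
    _ = β ^ 2 * (u * u * (n : ℝ) ^ c2) := by ring
    _ = _ := by rw [h5]

/-- the constants of the law change, `x ≤ n^(-a)` -/
lemma ev_law {β a : ℝ} (hβ : 0 < β) (ha : 0 < a) : ∀ᶠ n : ℕ in atTop,
    ∀ x : ℝ, 0 < x → x ≤ (n : ℝ) ^ (-a) → ∃ p : ℕ,
      ((2 * p + 2 : ℕ) : ℝ) ^ 2 * (18 * x ^ 2 * (β / √n) ^ 2 * n) ≤ 1 ∧
      (1 : ℝ) / 2 ^ p ≤ ((n : ℝ) ^ 200)⁻¹ ∧
      ((p : ℝ) + 1) ^ 2 * (18 * x ^ 2 * (β / √n) ^ 2 * n) ≤ 1 ∧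
      (3 : ℝ) / 2 ^ p ≤ ((n : ℝ) ^ 200)⁻¹ := by
  obtain ⟨n₀, -, hn₀⟩ := law_const_a (β := β) (a := a / 2) hβ (by linarith)
  have h1 : Tendsto (fun n : ℕ => (n : ℝ) ^ (a / 2)) atTop atTop :=
    (tendsto_rpow_atTop (by linarith)).comp tendsto_natCast_atTop_atTop
  filter_upwards [h1.eventually_ge_atTop 2, eventually_ge_atTop n₀, eventually_ge_atTop 1]
    with n h2 h3 hn x hx hxa
  have hn0 : (0 : ℝ) < n := by exact_mod_cast hn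
  have h4 : 2 * x * (n : ℝ) ^ (a / 2) ≤ 1 := by
    have a1 : (n : ℝ) ^ (-a) * (n : ℝ) ^ (a / 2) * (n : ℝ) ^ (a / 2) = 1 := by
      rw [← Real.rpow_add hn0, ← Real.rpow_add hn0]
      have : -a + a / 2 + a / 2 = 0 := by ring
      rw [this, Real.rpow_zero]
    have hp : 0 < (n : ℝ) ^ (a / 2) := Real.rpow_pos_of_pos hn0 _
    calc 2 * x * (n : ℝ) ^ (a / 2) ≤ (n : ℝ) ^ (a / 2) * x * (n : ℝ) ^ (a / 2) := by
          gcongr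
      _ ≤ (n : ℝ) ^ (a / 2) * (n : ℝ) ^ (-a) * (n : ℝ) ^ (a / 2) := by gcongr
      _ = 1 := by rw [← a1]; ring
  obtain ⟨-, p, hp, hε⟩ := hn₀ n h3 (2 * x) (by linarith) h4
  have hk : R1C.kk n β = β / √n := rfl
  rw [hk] at hp
  have hpos : 0 ≤ 18 * x ^ 2 * (β / √n) ^ 2 * n := by positivity
  refine ⟨p, ?_, ?_, ?_, hε⟩
  · refine le_trans (le_of_eq ?_) hp
    push_cast
    ring
  · refine le_trans ?_ hε
    exact div_le_div_of_nonneg_right (by norm_num) (by positivity)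
  · refine le_trans ?_ hp
    have : 0 ≤ ((p : ℝ) + 1) ^ 2 := sq_nonneg _
    have e : 18 * (2 * x) ^ 2 * (β / √n) ^ 2 * n = 4 * (18 * x ^ 2 * (β / √n) ^ 2 * n) := by ring
    rw [e]
    nlinarith [mul_nonneg this hpos]

/-- the main part of the row [KAP] in real numbers -/
lemma kap_main {n β x M K ρ B R hh N1 N2 Cc nc cv k : ℝ} (hn : 1 ≤ n) (hβ : 0 < β) (hx : 0 < x)
    (hh0 : 0 < hh) (hρ : 0 < ρ) (hK : 1 ≤ K) (hM1 : n * ρ ≤ M) (hM2 : M ≤ K * (n * ρ))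
    (hCc : 0 ≤ Cc) (hc0 : 0 ≤ cv) (hcv : cv ≤ Cc / n ^ 3) (hk : k ^ 2 = β ^ 2 / n)
    (hN1 : N1 ≤ 2 * n * B) (hN2 : hh * N2 ≤ β ^ 2 * nc * (M ^ 2 * (3 * n * B)))
    (hB : 0 ≤ B) (hnc : 0 ≤ nc) (hnum : n ^ 3 * nc ≤ x ^ 2 * hh * (n * ρ) ^ 4)
    (hRB : (n * ρ) ^ 2 * B ≤ 2 * R) :
    436 * cv * (M ^ 3 * N1 + n ^ 2 / (k ^ 2 * x ^ 2 * M ^ 3) * N2) ≤
      4360 * Cc * K ^ 3 * (ρ * R / n) := by
  have hn0 : 0 < n := by linarith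
  have hlam : 0 < n * ρ := mul_pos hn0 hρ
  have hM : 0 < M := lt_of_lt_of_le hlam hM1
  have hR : 0 ≤ R := by
    have : 0 ≤ (n * ρ) ^ 2 * B := by positivity
    linarith
  have hK3 : 1 ≤ K ^ 3 := one_le_pow₀ hK
  have hK0 : 0 ≤ K := by linarith
  -- first part
  have a1 : cv * (M ^ 3 * N1) ≤ 4 * Cc * K ^ 3 * (ρ * R / n) := by
    have b1 : M ^ 3 * N1 ≤ (K * (n * ρ)) ^ 3 * (2 * n * B) := by
      have c1 : M ^ 3 * N1 ≤ M ^ 3 * (2 * n * B) := mul_le_mul_of_nonneg_left hN1 (by positivity)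
      have c2 : M ^ 3 ≤ (K * (n * ρ)) ^ 3 := pow_le_pow_left₀ hM.le hM2 3
      exact c1.trans (mul_le_mul_of_nonneg_right c2 (by positivity))
    have b2 : cv * (M ^ 3 * N1) ≤ Cc / n ^ 3 * ((K * (n * ρ)) ^ 3 * (2 * n * B)) :=
      (mul_le_mul_of_nonneg_left b1 hc0).trans (mul_le_mul_of_nonneg_right hcv (by positivity))
    have b3 : Cc / n ^ 3 * ((K * (n * ρ)) ^ 3 * (2 * n * B)) =
        2 * Cc * K ^ 3 * (ρ / n) * ((n * ρ) ^ 2 * B) := by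
      field_simp
    rw [b3] at b2
    have b4 := mul_le_mul_of_nonneg_left hRB (show 0 ≤ 2 * Cc * K ^ 3 * (ρ / n) by positivity)
    have b5 : 2 * Cc * K ^ 3 * (ρ / n) * (2 * R) = 4 * Cc * K ^ 3 * (ρ * R / n) := by ring
    linarith
  -- second part
  have a2 : cv * (n ^ 2 / (k ^ 2 * x ^ 2 * M ^ 3) * N2) ≤ 6 * Cc * (ρ * R / n) := by
    have b0 : N2 ≤ β ^ 2 * nc * (M ^ 2 * (3 * n * B)) / hh := by
      rw [le_div_iff₀ hh0]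
      linarith
    have b1 : n ^ 2 / (k ^ 2 * x ^ 2 * M ^ 3) * N2 ≤
        n ^ 2 / (k ^ 2 * x ^ 2 * M ^ 3) * (β ^ 2 * nc * (M ^ 2 * (3 * n * B)) / hh) :=
      mul_le_mul_of_nonneg_left b0 (by positivity)
    have b2 : n ^ 2 / (k ^ 2 * x ^ 2 * M ^ 3) * (β ^ 2 * nc * (M ^ 2 * (3 * n * B)) / hh) =
        3 * n ^ 4 * nc * B / (x ^ 2 * hh * M) := by
      rw [hk]
      field_simp
    rw [b2] at b1
    have b3 : 3 * n ^ 4 * nc * B / (x ^ 2 * hh * M) ≤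
        3 * n ^ 4 * nc * B / (x ^ 2 * hh * (n * ρ)) := by
      gcongr
    have b4 : cv * (n ^ 2 / (k ^ 2 * x ^ 2 * M ^ 3) * N2) ≤
        Cc / n ^ 3 * (3 * n ^ 4 * nc * B / (x ^ 2 * hh * (n * ρ))) :=
      (mul_le_mul_of_nonneg_left (b1.trans b3) hc0).trans
        (mul_le_mul_of_nonneg_right hcv (by positivity))
    have b5 : Cc / n ^ 3 * (3 * n ^ 4 * nc * B / (x ^ 2 * hh * (n * ρ))) =
        n ^ 3 * nc * (3 * Cc * B / (n ^ 2 * (x ^ 2 * hh * (n * ρ)))) := by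
      field_simp
    rw [b5] at b4
    have b6 := mul_le_mul_of_nonneg_right hnum
      (show 0 ≤ 3 * Cc * B / (n ^ 2 * (x ^ 2 * hh * (n * ρ))) by positivity)
    have b7 : x ^ 2 * hh * (n * ρ) ^ 4 * (3 * Cc * B / (n ^ 2 * (x ^ 2 * hh * (n * ρ)))) =
        3 * Cc * (ρ / n) * ((n * ρ) ^ 2 * B) := by
      field_simp
    have b8 := mul_le_mul_of_nonneg_left hRB (show 0 ≤ 3 * Cc * (ρ / n) by positivity)
    have b9 : 3 * Cc * (ρ / n) * (2 * R) = 6 * Cc * (ρ * R / n) := by ring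
    linarith
  have a3 : 6 * Cc * (ρ * R / n) ≤ 6 * Cc * K ^ 3 * (ρ * R / n) := by
    have h0 : 0 ≤ 6 * Cc * (ρ * R / n) := by positivity
    have := mul_le_mul_of_nonneg_left hK3 h0
    calc 6 * Cc * (ρ * R / n) = 6 * Cc * (ρ * R / n) * 1 := by ring
      _ ≤ 6 * Cc * (ρ * R / n) * K ^ 3 := this
      _ = _ := by ring
  have e : 436 * cv * (M ^ 3 * N1 + n ^ 2 / (k ^ 2 * x ^ 2 * M ^ 3) * N2) =
      436 * (cv * (M ^ 3 * N1)) + 436 * (cv * (n ^ 2 / (k ^ 2 * x ^ 2 * M ^ 3) * N2)) := by ring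
  rw [e]
  linarith

/-- the errors of the row [KAP] in real numbers -/
lemma kap_err {n : ℕ} {k l s M Cc cv ε δ : ℝ} {p : ℕ} (hn : 1 ≤ n) (hCc : 0 ≤ Cc)
    (hN : 20 + 436 * Cc ≤ n) (hs1 : s ≤ 1) (hkl : k ^ 2 * l ^ 2 * n = 1)
    (hM1 : 1 ≤ M) (hM2 : M ≤ (n : ℝ) ^ 2) (hc0 : 0 ≤ cv) (hcv : cv ≤ Cc / (n : ℝ) ^ 3)
    (hp : (1 : ℝ) / 2 ^ p ≤ ((n : ℝ) ^ 200)⁻¹) (hε0 : 0 ≤ ε) (hε : ε ≤ ((n : ℝ) ^ 200)⁻¹)
    (hδ0 : 0 ≤ δ) (hδ : δ ≤ ((n : ℝ) ^ 60)⁻¹) :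
    (n : ℝ) * (2 * ((n : ℝ) ^ 2 * (3 * n + 7 * k ^ 2 * (l ^ 2 * (n : ℝ) ^ 2) * n * s)) / 2 ^ p +
      2 * cv * (M ^ 3 * (ε * (n * (n : ℝ) ^ 2)) +
        (M ^ 3)⁻¹ * (ε * (n * (n : ℝ) ^ 2 * (n : ℝ) ^ 6)))) +
      432 * cv / M ^ 3 * ((n : ℝ) ^ 2 * (n : ℝ) ^ 2 * (n : ℝ) ^ 6 * δ) ≤ ((n : ℝ) ^ 20)⁻¹ := by
  have hn1 : (1 : ℝ) ≤ n := by exact_mod_cast hn
  have hn0 : (0 : ℝ) < n := by linarith
  have hcv1 : cv ≤ Cc := hcv.trans (div_le_self hCc (one_le_pow₀ hn1))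
  have hM3 : 1 ≤ M ^ 3 := one_le_pow₀ hM1
  have hM6 : M ^ 3 ≤ (n : ℝ) ^ 6 := by
    have := pow_le_pow_left₀ (by linarith) hM2 3
    calc M ^ 3 ≤ ((n : ℝ) ^ 2) ^ 3 := this
      _ = _ := by ring
  have hMi : (M ^ 3)⁻¹ ≤ 1 := inv_le_one_of_one_le₀ hM3
  have hMi0 : 0 ≤ (M ^ 3)⁻¹ := by positivity
  have t1 : 3 * (n : ℝ) + 7 * k ^ 2 * (l ^ 2 * (n : ℝ) ^ 2) * n * s ≤ 10 * (n : ℝ) ^ 2 := by
    have e : 7 * k ^ 2 * (l ^ 2 * (n : ℝ) ^ 2) * n * s =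
        7 * (k ^ 2 * l ^ 2 * n) * (n : ℝ) ^ 2 * s := by ring
    rw [e, hkl]
    have h2 : 7 * 1 * (n : ℝ) ^ 2 * s ≤ 7 * 1 * (n : ℝ) ^ 2 * 1 :=
      mul_le_mul_of_nonneg_left hs1 (by positivity)
    nlinarith
  have t2 : (n : ℝ) * (2 * ((n : ℝ) ^ 2 * (3 * n + 7 * k ^ 2 * (l ^ 2 * (n : ℝ) ^ 2) * n * s)) /
      2 ^ p) ≤ 20 * (n : ℝ) ^ 5 * ((n : ℝ) ^ 200)⁻¹ := by
    have h1 : (n : ℝ) * (2 * ((n : ℝ) ^ 2 * (3 * n + 7 * k ^ 2 * (l ^ 2 * (n : ℝ) ^ 2) * n * s)) /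
        2 ^ p) = 2 * (n : ℝ) ^ 3 * (3 * n + 7 * k ^ 2 * (l ^ 2 * (n : ℝ) ^ 2) * n * s) *
          (1 / 2 ^ p) := by ring
    rw [h1]
    calc 2 * (n : ℝ) ^ 3 * (3 * n + 7 * k ^ 2 * (l ^ 2 * (n : ℝ) ^ 2) * n * s) * (1 / 2 ^ p) ≤
          2 * (n : ℝ) ^ 3 * (10 * (n : ℝ) ^ 2) * ((n : ℝ) ^ 200)⁻¹ :=
          mul_le_mul (mul_le_mul_of_nonneg_left t1 (by positivity)) hp (by positivity)
            (by positivity)
      _ = _ := by ring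
  have t3 : M ^ 3 * (ε * (n * (n : ℝ) ^ 2)) + (M ^ 3)⁻¹ * (ε * (n * (n : ℝ) ^ 2 * (n : ℝ) ^ 6)) ≤
      2 * (n : ℝ) ^ 9 * ((n : ℝ) ^ 200)⁻¹ := by
    have h1 : M ^ 3 * (ε * (n * (n : ℝ) ^ 2)) ≤
        (n : ℝ) ^ 6 * (((n : ℝ) ^ 200)⁻¹ * (n * (n : ℝ) ^ 2)) :=
      mul_le_mul hM6 (mul_le_mul_of_nonneg_right hε (by positivity)) (by positivity)
        (by positivity)
    have h2 : (M ^ 3)⁻¹ * (ε * (n * (n : ℝ) ^ 2 * (n : ℝ) ^ 6)) ≤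
        1 * (((n : ℝ) ^ 200)⁻¹ * (n * (n : ℝ) ^ 2 * (n : ℝ) ^ 6)) :=
      mul_le_mul hMi (mul_le_mul_of_nonneg_right hε (by positivity)) (by positivity)
        zero_le_one
    have e1 : (n : ℝ) ^ 6 * (((n : ℝ) ^ 200)⁻¹ * (n * (n : ℝ) ^ 2)) =
        (n : ℝ) ^ 9 * ((n : ℝ) ^ 200)⁻¹ := by ring
    have e2 : 1 * (((n : ℝ) ^ 200)⁻¹ * (n * (n : ℝ) ^ 2 * (n : ℝ) ^ 6)) =
        (n : ℝ) ^ 9 * ((n : ℝ) ^ 200)⁻¹ := by ring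
    linarith
  have t4 : (n : ℝ) * (2 * cv * (M ^ 3 * (ε * (n * (n : ℝ) ^ 2)) +
        (M ^ 3)⁻¹ * (ε * (n * (n : ℝ) ^ 2 * (n : ℝ) ^ 6)))) ≤
      4 * Cc * (n : ℝ) ^ 10 * ((n : ℝ) ^ 200)⁻¹ := by
    calc (n : ℝ) * (2 * cv * (M ^ 3 * (ε * (n * (n : ℝ) ^ 2)) +
        (M ^ 3)⁻¹ * (ε * (n * (n : ℝ) ^ 2 * (n : ℝ) ^ 6)))) ≤
          (n : ℝ) * (2 * Cc * (2 * (n : ℝ) ^ 9 * ((n : ℝ) ^ 200)⁻¹)) := by
          refine mul_le_mul_of_nonneg_left (mul_le_mul (by linarith) t3 ?_ (by linarith)) hn0.le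
          positivity
      _ = _ := by ring
  have t5 : 432 * cv / M ^ 3 * ((n : ℝ) ^ 2 * (n : ℝ) ^ 2 * (n : ℝ) ^ 6 * δ) ≤
      432 * Cc * (n : ℝ) ^ 10 * ((n : ℝ) ^ 60)⁻¹ := by
    have h1 : 432 * cv / M ^ 3 ≤ 432 * Cc :=
      (div_le_self (by positivity) hM3).trans (by linarith)
    calc 432 * cv / M ^ 3 * ((n : ℝ) ^ 2 * (n : ℝ) ^ 2 * (n : ℝ) ^ 6 * δ) ≤
          432 * Cc * ((n : ℝ) ^ 2 * (n : ℝ) ^ 2 * (n : ℝ) ^ 6 * ((n : ℝ) ^ 60)⁻¹) :=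
          mul_le_mul h1 (mul_le_mul_of_nonneg_left hδ (by positivity)) (by positivity)
            (by positivity)
      _ = _ := by ring
  have e1 : (n : ℝ) ^ 5 * ((n : ℝ) ^ 200)⁻¹ ≤ ((n : ℝ) ^ 21)⁻¹ := by
    rw [← div_eq_mul_inv, div_le_iff₀ (by positivity), inv_mul_eq_div, le_div_iff₀ (by positivity),
      ← pow_add]
    exact pow_le_pow_right₀ hn1 (by norm_num)
  have e2 : (n : ℝ) ^ 10 * ((n : ℝ) ^ 200)⁻¹ ≤ ((n : ℝ) ^ 21)⁻¹ := by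
    rw [← div_eq_mul_inv, div_le_iff₀ (by positivity), inv_mul_eq_div, le_div_iff₀ (by positivity),
      ← pow_add]
    exact pow_le_pow_right₀ hn1 (by norm_num)
  have e3 : (n : ℝ) ^ 10 * ((n : ℝ) ^ 60)⁻¹ ≤ ((n : ℝ) ^ 21)⁻¹ := by
    rw [← div_eq_mul_inv, div_le_iff₀ (by positivity), inv_mul_eq_div, le_div_iff₀ (by positivity),
      ← pow_add]
    exact pow_le_pow_right₀ hn1 (by norm_num)
  have e4 : (20 + 436 * Cc) * ((n : ℝ) ^ 21)⁻¹ ≤ ((n : ℝ) ^ 20)⁻¹ := by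
    have h1 := mul_le_mul_of_nonneg_right hN (show (0 : ℝ) ≤ ((n : ℝ) ^ 21)⁻¹ by positivity)
    have h2 : (n : ℝ) * ((n : ℝ) ^ 21)⁻¹ = ((n : ℝ) ^ 20)⁻¹ := by
      rw [← div_eq_mul_inv, div_eq_iff (by positivity), inv_mul_eq_div, eq_div_iff (by positivity)]
      ring
    linarith
  have u1 := mul_le_mul_of_nonneg_left e1 (show (0 : ℝ) ≤ 20 by norm_num)
  have u2 := mul_le_mul_of_nonneg_left e2 (show 0 ≤ 4 * Cc by positivity)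
  have u3 := mul_le_mul_of_nonneg_left e3 (show 0 ≤ 432 * Cc by positivity)
  rw [mul_add]
  linarith

/-- the rate of the energy in real numbers -/
lemma kap_rate {n : ℕ} {β nc nc2 L Nb TF f e ET pb Kq hh B : ℝ} (hn : 2 ≤ n) (hL : 0 ≤ L)
    (hcl : nc2 * (10 + 64 * L) ≤ β ^ 2 * nc) (hNb : 1 ≤ Nb) (hB : 1 ≤ B)
    (hTF : TF ≤ 2 * n * B) (hp0 : 0 ≤ pb) (hpB : pb ≤ ((n : ℝ) ^ 60)⁻¹) (he : e ≤ 1)
    (hf : f ≤ (8 + 64 * L) * Nb * (TF + 1) + 8 * ((n : ℝ) ^ 2 * ((n : ℝ) ^ 4 + 1)) * pb)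
    (hrate : hh * ET ≤ Kq * (f + e)) (hKq0 : 0 ≤ Kq) (hKq : Kq ≤ nc2) :
    hh * ET ≤ β ^ 2 * nc * (Nb * (3 * n * B)) := by
  have hn2r : (2 : ℝ) ≤ n := by exact_mod_cast hn
  have hn1r : (1 : ℝ) ≤ n := by linarith
  have hnB : 1 ≤ (n : ℝ) * B := by nlinarith
  have hP : 1 ≤ Nb * (3 * n * B) := by nlinarith
  have hf2 : f + e ≤ (10 + 64 * L) * (Nb * (3 * n * B)) := by
    have a1 : (8 + 64 * L) * Nb * (TF + 1) ≤ (8 + 64 * L) * Nb * (3 * n * B) :=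
      mul_le_mul_of_nonneg_left (by linarith) (by positivity)
    have a2 : 8 * ((n : ℝ) ^ 2 * ((n : ℝ) ^ 4 + 1)) * pb ≤ 1 := by
      have b1 : 8 * ((n : ℝ) ^ 2 * ((n : ℝ) ^ 4 + 1)) ≤ (n : ℝ) ^ 60 := by
        have c1 : (n : ℝ) ^ 4 + 1 ≤ 2 * (n : ℝ) ^ 4 := by
          have : 1 ≤ (n : ℝ) ^ 4 := one_le_pow₀ hn1r
          linarith
        have c2 : (16 : ℝ) ≤ (n : ℝ) ^ 54 := by
          calc (16 : ℝ) = 2 ^ 4 := by norm_num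
            _ ≤ (n : ℝ) ^ 4 := pow_le_pow_left₀ (by norm_num) hn2r 4
            _ ≤ (n : ℝ) ^ 54 := pow_le_pow_right₀ hn1r (by norm_num)
        have c3 : (n : ℝ) ^ 60 = (n : ℝ) ^ 54 * (n : ℝ) ^ 6 := by ring
        rw [c3]
        have c4 : 8 * ((n : ℝ) ^ 2 * ((n : ℝ) ^ 4 + 1)) ≤ 16 * (n : ℝ) ^ 6 := by
          have := mul_le_mul_of_nonneg_left c1 (show 0 ≤ 8 * (n : ℝ) ^ 2 by positivity)
          calc 8 * ((n : ℝ) ^ 2 * ((n : ℝ) ^ 4 + 1)) = 8 * (n : ℝ) ^ 2 * ((n : ℝ) ^ 4 + 1) := by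
                ring
            _ ≤ 8 * (n : ℝ) ^ 2 * (2 * (n : ℝ) ^ 4) := this
            _ = _ := by ring
        exact c4.trans (mul_le_mul_of_nonneg_right c2 (by positivity))
      calc 8 * ((n : ℝ) ^ 2 * ((n : ℝ) ^ 4 + 1)) * pb ≤ (n : ℝ) ^ 60 * ((n : ℝ) ^ 60)⁻¹ :=
            mul_le_mul b1 hpB hp0 (by positivity)
        _ = 1 := mul_inv_cancel₀ (by positivity)
    have a3 : (10 + 64 * L) * (Nb * (3 * n * B)) = (8 + 64 * L) * Nb * (3 * n * B) +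
        2 * (Nb * (3 * n * B)) := by ring
    linarith
  have a0 : 0 ≤ (10 + 64 * L) * (Nb * (3 * n * B)) := by positivity
  calc hh * ET ≤ Kq * (f + e) := hrate
    _ ≤ Kq * ((10 + 64 * L) * (Nb * (3 * n * B))) := mul_le_mul_of_nonneg_left hf2 hKq0
    _ ≤ nc2 * ((10 + 64 * L) * (Nb * (3 * n * B))) := mul_le_mul_of_nonneg_right hKq a0
    _ = nc2 * (10 + 64 * L) * (Nb * (3 * n * B)) := by ring
    _ ≤ _ := mul_le_mul_of_nonneg_right hcl (by linarith)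

/-- the energy number of the row [KAP] -/
theorem kap_en {n : ℕ} {k β c c2 : ℝ} {q : Par} {S : CS n k q.x} {y h : ℝ} {m σ : ℕ → ℝ}
    {Nb hh Kq e B : ℝ} (hn : 2 ≤ n)
    (hcl : (n : ℝ) ^ c2 * (10 + 64 * Real.log ((n : ℝ) ^ 4 + 1)) ≤ β ^ 2 * (n : ℝ) ^ c)
    (hT : Tm q y h) (h2 : Two2 q y h m σ) (hNb1 : 1 ≤ Nb) (hh0 : 0 < hh) (hKq0 : 0 ≤ Kq)
    (hKq : Kq ≤ (n : ℝ) ^ c2) (he : e ≤ 1)
    (hpB : pB S q.t1 m σ 2 (√q.t0) Nb q.s2 ≤ ((n : ℝ) ^ 60)⁻¹)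
    (hrate : hh * ETW S q.t1 m σ 2 (√q.t0) (Yrow q.t0 (Q1 S q.t1 m σ 2) q.s2) q.s2 ≤
        Kq * (f1 S q.t1 m σ 2 (√q.t0) Nb (Yrow q.t0 (Q1 S q.t1 m σ 2) q.s2) q.s2 + e))
    (hYY : EwG q (R1C.GTwo q y h S.F S.D) S.F (yC S y h) ≤ 2 * n * B) (hB : 1 ≤ B) :
    hh * EwG q (R1C.GTwo q y h S.F S.D) S.F (fun w => yC S y h w * Rn S q.s2 (P3 q w)) ≤
      β ^ 2 * (n : ℝ) ^ c * (Nb * (3 * n * B)) := by
  have hm := h2.pm hT.hy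
  have hM := mono_row (mono_Q1 (S := S) (w := q.t1) (σ := σ) hm) q.t0
  have hf := f1_le (S := S) (w := q.t1) (t := q.s2) (σ := σ) (Nb := Nb) hm (hM.eg q.s2)
    (hM.ps q.s2) (hM.bd q.s2) (by positivity) (by linarith) (√q.t0)
  rw [← yC_TFW (S := S) hT h2] at hf
  have hlg : (n : ℝ) ^ 2 * (n * n) + 1 = (n : ℝ) ^ 4 + 1 := by ring
  rw [hlg] at hf
  have hlog : 0 ≤ Real.log ((n : ℝ) ^ 4 + 1) := Real.log_nonneg (by
    have : 0 ≤ (n : ℝ) ^ 4 := by positivity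
    linarith)
  have hp0 : 0 ≤ pB S q.t1 m σ 2 (√q.t0) Nb q.s2 := H946.En2.pB_nonneg _ _
  have h1 := kap_rate hn hlog hcl hNb1 hB hYY hp0 hpB he hf hrate hKq0 hKq
  exact (mul_le_mul_of_nonneg_left (yC_ETW (S := S) hT h2) hh0.le).trans h1

/-- **[KAP] as a number at the two-layer law.** `Mis` is the sum of the linear parts. -/
theorem kap_num {β a c c2 : ℝ} (hβ : 0 < β) (ha : 0 < a) (hc : c2 < c) : ∀ᶠ n : ℕ in atTop,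
    ∀ (q : Par) (S : CS n (kk n β) q.x) (y h : ℝ) (m σ : ℕ → ℝ) (K ρ Nb hh Kq e B R : ℝ),
      q.OkS → Tm q y h → Two2 q y h m σ → y ≤ q.x → 0 < q.s2 → q.x ≤ (n : ℝ) ^ (-a) →
      Fn (kk n β) SkS (uu q.x q.s2 S.F) (S.mu q.s2) 4 → 1 ≤ K → 0 < ρ → 1 ≤ Nb →
      (n * ρ) ^ 2 ≤ Nb → Nb ≤ (K * (n * ρ)) ^ 2 → Nb ≤ (n : ℝ) ^ 4 → 0 < hh →
      Kq ≤ (n : ℝ) ^ c2 → (n : ℝ) ^ 3 * (n : ℝ) ^ c ≤ q.x ^ 2 * hh * (n * ρ) ^ 4 → e ≤ 1 →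
      pB S q.t1 m σ 2 (√q.t0) Nb q.s2 ≤ ((n : ℝ) ^ 60)⁻¹ →
      hh * ETW S q.t1 m σ 2 (√q.t0) (Yrow q.t0 (Q1 S q.t1 m σ 2) q.s2) q.s2 ≤
        Kq * (f1 S q.t1 m σ 2 (√q.t0) Nb (Yrow q.t0 (Q1 S q.t1 m σ 2) q.s2) q.s2 + e) →
      0 ≤ Kq → EwG q (R1C.GTwo q y h S.F S.D) S.F (yC S y h) ≤ 2 * n * B → 1 ≤ B →
      (n * ρ) ^ 2 * B ≤ 2 * R →
      ∑ b, EwG q (R1C.GTwo q y h S.F S.D) S.F (nl (kk n β) S q.s2 (k3 q) b
          (fun w i j => H693.Yb S y h b (P0 q w) i j)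
          (fun w i j => 1 / β * H364.Cb S q.s2 (k3 q) b w i j)) ≤
        4360 * CK β * K ^ 3 * (ρ * R / n) +
        2 * (q.s2 * kk n β ^ 2) * ∑ b, EwG q (R1C.GTwo q y h S.F S.D) S.F
          (Cum.lin S q.s2 (k3 q) b (fun w i j => H693.Yb S y h b (P0 q w) i j)
            (fun w i j => 1 / β * H364.Cb S q.s2 (k3 q) b w i j)) +
        ((n : ℝ) ^ 20)⁻¹ := by
  filter_upwards [ev_cl hβ hc, ev_law hβ ha, eventually_ge_atTop (⌈20 + 436 * CK β⌉₊),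
    eventually_ge_atTop (⌈256 * β ^ 2⌉₊), eventually_ge_atTop 2] with n hcl hlaw hn1 hn2 hn3
    q S y h m σ K ρ Nb hh Kq e B R hq hT h2 hyx hs hxa hFn hK hρ hNb1 hNb2 hNb3 hNb4 hh0 hKq
    hnum he hpB hrate hKq0 hYY hB hRB
  have hn0 : (0 : ℝ) < n := by
    have : 0 < n := by omega
    exact_mod_cast this
  have hn2r : (2 : ℝ) ≤ n := by exact_mod_cast hn3
  have hn1r : (1 : ℝ) ≤ n := by linarith
  have hN : 20 + 436 * CK β ≤ n := (Nat.le_ceil _).trans (by exact_mod_cast hn1)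
  have hkk : kk n β = β / √n := rfl
  have hk2 : kk n β ^ 2 = β ^ 2 / n := by rw [hkk, div_pow, Real.sq_sqrt hn0.le]
  have hx := S.x0
  have hs1 : q.s2 ≤ 1 := hT.h3
  have hm := h2.pm hT.hy
  have hCK := (CK_pos hβ).le
  obtain ⟨p, hp1, hp2, hp3, hp4⟩ := hlaw q.x hx hxa
  have hG : (R1C.GTwo q y h S.F S.D).Ok := GTwo_ok S.c11 hx hT.hy h
  have hTw : Two q y h := ⟨hT.hy, hyx, hT.hl.le, hT.ht, by linarith [hT.ht, hT.hl]⟩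
  have hL : Law2G n ((n : ℝ) ^ 200)⁻¹ q (R1C.GTwo q y h S.F S.D) S.F :=
    law2G_of_p S hq hG (H941.gRow_two hTw hx) hp3 hp4
  have hM : 0 < √Nb := Real.sqrt_pos.2 (by linarith)
  have hMM : √Nb ^ 2 = Nb := Real.sq_sqrt (by linarith)
  have h1 : EwG q (R1C.GTwo q y h S.F S.D) S.F (fun _ => 1) = 1 :=
    H693.EwT_one S.c11 hx hT.hy hT.hl hT.ht hT.h1 hT.h2 hT.h3
  have ht : q.s2 * (2 * (kk n β * 4)) ^ 2 ≤ 1 / 4 := by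
    have e1 : (2 * (kk n β * 4)) ^ 2 = 64 * (β ^ 2 / n) := by rw [← hk2]; ring
    rw [e1]
    have e2 : 256 * β ^ 2 ≤ n := (Nat.le_ceil _).trans (by exact_mod_cast hn2)
    have e3 : 64 * (β ^ 2 / n) ≤ 1 / 4 := by
      have e4 : 64 * (β ^ 2 / n) = 64 * β ^ 2 / n := by ring
      rw [e4, div_le_iff₀ hn0]
      linarith
    have e5 : 0 ≤ 64 * (β ^ 2 / n) := by positivity
    nlinarith
  have hδ : EwG q (R1C.GTwo q y h S.F S.D) S.F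
      (fun w => if √Nb ^ 2 < cF2 S q.s2 (P3 q w) then (1 : ℝ) else 0) ≤
      pB S q.t1 m σ 2 (√q.t0) Nb q.s2 * EwG q (R1C.GTwo q y h S.F S.D) S.F (fun _ => 1) := by
    rw [hMM, cF2_pB hT h2 Nb]
    have : EwG q (R1C.GTwo q y h S.F S.D) S.F (fun _ => 1) = 1 := h1
    rw [this, mul_one]
  have key := H941.kapG (S := S) hq hT hyx (by omega) hFn hs ht (l := 1 / β) hM
    (p := p) hp1 hL hδ
  have h1' : EwG q (R1C.GTwo q y h S.F S.D) S.F (fun _ => 1) = 1 := h1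
  rw [h1', mul_one] at key
  -- the numbers
  have hen := kap_en (S := S) hn3 hcl hT h2 hNb1 hh0 hKq0 hKq he hpB hrate hYY hB
  have hp0 : 0 ≤ pB S q.t1 m σ 2 (√q.t0) Nb q.s2 := H946.En2.pB_nonneg _ _
  have hM1 : (n : ℝ) * ρ ≤ √Nb := Real.le_sqrt_of_sq_le hNb2
  have hM2 : √Nb ≤ K * (n * ρ) := by
    rw [Real.sqrt_le_left (by positivity)]
    exact hNb3
  have hcK := cK_le (β := β) (s := q.s2) (n := n) hβ (by omega) hs.le hs1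
  rw [← hkk] at hcK
  have hcK0 : 0 ≤ cK q.s2 (kk n β) 4 n := cK_nonneg hs.le
  have hmain := kap_main (n := (n : ℝ)) (β := β) (x := q.x) (M := √Nb) (K := K) (ρ := ρ) (B := B)
    (R := R) (hh := hh) (N1 := EwG q (R1C.GTwo q y h S.F S.D) S.F (yC S y h))
    (N2 := EwG q (R1C.GTwo q y h S.F S.D) S.F (fun w => yC S y h w * Rn S q.s2 (P3 q w)))
    (Cc := CK β) (nc := (n : ℝ) ^ c) (cv := cK q.s2 (kk n β) 4 n) (k := kk n β)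
    hn1r hβ hx hh0 hρ hK hM1 hM2 hCK hcK0 hcK hk2 hYY
    (by rw [hMM]; exact hen)
    (by linarith) (Real.rpow_nonneg hn0.le _) hnum hRB
  have hM1' : 1 ≤ √Nb := by rw [Real.one_le_sqrt]; exact hNb1
  have hM4 : √Nb ≤ (n : ℝ) ^ 2 := by
    rw [Real.sqrt_le_left (by positivity)]
    calc Nb ≤ (n : ℝ) ^ 4 := hNb4
      _ = _ := by ring
  have hkl : kk n β ^ 2 * (1 / β) ^ 2 * n = 1 := by
    rw [hk2]
    field_simp
  have herr := kap_err (n := n) (k := kk n β) (l := 1 / β) (s := q.s2) (M := √Nb) (Cc := CK β)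
    (cv := cK q.s2 (kk n β) 4 n) (ε := ((n : ℝ) ^ 200)⁻¹) (δ := pB S q.t1 m σ 2 (√q.t0) Nb q.s2) (p := p) (by omega) hCK hN
    hs1 hkl hM1' hM4 hcK0 hcK hp2 (by positivity) le_rfl hp0 hpB
  unfold eKap at key
  have key2 := key.trans (add_le_add (add_le_add_left hmain _) herr)
  exact key2

end Vale.Agent.P146.H712.En1
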