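import Vale.Agent.P146.H712.NlRow

/-!
Row [KAP], part 3: the sixth moment of the overlap is bounded by the sixth power of the Frobenius
norm and the energy.
-/

open MeasureTheory ProbabilityTheory

namespace Vale.Agent.P146.Cum

open Vale.Agent.P157.Lv Vale.Agent.P146.H425 Vale.Agent.P146.H325 Vale.Agent.P146.H332
  Vale.Agent.P146.H712 Vale.Agent.P146.R1 Vale.Agent.P146.R1C Vale.Agent.P146.R1S

set_option linter.unusedSectionVars false

variable {n : ℕ} {k x s : ℝ} {S : CS n k x}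

/-- the covariance energy -/
noncomputable def KK (S : CS n k x) (s : ℝ) (z : Pair n → ℝ) : ℝ :=
  ∑ i, ∑ j, ∑ p, ∑ q, (S.T4 s z i j p q - S.A s z i j * S.A s z p q) ^ 2

lemma KK_nonneg (S : CS n k x) (s : ℝ) (z : Pair n → ℝ) : 0 ≤ KK S s z := by
  unfold KK
  positivity

/-- the centred pair product -/
noncomputable def uc (S : CS n k x) (s : ℝ) (z : Pair n → ℝ) (i j : Fin n)
    (σ : Fin n → ℤˣ) : ℝ := pr i j σ - S.A s z i j

/-- the quadratic form of the matrix at a configuration -/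
noncomputable def fC (S : CS n k x) (s : ℝ) (z : Pair n → ℝ) (σ : Fin n → ℤˣ) : ℝ :=
  ∑ i, ∑ j, S.A s z i j * pr i j σ

/-- the square of the Frobenius norm -/
noncomputable def cF2 (S : CS n k x) (s : ℝ) (z : Pair n → ℝ) : ℝ :=
  ∑ i, ∑ j, S.A s z i j ^ 2

lemma cF2_nonneg (S : CS n k x) (s : ℝ) (z : Pair n → ℝ) : 0 ≤ cF2 S s z := by
  unfold cF2
  positivity

lemma pr_sq (i j : Fin n) (σ : Fin n → ℤˣ) : pr i j σ ^ 2 = 1 := by
  have : pr i j σ = sp σ i * sp σ j := rfl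
  rw [this, mul_pow, sp_sq, sp_sq, one_mul]

lemma A_sq_le (i j : Fin n) (z : Pair n → ℝ) : S.A s z i j ^ 2 ≤ 1 := by
  rw [S.A_mu]
  have h1 : (∑ σ, S.mu s z σ * pr i j σ) ^ 2 ≤
      (∑ σ, S.mu s z σ) * ∑ σ, S.mu s z σ * pr i j σ ^ 2 := by
    have := Finset.sum_mul_sq_le_sq_mul_sq Finset.univ (fun σ => √(S.mu s z σ))
      (fun σ => √(S.mu s z σ) * pr i j σ)
    simp only [← mul_assoc, Real.mul_self_sqrt (S.mu0 s z _), mul_pow,
      Real.sq_sqrt (S.mu0 s z _)] at this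
    exact this
  simp only [pr_sq, mul_one, S.mu1] at h1
  simpa using h1

lemma cF2_le (z : Pair n → ℝ) : cF2 S s z ≤ (n : ℝ) ^ 2 := by
  unfold cF2
  calc ∑ i, ∑ j, S.A s z i j ^ 2 ≤ ∑ _i : Fin n, ∑ _j : Fin n, (1 : ℝ) :=
        Finset.sum_le_sum fun i _ => Finset.sum_le_sum fun j _ => A_sq_le i j z
    _ = (n : ℝ) ^ 2 := by simp; ring

/-- `(σ·τ)² = Σ pr pr` -/
lemma ov_sq (σ τ : Fin n → ℤˣ) : (∑ i, sp σ i * sp τ i) ^ 2 =
    ∑ i, ∑ j, pr i j σ * pr i j τ := by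
  rw [pow_two, Finset.sum_mul_sum]
  refine Finset.sum_congr rfl fun i _ => Finset.sum_congr rfl fun j _ => ?_
  unfold pr
  ring

lemma fC_eq (z : Pair n → ℝ) (σ : Fin n → ℤˣ) :
    fC S s z σ = ∑ τ, S.mu s z τ * (∑ i, sp σ i * sp τ i) ^ 2 := by
  unfold fC
  simp_rw [ov_sq, S.A_mu, Finset.sum_mul, Finset.mul_sum]
  rw [Finset.sum_congr rfl fun i _ => Finset.sum_comm, Finset.sum_comm]
  exact Finset.sum_congr rfl fun τ _ => Finset.sum_congr rfl fun i _ =>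
    Finset.sum_congr rfl fun j _ => by ring

lemma fC_nonneg (z : Pair n → ℝ) (σ : Fin n → ℤˣ) : 0 ≤ fC S s z σ := by
  rw [fC_eq]
  exact Finset.sum_nonneg fun τ _ => mul_nonneg (S.mu0 s z τ) (sq_nonneg _)

/-- the overlap in terms of the centred products -/
lemma uc_ov (z : Pair n → ℝ) (σ τ : Fin n → ℤˣ) :
    ∑ i, ∑ j, uc S s z i j σ * uc S s z i j τ =
      (∑ i, sp σ i * sp τ i) ^ 2 - fC S s z σ - fC S s z τ + cF2 S s z := by
  rw [ov_sq]
  unfold uc fC cF2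
  simp only [← Finset.sum_sub_distrib, ← Finset.sum_add_distrib]
  exact Finset.sum_congr rfl fun i _ => Finset.sum_congr rfl fun j _ => by ring

lemma fC_sub (z : Pair n → ℝ) (σ : Fin n → ℤˣ) :
    fC S s z σ - cF2 S s z = ∑ i, ∑ j, S.A s z i j * uc S s z i j σ := by
  unfold uc fC cF2
  simp only [← Finset.sum_sub_distrib]
  exact Finset.sum_congr rfl fun i _ => Finset.sum_congr rfl fun j _ => by ring

lemma cov_uc (z : Pair n → ℝ) (i j p q : Fin n) :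
    S.T4 s z i j p q - S.A s z i j * S.A s z p q =
      ∑ σ, S.mu s z σ * (uc S s z i j σ * uc S s z p q σ) := by
  have h1 : ∑ σ, S.mu s z σ * (uc S s z i j σ * uc S s z p q σ) =
      ∑ σ, S.mu s z σ * (pr i j σ * pr p q σ) - S.A s z p q * ∑ σ, S.mu s z σ * pr i j σ -
        S.A s z i j * ∑ σ, S.mu s z σ * pr p q σ +
        S.A s z i j * S.A s z p q * ∑ σ, S.mu s z σ := by
    unfold uc
    simp only [Finset.mul_sum, ← Finset.sum_sub_distrib, ← Finset.sum_add_distrib]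
    exact Finset.sum_congr rfl fun σ _ => by ring
  rw [h1, S.T4_mu, ← S.A_mu, ← S.A_mu, S.mu1]
  ring

/-- a two-replica formula -/
lemma two_rep {I : Type} [Fintype I] (z : Pair n → ℝ) (v : I → (Fin n → ℤˣ) → ℝ) :
    ∑ a, ∑ c, (∑ σ, S.mu s z σ * (v a σ * v c σ)) ^ 2 =
      ∑ σ, S.mu s z σ * ∑ τ, S.mu s z τ * (∑ a, v a σ * v a τ) ^ 2 := by
  have e1 : ∀ a c, (∑ σ, S.mu s z σ * (v a σ * v c σ)) ^ 2 =
      ∑ σ, ∑ τ, S.mu s z σ * (S.mu s z τ * ((v a σ * v a τ) * (v c σ * v c τ))) := by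
    intro a c
    rw [pow_two, Finset.sum_mul_sum]
    exact Finset.sum_congr rfl fun σ _ => Finset.sum_congr rfl fun τ _ => by ring
  have e2 : ∀ σ τ, (∑ a, v a σ * v a τ) ^ 2 =
      ∑ a, ∑ c, (v a σ * v a τ) * (v c σ * v c τ) := by
    intro σ τ
    rw [pow_two, Finset.sum_mul_sum]
  simp_rw [e1, e2, Finset.mul_sum]
  calc _ = ∑ a, ∑ σ, ∑ c, ∑ τ, S.mu s z σ * (S.mu s z τ * ((v a σ * v a τ) * (v c σ * v c τ))) :=
        Finset.sum_congr rfl fun a _ => Finset.sum_comm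
    _ = ∑ σ, ∑ a, ∑ c, ∑ τ, S.mu s z σ * (S.mu s z τ * ((v a σ * v a τ) * (v c σ * v c τ))) :=
        Finset.sum_comm
    _ = ∑ σ, ∑ a, ∑ τ, ∑ c, S.mu s z σ * (S.mu s z τ * ((v a σ * v a τ) * (v c σ * v c τ))) :=
        Finset.sum_congr rfl fun σ _ => Finset.sum_congr rfl fun a _ => Finset.sum_comm
    _ = ∑ σ, ∑ τ, ∑ a, ∑ c, S.mu s z σ * (S.mu s z τ * ((v a σ * v a τ) * (v c σ * v c τ))) :=
        Finset.sum_congr rfl fun σ _ => Finset.sum_comm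
    _ = _ := rfl

/-- the deviation of the overlap -/
noncomputable def kp (S : CS n k x) (s : ℝ) (z : Pair n → ℝ) (σ τ : Fin n → ℤˣ) : ℝ :=
  (∑ i, sp σ i * sp τ i) ^ 2 - fC S s z σ - fC S s z τ + cF2 S s z

lemma KK_kp (z : Pair n → ℝ) : KK S s z =
    ∑ σ, S.mu s z σ * ∑ τ, S.mu s z τ * kp S s z σ τ ^ 2 := by
  have h := two_rep (S := S) (s := s) (I := Fin n × Fin n) z (fun a σ => uc S s z a.1 a.2 σ)
  have e1 : ∑ a : Fin n × Fin n, ∑ c : Fin n × Fin n,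
      (∑ σ, S.mu s z σ * (uc S s z a.1 a.2 σ * uc S s z c.1 c.2 σ)) ^ 2 = KK S s z := by
    unfold KK
    simp_rw [cov_uc]
    rw [Fintype.sum_prod_type]
    refine Finset.sum_congr rfl fun i _ => Finset.sum_congr rfl fun j _ => ?_
    rw [Fintype.sum_prod_type]
  rw [← e1, h]
  refine Finset.sum_congr rfl fun σ _ => ?_
  congr 1
  refine Finset.sum_congr rfl fun τ _ => ?_
  rw [Fintype.sum_prod_type]
  unfold kp
  rw [uc_ov]

/-- the variance of the quadratic form -/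
lemma var_fC (z : Pair n → ℝ) : (∑ σ, S.mu s z σ * (fC S s z σ - cF2 S s z) ^ 2) ^ 2 ≤
    cF2 S s z ^ 2 * KK S s z := by
  have h1 : ∑ σ, S.mu s z σ * (fC S s z σ - cF2 S s z) ^ 2 =
      ∑ a : Fin n × Fin n, ∑ c : Fin n × Fin n, (S.A s z a.1 a.2 * S.A s z c.1 c.2) *
        ∑ σ, S.mu s z σ * (uc S s z a.1 a.2 σ * uc S s z c.1 c.2 σ) := by
    have e1 : ∀ σ, (fC S s z σ - cF2 S s z) ^ 2 = ∑ a : Fin n × Fin n, ∑ c : Fin n × Fin n,
        (S.A s z a.1 a.2 * uc S s z a.1 a.2 σ) * (S.A s z c.1 c.2 * uc S s z c.1 c.2 σ) := by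
      intro σ
      rw [fC_sub, ← Fintype.sum_prod_type' (f := fun i j => S.A s z i j * uc S s z i j σ),
        pow_two, Finset.sum_mul_sum]
    simp_rw [e1, Finset.mul_sum]
    rw [Finset.sum_comm]
    refine Finset.sum_congr rfl fun a _ => ?_
    rw [Finset.sum_comm]
    exact Finset.sum_congr rfl fun c _ => Finset.sum_congr rfl fun σ _ => by ring
  have h2 : KK S s z = ∑ a : Fin n × Fin n, ∑ c : Fin n × Fin n,
      (∑ σ, S.mu s z σ * (uc S s z a.1 a.2 σ * uc S s z c.1 c.2 σ)) ^ 2 := by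
    unfold KK
    simp_rw [cov_uc]
    rw [Fintype.sum_prod_type]
    refine Finset.sum_congr rfl fun i _ => Finset.sum_congr rfl fun j _ => ?_
    rw [Fintype.sum_prod_type]
  have h3 : cF2 S s z ^ 2 = ∑ a : Fin n × Fin n, ∑ c : Fin n × Fin n,
      (S.A s z a.1 a.2 * S.A s z c.1 c.2) ^ 2 := by
    unfold cF2
    rw [← Fintype.sum_prod_type' (f := fun i j => S.A s z i j ^ 2), pow_two, Finset.sum_mul_sum]
    exact Finset.sum_congr rfl fun a _ => Finset.sum_congr rfl fun c _ => by ring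
  rw [h1, h2, h3]
  have cs := Finset.sum_mul_sq_le_sq_mul_sq (Finset.univ : Finset ((Fin n × Fin n) × (Fin n × Fin n)))
    (fun ac => S.A s z ac.1.1 ac.1.2 * S.A s z ac.2.1 ac.2.2)
    (fun ac => ∑ σ, S.mu s z σ * (uc S s z ac.1.1 ac.1.2 σ * uc S s z ac.2.1 ac.2.2 σ))
  simpa only [Fintype.sum_prod_type] using cs

lemma fC_sq_le (z : Pair n → ℝ) (σ : Fin n → ℤˣ) :
    fC S s z σ ^ 2 ≤ (n : ℝ) ^ 2 * cF2 S s z := by
  have cs := Finset.sum_mul_sq_le_sq_mul_sq (Finset.univ : Finset (Fin n × Fin n))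
    (fun a => S.A s z a.1 a.2) (fun a => pr a.1 a.2 σ)
  simp only [pr_sq, Fintype.sum_prod_type] at cs
  have e : ∑ _i : Fin n, ∑ _j : Fin n, (1 : ℝ) = (n : ℝ) ^ 2 := by simp; ring
  rw [e] at cs
  unfold fC cF2
  linarith

/-- the third moment of the quadratic form -/
lemma fC_cube (z : Pair n → ℝ) : ∑ σ, S.mu s z σ * fC S s z σ ^ 3 ≤
    6 * cF2 S s z ^ 3 + 2 * (n : ℝ) ^ 2 * KK S s z := by
  set c := √(cF2 S s z) with hc
  have hc2 : c ^ 2 = cF2 S s z := Real.sq_sqrt (cF2_nonneg S s z)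
  have hc0 : 0 ≤ c := Real.sqrt_nonneg _
  have hn0 : (0 : ℝ) ≤ n := Nat.cast_nonneg n
  have hcn : c ≤ n := by
    refine le_of_sq_le_sq ?_ hn0
    rw [hc2]
    exact cF2_le z
  set V := ∑ σ, S.mu s z σ * (fC S s z σ - cF2 S s z) ^ 2 with hV
  have hV0 : 0 ≤ V := Finset.sum_nonneg fun σ _ => mul_nonneg (S.mu0 s z σ) (sq_nonneg _)
  have hb : ∀ σ, |fC S s z σ - cF2 S s z| ≤ n * c := by
    intro σ
    have h1 : fC S s z σ ≤ n * c := by
      refine le_of_sq_le_sq ?_ (mul_nonneg hn0 hc0)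
      rw [mul_pow, hc2]
      exact fC_sq_le z σ
    have h2 : cF2 S s z ≤ n * c := by
      rw [← hc2, pow_two]
      exact mul_le_mul_of_nonneg_right hcn hc0
    have h3 := fC_nonneg (S := S) (s := s) z σ
    have h4 := cF2_nonneg S s z
    rw [abs_le]
    constructor <;> linarith
  have h1 : ∀ σ, fC S s z σ ^ 3 ≤ 4 * cF2 S s z ^ 3 +
      4 * (n * c) * (fC S s z σ - cF2 S s z) ^ 2 := by
    intro σ
    set f := fC S s z σ
    set m := cF2 S s z
    have f0 : 0 ≤ f := fC_nonneg z σ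
    have m0 : 0 ≤ m := cF2_nonneg S s z
    have b1 := hb σ
    have b2 : |f - m| * (f - m) ^ 2 ≤ n * c * (f - m) ^ 2 :=
      mul_le_mul_of_nonneg_right b1 (sq_nonneg _)
    have b3 : f ^ 3 ≤ 4 * m ^ 3 + 4 * (|f - m| * (f - m) ^ 2) := by
      rcases le_total m f with h | h
      · rw [abs_of_nonneg (by linarith)]
        have hd : 0 ≤ f - m := by linarith
        have : 4 * m ^ 3 + 4 * ((f - m) * (f - m) ^ 2) - f ^ 3 =
          3 * (m + (f - m)) * (m - (f - m)) ^ 2 := by ring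
        nlinarith [mul_nonneg (mul_nonneg (show (0:ℝ) ≤ 3 by norm_num)
          (show 0 ≤ m + (f - m) by linarith)) (sq_nonneg (m - (f - m)))]
      · have h5 : f ^ 3 ≤ m ^ 3 := pow_le_pow_left₀ f0 h 3
        have h6 : 0 ≤ |f - m| * (f - m) ^ 2 := by positivity
        have h7 : 0 ≤ m ^ 3 := by positivity
        linarith
    linarith
  have h2 : ∑ σ, S.mu s z σ * fC S s z σ ^ 3 ≤ 4 * cF2 S s z ^ 3 + 4 * (n * c) * V := by
    calc ∑ σ, S.mu s z σ * fC S s z σ ^ 3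
        ≤ ∑ σ, S.mu s z σ * (4 * cF2 S s z ^ 3 + 4 * (n * c) * (fC S s z σ - cF2 S s z) ^ 2) :=
          Finset.sum_le_sum fun σ _ => mul_le_mul_of_nonneg_left (h1 σ) (S.mu0 s z σ)
      _ = 4 * cF2 S s z ^ 3 * ∑ σ, S.mu s z σ + 4 * (n * c) * V := by
          rw [hV, Finset.mul_sum, Finset.mul_sum, ← Finset.sum_add_distrib]
          exact Finset.sum_congr rfl fun σ _ => by ring
      _ = _ := by rw [S.mu1, mul_one]
  have h3 : V ≤ c ^ 2 * √(KK S s z) := by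
    refine le_of_sq_le_sq ?_ (by positivity)
    rw [mul_pow, hc2, Real.sq_sqrt (KK_nonneg S s z)]
    exact var_fC z
  have h4 : 4 * (n * c) * V ≤ 4 * (n * c) * (c ^ 2 * √(KK S s z)) :=
    mul_le_mul_of_nonneg_left h3 (by positivity)
  have h5 : 4 * (n * c) * (c ^ 2 * √(KK S s z)) ≤ 2 * c ^ 6 + 2 * (n : ℝ) ^ 2 * KK S s z := by
    have h6 : √(KK S s z) ^ 2 = KK S s z := Real.sq_sqrt (KK_nonneg S s z)
    nlinarith [sq_nonneg (c ^ 3 - n * √(KK S s z))]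
  have h7 : c ^ 6 = cF2 S s z ^ 3 := by rw [← hc2]; ring
  rw [h7] at h5
  linarith

/-- **The sixth moment of the overlap.** -/
theorem q6_le (z : Pair n → ℝ) :
    q6 S s z ≤ 108 * cF2 S s z ^ 3 + 54 * (n : ℝ) ^ 2 * KK S s z := by
  have hn0 : (0 : ℝ) ≤ n := Nat.cast_nonneg n
  have hX : ∀ σ τ : Fin n → ℤˣ, (∑ i, sp σ i * sp τ i) ^ 2 ≤ (n : ℝ) ^ 2 := by
    intro σ τ
    have cs := Finset.sum_mul_sq_le_sq_mul_sq Finset.univ (fun i => sp σ i) (fun i => sp τ i)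
    simp only [sp_sq, Finset.sum_const, Finset.card_univ, Fintype.card_fin, nsmul_eq_mul,
      mul_one] at cs
    linarith [cs, show (n : ℝ) * n = (n : ℝ) ^ 2 by ring]
  have hf : ∀ σ, fC S s z σ ≤ (n : ℝ) ^ 2 := by
    intro σ
    rw [fC_eq]
    calc ∑ τ, S.mu s z τ * (∑ i, sp σ i * sp τ i) ^ 2 ≤ ∑ τ, S.mu s z τ * (n : ℝ) ^ 2 :=
          Finset.sum_le_sum fun τ _ => mul_le_mul_of_nonneg_left (hX σ τ) (S.mu0 s z τ)
      _ = (n : ℝ) ^ 2 := by rw [← Finset.sum_mul, S.mu1, one_mul]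
  have hk : ∀ σ τ, |kp S s z σ τ| ≤ 2 * (n : ℝ) ^ 2 := by
    intro σ τ
    have a1 := hX σ τ
    have a2 := hf σ
    have a3 := hf τ
    have a4 := cF2_le (S := S) (s := s) z
    have a5 := fC_nonneg (S := S) (s := s) z σ
    have a6 := fC_nonneg (S := S) (s := s) z τ
    have a7 := cF2_nonneg S s z
    have a8 : 0 ≤ (∑ i, sp σ i * sp τ i) ^ 2 := sq_nonneg _
    unfold kp
    rw [abs_le]
    constructor <;> linarith
  have h1 : ∀ σ τ : Fin n → ℤˣ, (∑ i, sp σ i * sp τ i) ^ 6 ≤ 9 * fC S s z σ ^ 3 +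
      9 * fC S s z τ ^ 3 + 18 * (n : ℝ) ^ 2 * kp S s z σ τ ^ 2 := by
    intro σ τ
    set X := (∑ i, sp σ i * sp τ i) ^ 2 with hXd
    have e6 : (∑ i, sp σ i * sp τ i) ^ 6 = X ^ 3 := by rw [hXd]; ring
    rw [e6]
    set f := fC S s z σ
    set g := fC S s z τ
    set w := |kp S s z σ τ| with hw
    have f0 : 0 ≤ f := fC_nonneg z σ
    have g0 : 0 ≤ g := fC_nonneg z τ
    have w0 : 0 ≤ w := abs_nonneg _
    have X0 : 0 ≤ X := sq_nonneg _
    have hle : X ≤ f + g + w := by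
      have h2 : X = f + g - cF2 S s z + kp S s z σ τ := by
        unfold kp
        ring
      have h3 := le_abs_self (kp S s z σ τ)
      have h4 := cF2_nonneg S s z
      linarith
    have h5 : X ^ 3 ≤ (f + g + w) ^ 3 := pow_le_pow_left₀ X0 hle 3
    have h6 : (f + g + w) ^ 3 ≤ 9 * (f ^ 3 + g ^ 3 + w ^ 3) := by
      nlinarith [mul_nonneg (add_nonneg f0 g0) (sq_nonneg (f - g)),
        mul_nonneg (add_nonneg g0 w0) (sq_nonneg (g - w)),
        mul_nonneg (add_nonneg f0 w0) (sq_nonneg (f - w)),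
        mul_nonneg f0 (sq_nonneg (g - w)), mul_nonneg g0 (sq_nonneg (f - w)),
        mul_nonneg w0 (sq_nonneg (f - g))]
    have h7 : w ^ 3 ≤ 2 * (n : ℝ) ^ 2 * kp S s z σ τ ^ 2 := by
      have h8 := mul_le_mul_of_nonneg_right (hk σ τ) (sq_nonneg w)
      rw [← hw, hw, sq_abs] at h8
      calc w ^ 3 = |kp S s z σ τ| * kp S s z σ τ ^ 2 := by rw [hw, pow_succ', sq_abs]
        _ ≤ _ := h8
    linarith
  unfold q6
  calc ∑ σ, S.mu s z σ * ∑ τ, S.mu s z τ * (∑ i, sp σ i * sp τ i) ^ 6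
      ≤ ∑ σ, S.mu s z σ * ∑ τ, S.mu s z τ * (9 * fC S s z σ ^ 3 + 9 * fC S s z τ ^ 3 +
          18 * (n : ℝ) ^ 2 * kp S s z σ τ ^ 2) :=
        Finset.sum_le_sum fun σ _ => mul_le_mul_of_nonneg_left
          (Finset.sum_le_sum fun τ _ => mul_le_mul_of_nonneg_left (h1 σ τ) (S.mu0 s z τ))
          (S.mu0 s z σ)
    _ = 18 * ∑ σ, S.mu s z σ * fC S s z σ ^ 3 + 18 * (n : ℝ) ^ 2 * KK S s z := by
        have e1 : ∀ σ, ∑ τ, S.mu s z τ * (9 * fC S s z σ ^ 3 + 9 * fC S s z τ ^ 3 +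
            18 * (n : ℝ) ^ 2 * kp S s z σ τ ^ 2) = 9 * fC S s z σ ^ 3 +
            9 * ∑ τ, S.mu s z τ * fC S s z τ ^ 3 +
            18 * (n : ℝ) ^ 2 * ∑ τ, S.mu s z τ * kp S s z σ τ ^ 2 := by
          intro σ
          have e2 : 9 * fC S s z σ ^ 3 = (9 * fC S s z σ ^ 3) * ∑ τ, S.mu s z τ := by
            rw [S.mu1, mul_one]
          conv_rhs => rw [e2]
          simp only [Finset.mul_sum, ← Finset.sum_add_distrib]
          exact Finset.sum_congr rfl fun τ _ => by ring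
        simp_rw [e1]
        have e3 : ∀ σ : Fin n → ℤˣ, S.mu s z σ * (9 * fC S s z σ ^ 3 +
            9 * ∑ τ, S.mu s z τ * fC S s z τ ^ 3 +
            18 * (n : ℝ) ^ 2 * ∑ τ, S.mu s z τ * kp S s z σ τ ^ 2) =
            9 * (S.mu s z σ * fC S s z σ ^ 3) +
            (9 * ∑ τ, S.mu s z τ * fC S s z τ ^ 3) * S.mu s z σ +
            18 * (n : ℝ) ^ 2 * (S.mu s z σ * ∑ τ, S.mu s z τ * kp S s z σ τ ^ 2) :=
          fun σ => by ring
        rw [Finset.sum_congr rfl fun σ _ => e3 σ, Finset.sum_add_distrib, Finset.sum_add_distrib,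
          ← Finset.mul_sum, ← Finset.mul_sum, ← Finset.mul_sum, S.mu1, KK_kp]
        ring
    _ ≤ _ := by
        have := fC_cube (S := S) (s := s) z
        linarith

/-- the energy of the column derivatives -/
noncomputable def Rn (S : CS n k x) (s : ℝ) (z : Pair n → ℝ) : ℝ := ∑ e : Pair n, fr (S.DA s e z)

/-- **The sixth moment and the energy.** -/
theorem q6_energy (hs : 0 < s) (z : Pair n → ℝ) :
    q6 S s z ≤ 108 * cF2 S s z ^ 3 + 108 * (n : ℝ) ^ 2 / (k ^ 2 * x ^ 2) * Rn S s z := by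
  have h1 := S.kov hs z
  have h2 : 0 < k ^ 2 * x ^ 2 := mul_pos (pow_pos S.k0 2) (pow_pos S.x0 2)
  have h3 : KK S s z ≤ 2 / (k ^ 2 * x ^ 2) * Rn S s z := by
    have h4 : k ^ 2 * x ^ 2 / 2 * KK S s z ≤ Rn S s z := h1
    have h5 := mul_le_mul_of_nonneg_left h4 (show 0 ≤ 2 / (k ^ 2 * x ^ 2) by positivity)
    have e : 2 / (k ^ 2 * x ^ 2) * (k ^ 2 * x ^ 2 / 2 * KK S s z) = KK S s z := by
      have hk := S.k0.ne'
      have hx := S.x0.ne'
      field_simp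
    linarith
  have h4 := mul_le_mul_of_nonneg_left h3 (show (0 : ℝ) ≤ 54 * (n : ℝ) ^ 2 by positivity)
  have e : 54 * (n : ℝ) ^ 2 * (2 / (k ^ 2 * x ^ 2) * Rn S s z) =
      108 * (n : ℝ) ^ 2 / (k ^ 2 * x ^ 2) * Rn S s z := by ring
  have h5 := q6_le (S := S) (s := s) z
  linarith

end Vale.Agent.P146.Cum
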