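import Vale.Agent.P146.H504.Cum6

/-!
Row [KAP], part 1: cumulant domination with one output leg.  The sum of the squares of the fourth
derivatives is bounded by the second moment of the projected overlap and the sixth moment of the
overlap.
-/

open MeasureTheory ProbabilityTheory

namespace Vale.Agent.P146.Cum

open Vale.Agent.P157.Lv Vale.Agent.P146.H425 Vale.Agent.P146.H325
  Vale.Agent.P146.H712 Vale.Agent.P146.R1 Vale.Agent.P146.R1C Vale.Agent.P146.R1S

set_option linter.unusedSectionVars false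

section gen

variable {ι X : Type} [Fintype ι] [DecidableEq ι] [Fintype X] [DecidableEq X]
  {α : Type} [Fintype α] [DecidableEq α] {μ : (ι → ℝ) → X → ℝ} {c : ℝ}
  {T : (ι → ℝ) → (α → X) → ℝ}

/-- a mean of a function of the overlap -/
noncomputable def mW {I : Type} [Fintype I] (μ : (ι → ℝ) → X → ℝ) (g : I → X → ℝ)
    (w : ℝ → ℝ) (z : ι → ℝ) : ℝ := ∑ v, μ z v * ∑ v', μ z v' * w (∑ i, g i v * g i v')

lemma mW_nonneg {I : Type} [Fintype I] (hμ : ∀ z v, 0 ≤ μ z v) (g : I → X → ℝ) {w : ℝ → ℝ}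
    (hw : ∀ t, 0 ≤ w t) (z : ι → ℝ) : 0 ≤ mW μ g w z :=
  Finset.sum_nonneg fun v _ => mul_nonneg (hμ z v) (Finset.sum_nonneg fun v' _ =>
    mul_nonneg (hμ z v') (hw _))

lemma eg_mW {I : Type} [Fintype I] (hμ : ∀ v, EG fun z => μ z v) (g : I → X → ℝ)
    (w : ℝ → ℝ) : EG (mW μ g w) :=
  EG.sum _ fun v _ => (hμ v).mul (EG.sum _ fun v' _ => (hμ v').mul (EG.const _))

/-- **The bound** with any pointwise bound of the product of the overlaps. -/
theorem ev_sq_sumW {I : Type} [Fintype I] [DecidableEq I]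
    (h : Dm μ c T) (hμ : ∀ z v, 0 ≤ μ z v) (g : α → I → X → ℝ) {w : α → ℝ → ℝ}
    (hw0 : ∀ a t, 0 ≤ w a t) (hw : ∀ t : α → ℝ, |∏ a, t a| ≤ ∑ a, w a (t a)) (z : ι → ℝ) :
    ∑ f : α → I, ev T (fun a => g a (f a)) z ^ 2 ≤ c ^ 2 * ∑ a, mW μ (g a) (w a) z := by
  have hc := h.c0
  obtain ⟨P, M, p, m, hP, hM, hT, hpm⟩ := h
  have hQ := hP.add hM
  set Q : (ι → ℝ) → (α → X) → ℝ := fun z x => P z x + M z x with hQd
  set q : ℝ := p + m with hq
  set G : α → X → X → ℝ := fun a v v' => ∑ i, g a i v * g a i v' with hG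
  have h1 : ∑ f : α → I, ev T (fun a => g a (f a)) z ^ 2 =
      ∑ x, ∑ x', T z x * T z x' * ∏ a, G a (x a) (x' a) := by
    have e1 : ∀ f : α → I, ev T (fun a => g a (f a)) z ^ 2 = ∑ x, ∑ x', T z x * T z x' *
        ∏ a, (g a (f a) (x a) * g a (f a) (x' a)) := by
      intro f
      unfold ev
      rw [pow_two, Finset.sum_mul_sum]
      refine Finset.sum_congr rfl fun x _ => Finset.sum_congr rfl fun x' _ => ?_
      rw [Finset.prod_mul_distrib]
      ring
    simp_rw [e1]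
    rw [Finset.sum_comm]
    refine Finset.sum_congr rfl fun x _ => ?_
    rw [Finset.sum_comm]
    refine Finset.sum_congr rfl fun x' _ => ?_
    rw [← Finset.mul_sum]
    congr 1
    rw [hG]
    simp only
    rw [Finset.prod_univ_sum, Fintype.piFinset_univ]
  have h2 : ∀ x x' : α → X, T z x * T z x' * ∏ a, G a (x a) (x' a) ≤
      Q z x * Q z x' * ∑ a, w a (G a (x a) (x' a)) := by
    intro x x'
    have a1 : |T z x| ≤ Q z x := by
      rw [hT, abs_le]
      have := hP.nn z x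
      have := hM.nn z x
      constructor <;> simp only [hQd] <;> linarith
    have a2 : |T z x'| ≤ Q z x' := by
      rw [hT, abs_le]
      have := hP.nn z x'
      have := hM.nn z x'
      constructor <;> simp only [hQd] <;> linarith
    have a3 := hw fun a => G a (x a) (x' a)
    calc T z x * T z x' * ∏ a, G a (x a) (x' a) ≤ |T z x * T z x' * ∏ a, G a (x a) (x' a)| :=
        le_abs_self _
      _ = |T z x| * |T z x'| * |∏ a, G a (x a) (x' a)| := by rw [abs_mul, abs_mul]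
      _ ≤ _ := mul_le_mul (mul_le_mul a1 a2 (abs_nonneg _) (hQ.nn z x)) a3 (abs_nonneg _)
        (mul_nonneg (hQ.nn z x) (hQ.nn z x'))
  have h3 : ∑ x, ∑ x', Q z x * Q z x' * ∑ a, w a (G a (x a) (x' a)) =
      q ^ 2 * ∑ a, mW μ (g a) (w a) z := by
    have e1 : ∀ x x' : α → X, Q z x * Q z x' * ∑ a, w a (G a (x a) (x' a)) =
        ∑ a, (Q z x * (Q z x' * w a (G a (x a) (x' a)))) := by
      intro x x'
      rw [Finset.mul_sum]
      exact Finset.sum_congr rfl fun a _ => by ring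
    simp_rw [e1]
    have e2 : ∀ x : α → X, ∑ x' : α → X, ∑ a, (Q z x * (Q z x' *
        w a (G a (x a) (x' a)))) = ∑ a, (Q z x *
          (q * ∑ v', μ z v' * w a (G a (x a) v'))) := by
      intro x
      rw [Finset.sum_comm]
      refine Finset.sum_congr rfl fun a _ => ?_
      rw [← hQ.marg z a (fun v' => w a (G a (x a) v')), Finset.mul_sum]
    simp_rw [e2]
    rw [Finset.sum_comm, Finset.mul_sum]
    refine Finset.sum_congr rfl fun a _ => ?_
    rw [hQ.marg z a (fun v => q * ∑ v', μ z v' * w a (G a v v'))]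
    unfold mW
    rw [Finset.mul_sum, Finset.mul_sum]
    exact Finset.sum_congr rfl fun v _ => by simp only [hG]; ring
  rw [h1]
  refine (Finset.sum_le_sum fun x _ => Finset.sum_le_sum fun x' _ => h2 x x').trans ?_
  rw [h3]
  refine mul_le_mul_of_nonneg_right (pow_le_pow_left₀ hQ.p0 hpm 2) ?_
  exact Finset.sum_nonneg fun a _ => mW_nonneg hμ _ (hw0 a) _

end gen

section rows

variable {n : ℕ} {k x s Γ η : ℝ} {S : CS n k x} {b : Fin n}
  {T2 : (Pair n → ℝ) → (Lg2 → Fin n → ℤˣ) → ℝ}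
  {T3 : (Pair n → ℝ) → (Lg3 → Fin n → ℤˣ) → ℝ} {T4 : (Pair n → ℝ) → (Lg4 → Fin n → ℤˣ) → ℝ}

/-- The second moment of the overlap of the projected configurations. -/
noncomputable def q2P (S : CS n k x) (P : Matrix (Fin n) (Fin n) ℝ) (s : ℝ)
    (z : Pair n → ℝ) : ℝ :=
  ∑ σ, S.mu s z σ * ∑ τ, S.mu s z τ *
    (∑ i, (∑ l, P i l * sp σ l) * (∑ l, P i l * sp τ l)) ^ 2

/-- The sixth moment of the overlap. -/
noncomputable def q6 (S : CS n k x) (s : ℝ) (z : Pair n → ℝ) : ℝ :=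
  ∑ σ, S.mu s z σ * ∑ τ, S.mu s z τ * (∑ i, sp σ i * sp τ i) ^ 6

lemma q2P_nonneg (P : Matrix (Fin n) (Fin n) ℝ) (s : ℝ) (z : Pair n → ℝ) : 0 ≤ q2P S P s z :=
  Finset.sum_nonneg fun σ _ => mul_nonneg (S.mu0 s z σ) (Finset.sum_nonneg fun τ _ =>
    mul_nonneg (S.mu0 s z τ) (by positivity))

lemma q6_nonneg (S : CS n k x) (s : ℝ) (z : Pair n → ℝ) : 0 ≤ q6 S s z :=
  Finset.sum_nonneg fun σ _ => mul_nonneg (S.mu0 s z σ) (Finset.sum_nonneg fun τ _ =>
    mul_nonneg (S.mu0 s z τ) (by positivity))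

lemma eg_q2P (S : CS n k x) (P : Matrix (Fin n) (Fin n) ℝ) (s : ℝ) : EG (q2P S P s) :=
  EG.sum _ fun σ _ => (S.eg_mu s σ).mul (EG.sum _ fun τ _ => (S.eg_mu s τ).mul (EG.const _))

lemma eg_q6 (S : CS n k x) (s : ℝ) : EG (q6 S s) :=
  EG.sum _ fun σ _ => (S.eg_mu s σ).mul (EG.sum _ fun τ _ => (S.eg_mu s τ).mul (EG.const _))

lemma spb_pow (σ τ : Fin n → ℤˣ) (b : Fin n) (m : ℕ) : (sp σ b * sp τ b) ^ (2 * m) = 1 := by
  rw [mul_pow, pow_mul, pow_mul, sp_sq, sp_sq]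
  norm_num

lemma lg_ov (σ τ : Fin n → ℤˣ) (b : Fin n) :
    ∑ i, lg b i σ * lg b i τ = (sp σ b * sp τ b) * ∑ i, sp σ i * sp τ i := by
  rw [Finset.mul_sum]
  refine Finset.sum_congr rfl fun i _ => ?_
  unfold lg
  ring

lemma pg_ov (P : Matrix (Fin n) (Fin n) ℝ) (σ τ : Fin n → ℤˣ) (b : Fin n) :
    ∑ i, pg P b i σ * pg P b i τ = (sp σ b * sp τ b) *
      ∑ i, (∑ l, P i l * sp σ l) * (∑ l, P i l * sp τ l) := by
  have h0 : ∀ (i : Fin n) (σ : Fin n → ℤˣ), pg P b i σ = sp σ b * ∑ l, P i l * sp σ l := by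
    intro i σ
    unfold pg lg
    rw [Finset.mul_sum]
    exact Finset.sum_congr rfl fun l _ => by ring
  rw [Finset.mul_sum]
  refine Finset.sum_congr rfl fun i _ => ?_
  rw [h0, h0]
  ring

lemma mW_lg (c : ℝ) (s : ℝ) (z : Pair n → ℝ) :
    mW (S.mu s) (lg b) (fun t => c * t ^ 6) z = c * q6 S s z := by
  unfold mW q6
  rw [Finset.mul_sum]
  refine Finset.sum_congr rfl fun σ _ => ?_
  rw [mul_left_comm c]
  congr 1
  rw [Finset.mul_sum]
  refine Finset.sum_congr rfl fun τ _ => ?_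
  have h1 : (sp σ b * sp τ b) ^ 6 = 1 := spb_pow σ τ b 3
  have h2 : (∑ i, lg b i σ * lg b i τ) ^ 6 = (∑ i, sp σ i * sp τ i) ^ 6 := by
    rw [lg_ov, mul_pow, h1, one_mul]
  simp only [h2]
  ring

lemma mW_pg (P : Matrix (Fin n) (Fin n) ℝ) (c : ℝ) (s : ℝ) (z : Pair n → ℝ) :
    mW (S.mu s) (pg P b) (fun t => c * t ^ 2) z = c * q2P S P s z := by
  unfold mW q2P
  rw [Finset.mul_sum]
  refine Finset.sum_congr rfl fun σ _ => ?_
  rw [mul_left_comm c]
  congr 1
  rw [Finset.mul_sum]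
  refine Finset.sum_congr rfl fun τ _ => ?_
  have h1 : (sp σ b * sp τ b) ^ 2 = 1 := spb_pow σ τ b 1
  have h2 : (∑ i, pg P b i σ * pg P b i τ) ^ 2 =
      (∑ i, (∑ l, P i l * sp σ l) * (∑ l, P i l * sp τ l)) ^ 2 := by
    rw [pg_ov, mul_pow, h1, one_mul]
  simp only [h2]
  ring

/-- the Young weights of the four legs -/
noncomputable def wtY (η : ℝ) : Lg4 → ℝ → ℝ
  | some (some (some _)) => fun t => η⁻¹ / 2 * t ^ 2
  | _ => fun t => η / 6 * t ^ 6

lemma inner_le_am3 (a b c : ℝ) (ha : 0 ≤ a) (hb : 0 ≤ b) (hc : 0 ≤ c) :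
    a * b * c ≤ (a ^ 3 + b ^ 3 + c ^ 3) / 3 := by
  have h1 : a ^ 3 + b ^ 3 + c ^ 3 - 3 * (a * b * c) =
      (a + b + c) / 2 * ((a - b) ^ 2 + (b - c) ^ 2 + (c - a) ^ 2) := by ring
  have h2 : 0 ≤ (a + b + c) / 2 * ((a - b) ^ 2 + (b - c) ^ 2 + (c - a) ^ 2) := by positivity
  linarith

lemma young4 {η : ℝ} (hη : 0 < η) (p q r u : ℝ) :
    |p * (q * (r * u))| ≤ η / 6 * p ^ 6 + (η / 6 * q ^ 6 + (η / 6 * r ^ 6 + η⁻¹ / 2 * u ^ 2)) := by
  have h1 : |p * (q * (r * u))| ≤ η / 2 * (p * q * r) ^ 2 + η⁻¹ / 2 * u ^ 2 := by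
    have e : |p * (q * (r * u))| = |p * q * r| * |u| := by
      rw [← abs_mul]
      congr 1
      ring
    rw [e, ← sq_abs (p * q * r), ← sq_abs u]
    have h2 : 0 ≤ η⁻¹ * (η * |p * q * r| - |u|) ^ 2 := by positivity
    have h3 : η⁻¹ * (η * |p * q * r| - |u|) ^ 2 = η * |p * q * r| ^ 2 -
        2 * (|p * q * r| * |u|) + η⁻¹ * |u| ^ 2 := by
      field_simp
      ring
    rw [h3] at h2
    linarith
  have h4 : (p * q * r) ^ 2 ≤ (p ^ 6 + q ^ 6 + r ^ 6) / 3 := by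
    have := inner_le_am3 (p ^ 2) (q ^ 2) (r ^ 2) (sq_nonneg _) (sq_nonneg _) (sq_nonneg _)
    calc (p * q * r) ^ 2 = p ^ 2 * q ^ 2 * r ^ 2 := by ring
      _ ≤ ((p ^ 2) ^ 3 + (q ^ 2) ^ 3 + (r ^ 2) ^ 3) / 3 := this
      _ = _ := by ring
  have h5 : η / 2 * (p * q * r) ^ 2 ≤ η / 2 * ((p ^ 6 + q ^ 6 + r ^ 6) / 3) :=
    mul_le_mul_of_nonneg_left h4 (by positivity)
  linarith

/-- **The fourth derivatives in the row.** -/
lemma row_sq6 (hF : Four k SkS (S.mu s) Γ T2 T3 T4) (hη : 0 < η)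
    (P : Matrix (Fin n) (Fin n) ℝ) (z : Pair n → ℝ) :
    ∑ i, ∑ j ∈ Finset.univ.erase b, ∑ e ∈ row b, ∑ e' ∈ row b,
      (k * (k * ev T4 (exg (exg (exg (fun _ => pg P b i) (lg b j)) (SkS e)) (SkS e')) z)) ^ 2 ≤
      k ^ 4 * (6 * Γ ^ 3) ^ 2 * (η⁻¹ / 2 * q2P S P s z + η / 2 * q6 S s z) := by
  set Ψ : Fin n → Fin n → Fin n → Fin n → ℝ := fun i j p q =>
    ev T4 (exg (exg (exg (fun _ => pg P b i) (lg b j)) (lg b p)) (lg b q)) z ^ 2 with hΨ
  have h0 : ∀ i j p q, 0 ≤ Ψ i j p q := fun i j p q => sq_nonneg _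
  have h1 : ∀ i j, ∑ e ∈ row b, ∑ e' ∈ row b,
      (k * (k * ev T4 (exg (exg (exg (fun _ => pg P b i) (lg b j)) (SkS e)) (SkS e')) z)) ^ 2 =
      k ^ 4 * ∑ e ∈ row b, ∑ e' ∈ row b, Ψ i j (oth b e) (oth b e') := by
    intro i j
    rw [Finset.mul_sum]
    refine Finset.sum_congr rfl fun e he => ?_
    rw [Finset.mul_sum]
    refine Finset.sum_congr rfl fun e' he' => ?_
    rw [lg_SkS he, lg_SkS he']
    simp only [hΨ]
    ring
  have h2 : ∀ i j, ∑ e ∈ row b, ∑ e' ∈ row b, Ψ i j (oth b e) (oth b e') ≤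
      ∑ p, ∑ q, Ψ i j p q := by
    intro i j
    have h3 : ∀ p, ∑ e' ∈ row b, Ψ i j p (oth b e') ≤ ∑ q, Ψ i j p q := by
      intro p
      rw [sum_row]
      exact Finset.sum_le_univ_sum_of_nonneg fun q => h0 i j p q
    calc ∑ e ∈ row b, ∑ e' ∈ row b, Ψ i j (oth b e) (oth b e')
        ≤ ∑ e ∈ row b, ∑ q, Ψ i j (oth b e) q := Finset.sum_le_sum fun e _ => h3 _
      _ ≤ ∑ p, ∑ q, Ψ i j p q := by
        rw [sum_row b (fun p => ∑ q, Ψ i j p q)]
        exact Finset.sum_le_univ_sum_of_nonneg fun p => Finset.sum_nonneg fun q _ => h0 i j p q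
  have h4 : ∑ i, ∑ j ∈ Finset.univ.erase b, ∑ e ∈ row b, ∑ e' ∈ row b,
      (k * (k * ev T4 (exg (exg (exg (fun _ => pg P b i) (lg b j)) (SkS e)) (SkS e')) z)) ^ 2 ≤
      k ^ 4 * ∑ i, ∑ j, ∑ p, ∑ q, Ψ i j p q := by
    simp_rw [h1]
    rw [Finset.mul_sum]
    refine Finset.sum_le_sum fun i _ => ?_
    rw [← Finset.mul_sum]
    refine mul_le_mul_of_nonneg_left ?_ (by positivity)
    refine (Finset.sum_le_sum fun j _ => h2 i j).trans ?_
    exact Finset.sum_le_univ_sum_of_nonneg fun j => Finset.sum_nonneg fun p _ =>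
      Finset.sum_nonneg fun q _ => h0 i j p q
  have hw0 : ∀ (a : Lg4) t, 0 ≤ wtY η a t := by
    intro a t
    rcases a with _ | _ | _ | a
    · show 0 ≤ η / 6 * t ^ 6
      positivity
    · show 0 ≤ η / 6 * t ^ 6
      positivity
    · show 0 ≤ η / 6 * t ^ 6
      positivity
    · show 0 ≤ η⁻¹ / 2 * t ^ 2
      positivity
  have hw : ∀ t : Lg4 → ℝ, |∏ a, t a| ≤ ∑ a, wtY η a (t a) := by
    intro t
    rw [Fintype.prod_option, Fintype.prod_option, Fintype.prod_option, Fintype.sum_option,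
      Fintype.sum_option, Fintype.sum_option]
    simp only [Finset.univ_unique, Finset.prod_singleton, Finset.sum_singleton]
    exact young4 hη _ _ _ _
  have h5 := ev_sq_sumW (I := Fin n) hF.c4 (S.mu0 s) (fam P b) hw0 hw z
  have h6 : ∑ f : Lg4 → Fin n, ev T4 (fun a => fam P b a (f a)) z ^ 2 =
      ∑ i, ∑ j, ∑ p, ∑ q, Ψ i j p q := by
    rw [sum_Lg4]
    refine Finset.sum_congr rfl fun i _ => Finset.sum_congr rfl fun j _ =>
      Finset.sum_congr rfl fun p _ => Finset.sum_congr rfl fun q _ => ?_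
    simp only [hΨ]
    congr 2
    funext a
    rcases a with _ | _ | _ | a <;> rfl
  have h7 : ∑ a, mW (S.mu s) (fam P b a) (wtY η a) z =
      η⁻¹ / 2 * q2P S P s z + η / 2 * q6 S s z := by
    rw [Fintype.sum_option, Fintype.sum_option, Fintype.sum_option]
    simp only [Finset.univ_unique, Finset.sum_singleton]
    show mW (S.mu s) (lg b) (fun t => η / 6 * t ^ 6) z +
      (mW (S.mu s) (lg b) (fun t => η / 6 * t ^ 6) z +
      (mW (S.mu s) (lg b) (fun t => η / 6 * t ^ 6) z +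
        mW (S.mu s) (pg P b) (fun t => η⁻¹ / 2 * t ^ 2) z)) = _
    rw [mW_lg, mW_pg]
    ring
  rw [h6, h7] at h5
  refine h4.trans ?_
  rw [mul_assoc]
  exact mul_le_mul_of_nonneg_left h5 (by positivity)

/-- **(I2)** with the second and the sixth moment. -/
theorem i2_6 (hFn : Fn k SkS (uu x s S.F) (S.mu s) Γ) (hs : 0 < s) (hη : 0 < η)
    (P : Matrix (Fin n) (Fin n) ℝ) (b : Fin n) (z : Pair n → ℝ) :
    AvP s (row b) (fun u => ∑ i, ∑ j, (∑ l, P i l * (S.H s b u l j -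
      AvP s (row b) (fun u => S.H s b u l j) z)) ^ 2) z ≤
    s ^ 2 * (k ^ 4 * (6 * Γ ^ 3) ^ 2) * AvP s (row b) (fun z =>
      η⁻¹ / 2 * q2P S P s z + η / 2 * q6 S s z) z := by
  obtain ⟨T2, T3, T4, hF⟩ := hFn.four
  have hH := fun l j => eg_H (b := b) hF hs l j
  set f : Fin n → Fin n → (Pair n → ℝ) → ℝ := fun i j z => ∑ l, P i l * S.H s b z l j with hf
  have hfe : ∀ i j, EG (f i j) := fun i j => EG.sum _ fun l _ => (hH l j).const_mul _
  have e1 : ∀ i j u, ∑ l, P i l * (S.H s b u l j -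
      AvP s (row b) (fun z => S.H s b z l j) z) =
      f i j u - AvP s (row b) (f i j) z := by
    intro i j u
    simp only [hf]
    rw [R1C.AvP_sum Finset.univ (fun l _ => (hH l j).const_mul _), ← Finset.sum_sub_distrib]
    refine Finset.sum_congr rfl fun l _ => ?_
    rw [R1C.AvP_const_mul]
    ring
  simp only [e1]
  have hb0 : ∀ i z, f i b z = 0 := by
    intro i z
    simp only [hf, S.H_row hs, mul_zero, Finset.sum_const_zero]
  have heg : ∀ i j, EG fun u => (f i j u - AvP s (row b) (f i j) z) ^ 2 :=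
    fun i j => ((hfe i j).sub (EG.const _)).pow 2
  rw [R1C.AvP_sum Finset.univ (fun i _ => EG.sum _ fun j _ => heg i j)]
  simp_rw [R1C.AvP_sum Finset.univ (fun j _ => heg _ j)]
  have e2 : ∀ i, AvP s (row b) (fun u => (f i b u -
      AvP s (row b) (f i b) z) ^ 2) z = 0 := by
    intro i
    have h1 : f i b = fun _ => 0 := funext (hb0 i)
    rw [h1]
    simp only [R1C.AvP_const, sub_self]
    norm_num
  have e3 : ∀ i, ∑ j, AvP s (row b) (fun u => (f i j u -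
      AvP s (row b) (f i j) z) ^ 2) z = ∑ j ∈ Finset.univ.erase b,
        AvP s (row b) (fun u => (f i j u -
          AvP s (row b) (f i j) z) ^ 2) z := by
    intro i
    rw [← Finset.add_sum_erase _ _ (Finset.mem_univ b), e2, zero_add]
  simp_rw [e3]
  -- derivatives
  set f1 : Fin n → Fin n → Pair n → (Pair n → ℝ) → ℝ := fun i j e z =>
    k * ev T3 (exg (exg (fun _ => pg P b i) (lg b j)) (SkS e)) z with hf1
  set f2 : Fin n → Fin n → Pair n → Pair n → (Pair n → ℝ) → ℝ := fun i j e e' z =>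
    k * (k * ev T4 (exg (exg (exg (fun _ => pg P b i) (lg b j)) (SkS e)) (SkS e')) z) with hf2
  have g1 : ∀ i j e, EG (f1 i j e) := fun i j e => (hF.c3.eg_ev _).const_mul k
  have g2 : ∀ i j e e', EG (f2 i j e e') := fun i j e e' =>
    ((hF.c4.eg_ev _).const_mul k).const_mul k
  have hfv : ∀ i j, j ≠ b → f i j = ev T2 (exg (fun _ => pg P b i) (lg b j)) := by
    intro i j hj
    funext z
    rw [ev_pg]
    simp only [hf]
    exact Finset.sum_congr rfl fun l _ => by rw [H_ev hF hs z hj]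
  have hfl : ∀ i j, j ≠ b → ∀ z, f i j (fl b z) = f i j z := by
    intro i j hj z
    simp only [hf]
    refine Finset.sum_congr rfl fun l _ => ?_
    by_cases hl : l = b
    · subst hl
      rw [S.H_comm, S.H_row hs, S.H_comm s l z, S.H_row hs]
    · rw [S.H_fl s hl hj]
  have hmean : ∀ i j, AvP s (row b) (fun u => (f i j u - AvP s (row b) (f i j) z) ^ 2) z =
      AvP s (row b) (fun u => (f i j u - AvP s (row b) (f i j) u) ^ 2) z := by
    intro i j
    exact (AvP_in s (row b) (fun (_ : Unit) u => f i j u)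
      (fun u m => (f i j u - m ()) ^ 2) z).symm
  have key : ∀ i, ∀ j ∈ Finset.univ.erase b, AvP s (row b) (fun u => (f i j u -
      AvP s (row b) (f i j) z) ^ 2) z ≤ s ^ 2 * AvP s (row b) (fun z =>
        ∑ e ∈ row b, ∑ e' ∈ row b, f2 i j e e' z ^ 2) z := by
    intro i j hj
    have hjb : j ≠ b := Finset.ne_of_mem_erase hj
    rw [hmean]
    refine poin2 hs.le (hfe i j) (g1 i j) (g2 i j) (fun e _ => ?_) (fun e _ e' _ => ?_)
      (hfl i j hjb) z
    · rw [hfv i j hjb]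
      exact pd_ev hF.d3 _ e
    · exact (pd_ev hF.d4 _ e').const_mul k
  refine (Finset.sum_le_sum fun i _ => Finset.sum_le_sum fun j hj => key i j hj).trans ?_
  have hg3 : ∀ i j, EG fun z => ∑ e ∈ row b, ∑ e' ∈ row b, f2 i j e e' z ^ 2 := fun i j =>
    EG.sum _ fun e _ => EG.sum _ fun e' _ => (g2 i j e e').pow 2
  simp_rw [← Finset.mul_sum]
  rw [mul_assoc]
  refine mul_le_mul_of_nonneg_left ?_ (by positivity)
  have e4 : ∑ i, ∑ j ∈ Finset.univ.erase b, AvP s (row b) (fun z =>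
        ∑ e ∈ row b, ∑ e' ∈ row b, f2 i j e e' z ^ 2) z =
      AvP s (row b) (fun z => ∑ i, ∑ j ∈ Finset.univ.erase b,
        ∑ e ∈ row b, ∑ e' ∈ row b, f2 i j e e' z ^ 2) z := by
    rw [R1C.AvP_sum Finset.univ (fun i _ => EG.sum _ fun j _ => hg3 i j)]
    refine Finset.sum_congr rfl fun i _ => ?_
    rw [R1C.AvP_sum (Finset.univ.erase b) (fun j _ => hg3 i j)]
  rw [e4, ← R1C.AvP_const_mul]
  refine R1C.AvP_mono (EG.sum _ fun i _ => EG.sum _ fun j _ => hg3 i j)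
    ((((eg_q2P S P s).const_mul _).add ((eg_q6 S s).const_mul _)).const_mul _) (fun z => ?_) z
  exact row_sq6 hF hη P z

end rows

end Vale.Agent.P146.Cum
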