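import Vale.Agent.P146.H712.NlUp

/-!
Row [KAP], part 6: the sum over the rows in the law `densG q G F`.
-/

open MeasureTheory ProbabilityTheory

namespace Vale.Agent.P146.Cum

open Vale.Agent.P157.Lv Vale.Agent.P146.H425 Vale.Agent.P146.H325 Vale.Agent.P146.H332
  Vale.Agent.P146.H712 Vale.Agent.P146.R1 Vale.Agent.P146.R1C Vale.Agent.P146.R1S
  Vale.Agent.P146.H191 Vale.Agent.P146.H706
open Vale.Agent.P146.H941 (nl)

set_option linter.unusedSectionVars false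

section bd

variable {n : ℕ} {k x s Γ : ℝ} {S : CS n k x} {b : Fin n} {a : Fin 4 → ℝ}

lemma TY_eq {Y : MF n} {w : K4 (Pair n) → ℝ} {P : Matrix (Fin n) (Fin n) ℝ}
    (hP : ∀ i l, Y w i l = ∑ m, P m i * P m l) : TY S s a Y w = tP S P s (H712.lp a w) := by
  rw [tP_eq]
  exact Finset.sum_congr rfl fun l _ => Finset.sum_congr rfl fun m _ => by rw [hP]

lemma TY_le {Y : MF n} {BY : ℝ} (w : K4 (Pair n) → ℝ) (hYs : ∀ i l, Y w i l = Y w l i)
    (hYp : ∀ v : Fin n → ℝ, 0 ≤ ∑ i, ∑ l, Y w i l * (v i * v l))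
    (hBY : ∑ i, Y w i i ≤ BY) : TY S s a Y w ≤ n * BY := by
  obtain ⟨P, hP⟩ := psd_fact hYs hYp
  rw [TY_eq hP]
  have hn : (0 : ℝ) ≤ n := Nat.cast_nonneg n
  have h1 : ∀ σ : Fin n → ℤˣ, ∑ i, (∑ l, P i l * sp σ l) ^ 2 ≤ n * BY := by
    intro σ
    calc ∑ i, (∑ l, P i l * sp σ l) ^ 2 ≤ ∑ i, (∑ l, P i l ^ 2) * n := by
          refine Finset.sum_le_sum fun i _ => ?_
          have h2 := Finset.sum_mul_sq_le_sq_mul_sq Finset.univ (fun l => P i l) (fun l => sp σ l)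
          simp only [sp_sq, Finset.sum_const, Finset.card_univ, Fintype.card_fin, nsmul_eq_mul,
            mul_one] at h2
          exact h2
      _ = n * ∑ i, Y w i i := by
          rw [← Finset.sum_mul, mul_comm, Finset.sum_comm]
          congr 1
          refine Finset.sum_congr rfl fun l _ => ?_
          rw [hP]
          exact Finset.sum_congr rfl fun i _ => pow_two _
      _ ≤ n * BY := mul_le_mul_of_nonneg_left hBY hn
  unfold tP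
  calc ∑ σ, S.mu s (H712.lp a w) σ * ∑ i, (∑ l, P i l * sp σ l) ^ 2
      ≤ ∑ σ, S.mu s (H712.lp a w) σ * (n * BY) :=
        Finset.sum_le_sum fun σ _ => mul_le_mul_of_nonneg_left (h1 σ) (S.mu0 s _ σ)
    _ = n * BY := by rw [← Finset.sum_mul, S.mu1, one_mul]

lemma q6_le_n (z : Pair n → ℝ) : q6 S s z ≤ (n : ℝ) ^ 6 := by
  have hn : (0 : ℝ) ≤ n := Nat.cast_nonneg n
  have h1 : ∀ σ τ : Fin n → ℤˣ, (∑ i, sp σ i * sp τ i) ^ 6 ≤ (n : ℝ) ^ 6 := by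
    intro σ τ
    have h2 := Finset.sum_mul_sq_le_sq_mul_sq Finset.univ (fun l => sp σ l) (fun l => sp τ l)
    simp only [sp_sq, Finset.sum_const, Finset.card_univ, Fintype.card_fin, nsmul_eq_mul,
      mul_one] at h2
    have h3 : (∑ i, sp σ i * sp τ i) ^ 2 ≤ (n : ℝ) ^ 2 := by rw [pow_two (n : ℝ)]; exact h2
    calc (∑ i, sp σ i * sp τ i) ^ 6 = ((∑ i, sp σ i * sp τ i) ^ 2) ^ 3 := by ring
      _ ≤ ((n : ℝ) ^ 2) ^ 3 := pow_le_pow_left₀ (sq_nonneg _) h3 3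
      _ = _ := by ring
  unfold q6
  calc ∑ σ, S.mu s z σ * ∑ τ, S.mu s z τ * (∑ i, sp σ i * sp τ i) ^ 6
      ≤ ∑ σ, S.mu s z σ * ∑ τ, S.mu s z τ * (n : ℝ) ^ 6 :=
        Finset.sum_le_sum fun σ _ => mul_le_mul_of_nonneg_left
          (Finset.sum_le_sum fun τ _ => mul_le_mul_of_nonneg_left (h1 σ τ) (S.mu0 s z τ))
          (S.mu0 s z σ)
    _ = (n : ℝ) ^ 6 := by simp only [← Finset.sum_mul, S.mu1, one_mul]

end bd

/-- The frozen matrices of the rows. -/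
structure FzY {n : ℕ} (BY BL : ℝ) (Y' L' : Fin n → MF n) : Prop where
  eY : ∀ b i l, EG fun w => Y' b w i l
  eL : ∀ b i l, EG fun w => L' b w i l
  iY : ∀ b i l, Ind (lf (row b)) fun w => Y' b w i l
  iL : ∀ b i l, Ind (lf (row b)) fun w => L' b w i l
  sy : ∀ b w i l, Y' b w i l = Y' b w l i
  ps : ∀ b w (v : Fin n → ℝ), 0 ≤ ∑ i, ∑ l, Y' b w i l * (v i * v l)
  L0 : ∀ b w i, L' b w i b = 0
  bY : ∀ b w, ∑ i, Y' b w i i ≤ BY
  bL : ∀ b w, ∑ i, ∑ l, L' b w i l ^ 2 ≤ BL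

/-- the sum of the frozen output weights -/
noncomputable def Yh {n : ℕ} (Y' : Fin n → MF n) (w : K4 (Pair n) → ℝ) (i l : Fin n) : ℝ :=
  ∑ b, Y' b w i l

section law

variable {n : ℕ} {k s Γ : ℝ} {q : Par} {G : GD (Pair n)} {S : CS n k q.x} {a : Fin 4 → ℝ}
  {BY BL : ℝ} {Y' L' : Fin n → MF n}

lemma TY_sum (w : K4 (Pair n) → ℝ) : ∑ b, TY S s a (Y' b) w = TY S s a (Yh Y') w := by
  unfold TY Yh
  rw [Finset.sum_comm]
  refine Finset.sum_congr rfl fun l _ => ?_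
  rw [Finset.sum_comm]
  refine Finset.sum_congr rfl fun m _ => ?_
  rw [Finset.sum_mul]

lemma eg_Hb (hs : 0 < s) (b l j : Fin n) :
    EG fun w : K4 (Pair n) → ℝ => Hb S s b (H712.lp a w) l j :=
  eg_lp a (eg_AvP (S.eg_H hs b l j) s (row b))

lemma eg_lin (hs : 0 < s) (hF : FzY BY BL Y' L') (b : Fin n) :
    EG (lin S s a b (Y' b) (L' b)) :=
  EG.sum _ fun l _ => EG.sum _ fun m _ => (hF.eY b l m).mul (EG.sum _ fun j _ =>
    ((eg_Hb hs b l j).sub (hF.eL b l j)).mul ((eg_Hb hs b m j).sub (hF.eL b m j)))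

/-- **[KAP], one row, in the law.** -/
theorem kap_row (hq : q.OkS) (hG : G.Ok) (hr : GRow k q G)
    (hFn : Fn k SkS (uu q.x s S.F) (S.mu s) Γ) (hs : 0 < s) (hΓ : 0 ≤ Γ)
    (ht : s * (2 * (k * Γ)) ^ 2 ≤ 1 / 4) {Λ : ℝ} (hΛ : 0 < Λ) (hva : vr a = s)
    (hF : FzY BY BL Y' L') (hn : 0 < n) (hBY : 0 < BY) (hBL : 0 ≤ BL) {p : ℕ}
    (hp : ((2 * p + 2 : ℕ) : ℝ) ^ 2 * (18 * q.x ^ 2 * k ^ 2 * n) ≤ 1) {ε : ℝ}
    (hL : Law2G n ε q G S.F) (b : Fin n) :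
    EwG q G S.F (nl k S s a b (Y' b) (L' b)) ≤
      4 * cK s k Γ n * (Λ * EwG q G S.F (TY S s a (Y' b)) +
        Λ⁻¹ * EwG q G S.F (fun w => TY S s a (Y' b) w * q6 S s (H712.lp a w))) +
      2 * (s * k ^ 2) * EwG q G S.F (lin S s a b (Y' b) (L' b)) +
      (2 * (BY * (3 * n + 7 * k ^ 2 * BL * n * s)) / 2 ^ p +
        2 * cK s k Γ n * (Λ * (ε * (n * BY)) + Λ⁻¹ * (ε * (n * BY * (n : ℝ) ^ 6)))) *
        EwG q G S.F (fun _ => 1) := by
  have hx := hq.x0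
  have hc := S.c11
  have hn0 : (0 : ℝ) < n := by exact_mod_cast hn
  have hcK : 0 ≤ cK s k Γ n := cK_nonneg hs.le
  have e1 : EG (nl k S s a b (Y' b) (L' b)) := H941.eg_nl (hF.eY b) (hF.eL b)
  have eT : EG (TY S s a (Y' b)) := eg_TY (hF.eY b)
  have eq6 : EG fun w : K4 (Pair n) → ℝ => q6 S s (H712.lp a w) := eg_q6l
  have eTq : EG fun w => TY S s a (Y' b) w * q6 S s (H712.lp a w) := eT.mul eq6
  have el := eg_lin (S := S) (a := a) hs hF b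
  set K := BY * (3 * n + 7 * k ^ 2 * BL * n * s) with hKd
  have hK0 : 0 < K := by
    have : 0 ≤ 7 * k ^ 2 * BL * n * s := by
      have := hs.le
      have := hn0.le
      positivity
    exact mul_pos hBY (by linarith)
  have nn : ∀ w, 0 ≤ nl k S s a b (Y' b) (L' b) w := by
    intro w
    exact hF.ps b w fun i => Nr a k b (L' b) (Uz S s b) i w
  have T0 : ∀ w, 0 ≤ TY S s a (Y' b) w := fun w => TY_nonneg w (hF.sy b w) (hF.ps b w)
  have TB : ∀ w, TY S s a (Y' b) w ≤ n * BY := fun w =>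
    TY_le w (hF.sy b w) (hF.ps b w) (hF.bY b w)
  have Tq0 : ∀ w, 0 ≤ TY S s a (Y' b) w * q6 S s (H712.lp a w) := fun w =>
    mul_nonneg (T0 w) (q6_nonneg S s _)
  have TqB : ∀ w, TY S s a (Y' b) w * q6 S s (H712.lp a w) ≤ n * BY * (n : ℝ) ^ 6 := fun w =>
    mul_le_mul (TB w) (q6_le_n _) (q6_nonneg S s _) (by positivity)
  -- the transfer to the fixed bulk
  have h1 := law_up2_SG S hq hG hr b p hp e1 hK0 nn fun w =>
    nl_sq_av hs hva (hF.iY b) (hF.iL b) (hF.sy b) (hF.ps b) (hF.bY b) (hF.bL b) w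
  have h2 : EwG q G S.F (Av (lf (row b)) (nl k S s a b (Y' b) (L' b))) ≤
      cK s k Γ n * (Λ * EwG q G S.F (Av (lf (row b)) (TY S s a (Y' b))) +
        Λ⁻¹ * EwG q G S.F (Av (lf (row b)) fun w =>
          TY S s a (Y' b) w * q6 S s (H712.lp a w))) +
      s * k ^ 2 * EwG q G S.F (lin S s a b (Y' b) (L' b)) := by
    have a1 := (H712.eg_Av (lf (row b)) eT).const_mul Λ
    have a2 := (H712.eg_Av (lf (row b)) eTq).const_mul Λ⁻¹
    have h3 := EwG_mono hc hx hG (H712.eg_Av (lf (row b)) e1)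
      (((a1.add a2).const_mul (cK s k Γ n)).add (el.const_mul (s * k ^ 2))) fun w =>
        nl_av hFn hs hΓ ht hΛ hva (hF.iY b) (hF.iL b) (hF.sy b) (hF.ps b) (hF.L0 b) w
    rw [EwG_add hc hx hG ((a1.add a2).const_mul _) (el.const_mul _), EwG_const_mul,
      EwG_const_mul, EwG_add hc hx hG a1 a2, EwG_const_mul, EwG_const_mul] at h3
    exact h3
  have h4 := hL.low b b _ _ eT T0 TB
  have h5 := hL.low b b _ _ eTq Tq0 TqB
  rw [Finset.union_self] at h4 h5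
  have h6 := mul_le_mul_of_nonneg_left h4 hΛ.le
  have h7 := mul_le_mul_of_nonneg_left h5 (inv_nonneg.2 hΛ.le)
  have h8 := mul_le_mul_of_nonneg_left (add_le_add h6 h7) hcK
  set E1 := EwG q G S.F (fun _ => 1)
  set A := EwG q G S.F (Av (lf (row b)) (TY S s a (Y' b)))
  set B := EwG q G S.F (Av (lf (row b)) fun w => TY S s a (Y' b) w * q6 S s (H712.lp a w))
  set A' := EwG q G S.F (TY S s a (Y' b))
  set B' := EwG q G S.F (fun w => TY S s a (Y' b) w * q6 S s (H712.lp a w))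
  set l' := EwG q G S.F (lin S s a b (Y' b) (L' b))
  have h9 : EwG q G S.F (nl k S s a b (Y' b) (L' b)) ≤
      2 * (cK s k Γ n * (Λ * (2 * A' + ε * (n * BY) * E1) +
        Λ⁻¹ * (2 * B' + ε * (n * BY * (n : ℝ) ^ 6) * E1)) + s * k ^ 2 * l') +
        2 * K / 2 ^ p * E1 := by linarith
  refine h9.trans (le_of_eq ?_)
  ring

/-- the error of the row [KAP] -/
noncomputable def eKap (n : ℕ) (k s Γ BY BL Λ ε : ℝ) (p : ℕ) : ℝ :=
  n * (2 * (BY * (3 * n + 7 * k ^ 2 * BL * n * s)) / 2 ^ p +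
    2 * cK s k Γ n * (Λ * (ε * (n * BY)) + Λ⁻¹ * (ε * (n * BY * (n : ℝ) ^ 6))))

/-- **[KAP]**, the sum over the rows; `Λ > 0` is free, `Yh` is the sum of the frozen weights. -/
theorem kap_sum (hq : q.OkS) (hG : G.Ok) (hr : GRow k q G)
    (hFn : Fn k SkS (uu q.x s S.F) (S.mu s) Γ) (hs : 0 < s) (hΓ : 0 ≤ Γ)
    (ht : s * (2 * (k * Γ)) ^ 2 ≤ 1 / 4) {Λ : ℝ} (hΛ : 0 < Λ) (hva : vr a = s)
    (hF : FzY BY BL Y' L') (hn : 0 < n) (hBY : 0 < BY) (hBL : 0 ≤ BL) {p : ℕ}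
    (hp : ((2 * p + 2 : ℕ) : ℝ) ^ 2 * (18 * q.x ^ 2 * k ^ 2 * n) ≤ 1) {ε : ℝ}
    (hL : Law2G n ε q G S.F) :
    ∑ b, EwG q G S.F (nl k S s a b (Y' b) (L' b)) ≤
      4 * cK s k Γ n * (Λ * EwG q G S.F (TY S s a (Yh Y')) +
        Λ⁻¹ * EwG q G S.F (fun w => TY S s a (Yh Y') w * q6 S s (H712.lp a w))) +
      2 * (s * k ^ 2) * ∑ b, EwG q G S.F (lin S s a b (Y' b) (L' b)) +
      eKap n k s Γ BY BL Λ ε p * EwG q G S.F (fun _ => 1) := by
  have hx := hq.x0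
  have hc := S.c11
  have h1 := Finset.sum_le_sum fun b (_ : b ∈ Finset.univ) =>
    kap_row (a := a) hq hG hr hFn hs hΓ ht hΛ hva hF hn hBY hBL hp hL b
  refine h1.trans (le_of_eq ?_)
  have e1 : EwG q G S.F (TY S s a (Yh Y')) = ∑ b, EwG q G S.F (TY S s a (Y' b)) := by
    rw [← EwG_sum hc hx hG Finset.univ fun b _ => eg_TY (hF.eY b)]
    exact EwG_congr fun w => (TY_sum w).symm
  have e2 : EwG q G S.F (fun w => TY S s a (Yh Y') w * q6 S s (H712.lp a w)) =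
      ∑ b, EwG q G S.F (fun w => TY S s a (Y' b) w * q6 S s (H712.lp a w)) := by
    rw [← EwG_sum hc hx hG Finset.univ fun b _ => (eg_TY (hF.eY b)).mul eg_q6l]
    refine EwG_congr fun w => ?_
    rw [← TY_sum, Finset.sum_mul]
  rw [e1, e2]
  simp only [Finset.sum_add_distrib, ← Finset.mul_sum, Finset.sum_const,
    Finset.card_univ, Fintype.card_fin, nsmul_eq_mul]
  unfold eKap
  ring

lemma eg_c2 : EG fun w : K4 (Pair n) → ℝ => cF2 S s (H712.lp a w) :=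
  EG.sum _ fun i _ => EG.sum _ fun j _ => (eg_lp a (S.eg_A s i j)).pow 2

lemma eg_Rn : EG fun w : K4 (Pair n) → ℝ => Rn S s (H712.lp a w) := by
  unfold Rn fr
  exact EG.sum _ fun e _ => EG.sum _ fun i _ => EG.sum _ fun j _ =>
    (eg_lp a (S.eg_DA s e i j)).pow 2

/-- **[KAP] with the energy.** `M` is the size of the matrix `C`, `δ` the mass of the bad event. -/
theorem kap_end (hq : q.OkS) (hG : G.Ok) (hr : GRow k q G)
    (hFn : Fn k SkS (uu q.x s S.F) (S.mu s) Γ) (hs : 0 < s) (hΓ : 0 ≤ Γ)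
    (ht : s * (2 * (k * Γ)) ^ 2 ≤ 1 / 4) {M : ℝ} (hM : 0 < M) (hva : vr a = s)
    (hF : FzY BY BL Y' L') (hn : 0 < n) (hBY : 0 < BY) (hBL : 0 ≤ BL) {p : ℕ}
    (hp : ((2 * p + 2 : ℕ) : ℝ) ^ 2 * (18 * q.x ^ 2 * k ^ 2 * n) ≤ 1) {ε : ℝ}
    (hL : Law2G n ε q G S.F) {δ : ℝ}
    (hδ : EwG q G S.F (fun w => if M ^ 2 < cF2 S s (H712.lp a w) then (1 : ℝ) else 0) ≤
      δ * EwG q G S.F (fun _ => 1)) :
    ∑ b, EwG q G S.F (nl k S s a b (Y' b) (L' b)) ≤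
      436 * cK s k Γ n * (M ^ 3 * EwG q G S.F (TY S s a (Yh Y')) +
        (n : ℝ) ^ 2 / (k ^ 2 * q.x ^ 2 * M ^ 3) *
          EwG q G S.F (fun w => TY S s a (Yh Y') w * Rn S s (H712.lp a w))) +
      2 * (s * k ^ 2) * ∑ b, EwG q G S.F (lin S s a b (Y' b) (L' b)) +
      (eKap n k s Γ BY BL (M ^ 3) ε p + 432 * cK s k Γ n / M ^ 3 *
        ((n : ℝ) ^ 2 * BY * (n : ℝ) ^ 6 * δ)) * EwG q G S.F (fun _ => 1) := by
  have hx := hq.x0
  have hc := S.c11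
  have hn0 : (0 : ℝ) ≤ n := Nat.cast_nonneg n
  have hcK : 0 ≤ cK s k Γ n := cK_nonneg hs.le
  have h1 := kap_sum (a := a) hq hG hr hFn hs hΓ ht (pow_pos hM 3) hva hF hn hBY hBL hp hL
  have eYh : ∀ i l, EG fun w => Yh Y' w i l := fun i l => EG.sum _ fun b _ => hF.eY b i l
  have eT : EG (TY S s a (Yh Y')) := eg_TY eYh
  have T0 : ∀ w, 0 ≤ TY S s a (Yh Y') w := fun w => by
    rw [← TY_sum]
    exact Finset.sum_nonneg fun b _ => TY_nonneg w (hF.sy b w) (hF.ps b w)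
  have TB : ∀ w, TY S s a (Yh Y') w ≤ (n : ℝ) ^ 2 * BY := fun w => by
    rw [← TY_sum]
    calc ∑ b, TY S s a (Y' b) w ≤ ∑ _b : Fin n, (n : ℝ) * BY :=
          Finset.sum_le_sum fun b _ => TY_le w (hF.sy b w) (hF.ps b w) (hF.bY b w)
      _ = (n : ℝ) ^ 2 * BY := by simp; ring
  have eR : EG fun w => TY S s a (Yh Y') w * Rn S s (H712.lp a w) := eT.mul eg_Rn
  have ei : EG fun w : K4 (Pair n) → ℝ => if M ^ 2 < cF2 S s (H712.lp a w) then (1 : ℝ) else 0 := by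
    refine EG.of_bdd (C := 1) ?_ fun w => ?_
    · exact Measurable.ite (measurableSet_lt measurable_const (eg_c2 (S := S)).meas)
        measurable_const measurable_const
    · split_ifs <;> simp
  have kx : 0 < k ^ 2 * q.x ^ 2 := mul_pos (pow_pos S.k0 2) (pow_pos hx 2)
  -- pointwise
  have h2 : ∀ w, TY S s a (Yh Y') w * q6 S s (H712.lp a w) ≤
      108 * M ^ 6 * TY S s a (Yh Y') w + (108 * (n : ℝ) ^ 2 / (k ^ 2 * q.x ^ 2) *
        (TY S s a (Yh Y') w * Rn S s (H712.lp a w)) +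
        108 * ((n : ℝ) ^ 2 * BY * (n : ℝ) ^ 6) *
          (if M ^ 2 < cF2 S s (H712.lp a w) then (1 : ℝ) else 0)) := by
    intro w
    have a1 := q6_energy (S := S) hs (H712.lp a w)
    have a2 := mul_le_mul_of_nonneg_left a1 (T0 w)
    have a3 : cF2 S s (H712.lp a w) ^ 3 ≤ M ^ 6 + (n : ℝ) ^ 6 *
        (if M ^ 2 < cF2 S s (H712.lp a w) then (1 : ℝ) else 0) := by
      split_ifs with h
      · have b1 := pow_le_pow_left₀ (cF2_nonneg S s (H712.lp a w))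
          (cF2_le (S := S) (s := s) (H712.lp a w)) 3
        have b2 : ((n : ℝ) ^ 2) ^ 3 = (n : ℝ) ^ 6 := by ring
        have b3 : 0 ≤ M ^ 6 := by positivity
        rw [b2] at b1
        linarith
      · have b1 := pow_le_pow_left₀ (cF2_nonneg S s (H712.lp a w)) (not_lt.1 h) 3
        have b2 : (M ^ 2) ^ 3 = M ^ 6 := by ring
        rw [b2] at b1
        linarith
    have a4 := mul_le_mul_of_nonneg_left a3 (T0 w)
    have a5 : TY S s a (Yh Y') w * ((n : ℝ) ^ 6 *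
        (if M ^ 2 < cF2 S s (H712.lp a w) then (1 : ℝ) else 0)) ≤
        ((n : ℝ) ^ 2 * BY) * ((n : ℝ) ^ 6 *
        (if M ^ 2 < cF2 S s (H712.lp a w) then (1 : ℝ) else 0)) := by
      refine mul_le_mul_of_nonneg_right (TB w) ?_
      split_ifs <;> positivity
    calc TY S s a (Yh Y') w * q6 S s (H712.lp a w) ≤ TY S s a (Yh Y') w *
          (108 * cF2 S s (H712.lp a w) ^ 3 + 108 * (n : ℝ) ^ 2 / (k ^ 2 * q.x ^ 2) *
            Rn S s (H712.lp a w)) := a2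
      _ = 108 * (TY S s a (Yh Y') w * cF2 S s (H712.lp a w) ^ 3) +
          108 * (n : ℝ) ^ 2 / (k ^ 2 * q.x ^ 2) *
            (TY S s a (Yh Y') w * Rn S s (H712.lp a w)) := by ring
      _ ≤ 108 * (TY S s a (Yh Y') w * (M ^ 6 + (n : ℝ) ^ 6 *
            (if M ^ 2 < cF2 S s (H712.lp a w) then (1 : ℝ) else 0))) +
          108 * (n : ℝ) ^ 2 / (k ^ 2 * q.x ^ 2) *
            (TY S s a (Yh Y') w * Rn S s (H712.lp a w)) := by linarith
      _ ≤ _ := by linarith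
  have h3 := EwG_mono hc hx hG (eT.mul eg_q6l) ((eT.const_mul (108 * M ^ 6)).add
    ((eR.const_mul (108 * (n : ℝ) ^ 2 / (k ^ 2 * q.x ^ 2))).add
      (ei.const_mul (108 * ((n : ℝ) ^ 2 * BY * (n : ℝ) ^ 6))))) h2
  rw [EwG_add hc hx hG (eT.const_mul _) ((eR.const_mul _).add (ei.const_mul _)),
    EwG_add hc hx hG (eR.const_mul _) (ei.const_mul _), EwG_const_mul, EwG_const_mul,
    EwG_const_mul] at h3
  set E1 := EwG q G S.F (fun _ => 1)
  set A := EwG q G S.F (TY S s a (Yh Y'))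
  set B := EwG q G S.F (fun w => TY S s a (Yh Y') w * q6 S s (H712.lp a w))
  set C := EwG q G S.F (fun w => TY S s a (Yh Y') w * Rn S s (H712.lp a w))
  set I := EwG q G S.F (fun w => if M ^ 2 < cF2 S s (H712.lp a w) then (1 : ℝ) else 0)
  set W := ∑ b, EwG q G S.F (lin S s a b (Y' b) (L' b))
  have h4 : 108 * ((n : ℝ) ^ 2 * BY * (n : ℝ) ^ 6) * I ≤
      108 * ((n : ℝ) ^ 2 * BY * (n : ℝ) ^ 6) * (δ * E1) :=
    mul_le_mul_of_nonneg_left hδ (by positivity)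
  have h5 : (M ^ 3)⁻¹ * B ≤ (M ^ 3)⁻¹ * (108 * M ^ 6 * A + (108 * (n : ℝ) ^ 2 /
      (k ^ 2 * q.x ^ 2) * C + 108 * ((n : ℝ) ^ 2 * BY * (n : ℝ) ^ 6) * (δ * E1))) :=
    mul_le_mul_of_nonneg_left (by linarith) (by positivity)
  have h6 : (M ^ 3)⁻¹ * (108 * M ^ 6 * A + (108 * (n : ℝ) ^ 2 /
      (k ^ 2 * q.x ^ 2) * C + 108 * ((n : ℝ) ^ 2 * BY * (n : ℝ) ^ 6) * (δ * E1))) =
      108 * M ^ 3 * A + 108 * ((n : ℝ) ^ 2 / (k ^ 2 * q.x ^ 2 * M ^ 3) * C) +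
        108 * ((n : ℝ) ^ 2 * BY * (n : ℝ) ^ 6 * δ) / M ^ 3 * E1 := by
    have hk := S.k0.ne'
    have hx' := hx.ne'
    field_simp
    ring
  have hC : 0 ≤ (n : ℝ) ^ 2 / (k ^ 2 * q.x ^ 2 * M ^ 3) * C := by
    refine mul_nonneg (by positivity) (EwG_nonneg fun w => mul_nonneg (T0 w) ?_)
    unfold Rn fr
    positivity
  have h7 : M ^ 3 * A + (M ^ 3)⁻¹ * B ≤ 109 * (M ^ 3 * A) +
      109 * ((n : ℝ) ^ 2 / (k ^ 2 * q.x ^ 2 * M ^ 3) * C) +
        108 * ((n : ℝ) ^ 2 * BY * (n : ℝ) ^ 6 * δ) / M ^ 3 * E1 := by linarith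
  have h8 := mul_le_mul_of_nonneg_left h7 (show 0 ≤ 4 * cK s k Γ n by positivity)
  refine h1.trans ?_
  have h9 : 4 * cK s k Γ n * (109 * (M ^ 3 * A) +
      109 * ((n : ℝ) ^ 2 / (k ^ 2 * q.x ^ 2 * M ^ 3) * C) +
        108 * ((n : ℝ) ^ 2 * BY * (n : ℝ) ^ 6 * δ) / M ^ 3 * E1) =
      436 * cK s k Γ n * (M ^ 3 * A + (n : ℝ) ^ 2 / (k ^ 2 * q.x ^ 2 * M ^ 3) * C) +
        432 * cK s k Γ n / M ^ 3 * ((n : ℝ) ^ 2 * BY * (n : ℝ) ^ 6 * δ) * E1 := by ring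
  rw [h9] at h8
  linarith

end law

end Vale.Agent.P146.Cum
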