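import Vale.Agent.P146.H712.M3
import Vale.Agent.P146.H941.F01
import Vale.Agent.P146.H784.LawN
import Vale.Agent.P146.H326.J1

/-!
Row [KAP], part 4: the row at a fixed bulk in the coordinates `K4`, and the law change for
functions with a second moment.
-/

open MeasureTheory ProbabilityTheory

namespace Vale.Agent.P146.Cum

open Vale.Agent.P157.Lv Vale.Agent.P146.H425 Vale.Agent.P146.H325 Vale.Agent.P146.H332
  Vale.Agent.P146.H712 Vale.Agent.P146.R1 Vale.Agent.P146.R1C Vale.Agent.P146.R1S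
  Vale.Agent.P146.H191 Vale.Agent.P146.H706
open Vale.Agent.P146.H941 (nl)

set_option linter.unusedSectionVars false

section lp

variable {κ : Type} [Fintype κ] [DecidableEq κ] {R : Finset κ}

lemma lp_sw (a : Fin 4 → ℝ) (R : Finset κ) (w u : K4 κ → ℝ) :
    H712.lp a (H712.sw (lf R) w u) = H712.sw R (H712.lp a w) (H712.lp a u) := by
  funext e
  unfold H712.lp H712.sw lf
  by_cases h : e ∈ R
  · simp [h]
  · simp [h]

/-- the law of a linear position -/
lemma int_lp (a : Fin 4 → ℝ) {g : (κ → ℝ) → ℝ} (hg : EG g) :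
    ∫ u, g (H712.lp a u) ∂(gI (K4 κ)) = ∫ y, g (√(vr a) • y) ∂(gI κ) := by
  have eG : EG fun u : K4 κ → ℝ => g (H712.lp a u) := eg_lp a hg
  rw [int_K4 eG]
  have e0 : ∀ y0 y1 y2 y3 : κ → ℝ,
      H712.lp a (Sum.elim y0 (Sum.elim y1 (Sum.elim y2 y3)) : K4 κ → ℝ) =
        (a 0 • y0 + a 1 • y1 + a 2 • y2) + a 3 • y3 := by
    intro y0 y1 y2 y3
    funext e
    simp [H712.lp]
  simp only [e0]
  have v0 : 0 ≤ vr a := by unfold vr; positivity
  have q1 : a 2 ^ 2 + a 3 ^ 2 = √(a 2 ^ 2 + a 3 ^ 2) ^ 2 := (Real.sq_sqrt (by positivity)).symm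
  have q2 : a 1 ^ 2 + √(a 2 ^ 2 + a 3 ^ 2) ^ 2 = √(a 1 ^ 2 + (a 2 ^ 2 + a 3 ^ 2)) ^ 2 := by
    rw [Real.sq_sqrt (by positivity), Real.sq_sqrt (by positivity)]
  have q3 : a 0 ^ 2 + √(a 1 ^ 2 + (a 2 ^ 2 + a 3 ^ 2)) ^ 2 = √(vr a) ^ 2 := by
    rw [Real.sq_sqrt (by positivity), Real.sq_sqrt v0]
    unfold vr
    ring
  have r1 : ∀ y0 y1 : κ → ℝ, ∫ y2, (∫ y3, g (a 0 • y0 + a 1 • y1 + a 2 • y2 + a 3 • y3) ∂(gI κ))
      ∂(gI κ) = ∫ y, g (a 0 • y0 + a 1 • y1 + √(a 2 ^ 2 + a 3 ^ 2) • y) ∂(gI κ) := fun y0 y1 =>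
    gI_rot hg q1 (a 0 • y0 + a 1 • y1)
  have r2 : ∀ y0 : κ → ℝ, ∫ y1, (∫ y, g (a 0 • y0 + a 1 • y1 + √(a 2 ^ 2 + a 3 ^ 2) • y) ∂(gI κ))
      ∂(gI κ) = ∫ y, g (a 0 • y0 + √(a 1 ^ 2 + (a 2 ^ 2 + a 3 ^ 2)) • y) ∂(gI κ) := fun y0 =>
    gI_rot hg q2 (a 0 • y0)
  simp_rw [r1, r2]
  have r3 := gI_rot hg q3 0
  simpa only [zero_add] using r3

/-- the average over a set of couplings in the coordinates `K4`, at a linear position -/
theorem Av_lf_lp (a : Fin 4 → ℝ) {f : (κ → ℝ) → ℝ} (hf : EG f) (R : Finset κ)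
    (w : K4 κ → ℝ) :
    Av (lf R) (fun w => f (H712.lp a w)) w = AvP (vr a) R f (H712.lp a w) := by
  unfold Av AvP
  simp only [lp_sw]
  exact int_lp a (g := fun z => f (H712.sw R (H712.lp a w) z)) (R1C.eg_sw hf R _)

end lp

section fact

variable {n : ℕ}

/-- a nonnegative form is a sum of squares -/
lemma psd_fact {Y : Fin n → Fin n → ℝ} (hs : ∀ i l, Y i l = Y l i)
    (hY : ∀ v : Fin n → ℝ, 0 ≤ ∑ i, ∑ l, Y i l * (v i * v l)) :
    ∃ P : Matrix (Fin n) (Fin n) ℝ, ∀ i l, Y i l = ∑ m, P m i * P m l := by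
  have h1 : (Matrix.of Y).PosSemidef := by
    refine Matrix.PosSemidef.of_dotProduct_mulVec_nonneg ?_ fun v => ?_
    · ext i l
      simp only [Matrix.conjTranspose_apply, Matrix.of_apply, star_trivial]
      exact hs l i
    · have := hY v
      refine this.trans (le_of_eq ?_)
      simp only [dotProduct, Matrix.mulVec, Matrix.of_apply, Finset.mul_sum, star_trivial]
      exact Finset.sum_congr rfl fun i _ => Finset.sum_congr rfl fun l _ => by
        ring
  obtain ⟨P, hP⟩ := H326.J1.psd_sq h1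
  refine ⟨P, fun i l => ?_⟩
  have h2 := congrFun (congrFun hP i) l
  simp only [Matrix.of_apply, Matrix.mul_apply, Matrix.conjTranspose_apply, star_trivial] at h2
  exact h2

lemma fact_form {Y : Fin n → Fin n → ℝ} {P : Matrix (Fin n) (Fin n) ℝ}
    (hP : ∀ i l, Y i l = ∑ m, P m i * P m l) (v : Fin n → ℝ) :
    ∑ i, ∑ l, Y i l * (v i * v l) = ∑ m, (∑ l, P m l * v l) ^ 2 := by
  calc ∑ i, ∑ l, Y i l * (v i * v l) = ∑ i, ∑ l, ∑ m, (P m i * v i) * (P m l * v l) := by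
        refine Finset.sum_congr rfl fun i _ => Finset.sum_congr rfl fun l _ => ?_
        rw [hP, Finset.sum_mul]
        exact Finset.sum_congr rfl fun m _ => by ring
    _ = ∑ i, ∑ m, ∑ l, (P m i * v i) * (P m l * v l) :=
        Finset.sum_congr rfl fun i _ => Finset.sum_comm
    _ = ∑ m, ∑ i, ∑ l, (P m i * v i) * (P m l * v l) := Finset.sum_comm
    _ = ∑ m, (∑ l, P m l * v l) ^ 2 := by
        refine Finset.sum_congr rfl fun m _ => ?_
        rw [pow_two, Finset.sum_mul_sum]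

end fact

section row

variable {n : ℕ} {k x s Γ : ℝ} {S : CS n k x} {b : Fin n} {a : Fin 4 → ℝ}

/-- `tr (Y C)` at the position -/
noncomputable def TY (S : CS n k x) (s : ℝ) (a : Fin 4 → ℝ) (Y : MF n)
    (w : K4 (Pair n) → ℝ) : ℝ := ∑ l, ∑ m, Y w l m * S.A s (H712.lp a w) l m

/-- the mean of the row gradients at a fixed bulk -/
noncomputable def Hb (S : CS n k x) (s : ℝ) (b : Fin n) (z : Pair n → ℝ) (l j : Fin n) : ℝ :=
  AvP s (row b) (fun u => S.H s b u l j) z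

/-- the linear part -/
noncomputable def lin (S : CS n k x) (s : ℝ) (a : Fin 4 → ℝ) (b : Fin n) (Y L : MF n)
    (w : K4 (Pair n) → ℝ) : ℝ :=
  ∑ l, ∑ m, Y w l m * ∑ j, (Hb S s b (H712.lp a w) l j - L w l j) *
    (Hb S s b (H712.lp a w) m j - L w m j)

/-- the row constant with all the powers -/
noncomputable def cK (s k Γ : ℝ) (n : ℕ) : ℝ :=
  s * k ^ 2 * (s ^ 2 * (k ^ 4 * (6 * Γ ^ 3) ^ 2) * (cR s k Γ n / 2))

lemma cK_nonneg (hs : 0 ≤ s) : 0 ≤ cK s k Γ n := by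
  have h1 := cR_one (k := k) (Γ := Γ) (n := n) hs
  unfold cK
  have : 0 ≤ cR s k Γ n := by linarith
  positivity

/-- **The row at a fixed bulk, in the coordinates `K4`.** -/
theorem nl_av (hFn : Fn k SkS (uu x s S.F) (S.mu s) Γ) (hs : 0 < s) (hΓ : 0 ≤ Γ)
    (ht : s * (2 * (k * Γ)) ^ 2 ≤ 1 / 4) {Λ : ℝ} (hΛ : 0 < Λ) (hva : vr a = s) {Y L : MF n}
    (hYi : ∀ i l, Ind (lf (row b)) fun w => Y w i l)
    (hLi : ∀ i l, Ind (lf (row b)) fun w => L w i l)
    (hYs : ∀ w i l, Y w i l = Y w l i)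
    (hYp : ∀ w, ∀ v : Fin n → ℝ, 0 ≤ ∑ i, ∑ l, Y w i l * (v i * v l))
    (hLb : ∀ w i, L w i b = 0) (w : K4 (Pair n) → ℝ) :
    Av (lf (row b)) (nl k S s a b Y L) w ≤
      cK s k Γ n * (Λ * Av (lf (row b)) (TY S s a Y) w +
        Λ⁻¹ * Av (lf (row b)) (fun w => TY S s a Y w * q6 S s (H712.lp a w)) w) +
      s * k ^ 2 * lin S s a b Y L w := by
  obtain ⟨P, hP⟩ := psd_fact (hYs w) (hYp w)
  have hY' : ∀ u i l, Y (H712.sw (lf (row b)) w u) i l = Y w i l := fun u i l => hYi i l w u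
  have hL' : ∀ u i l, L (H712.sw (lf (row b)) w u) i l = L w i l := fun u i l => hLi i l w u
  -- the left side
  have e1 : Av (lf (row b)) (nl k S s a b Y L) w =
      AvP s (row b) (fun u => ∑ i, (∑ l, P i l * Nz S s b (L w) l u) ^ 2) (H712.lp a w) := by
    have ef : EG fun u => ∑ i, (∑ l, P i l * Nz S s b (L w) l u) ^ 2 :=
      EG.sum _ fun i _ => (EG.sum _ fun l _ => (eg_Nz _ l).const_mul _).pow 2
    have h1 := Av_lf_lp a ef (row b) w
    rw [hva] at h1
    rw [← h1]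
    unfold Av
    refine integral_congr_ae (Filter.Eventually.of_forall fun u => ?_)
    simp only
    unfold nl qY
    simp only [hY']
    have e2 : ∀ i, Nr a k b L (Uz S s b) i (H712.sw (lf (row b)) w u) =
        Nz S s b (L w) i (H712.lp a (H712.sw (lf (row b)) w u)) := by
      intro i
      unfold Nr Ly Nz
      simp only [hL']
    simp only [e2]
    exact fact_form hP fun l => Nz S s b (L w) l (H712.lp a (H712.sw (lf (row b)) w u))
  have e3 : ∀ z, tP S P s z = ∑ l, ∑ m, Y w l m * S.A s z l m := by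
    intro z
    rw [tP_eq]
    exact Finset.sum_congr rfl fun l _ => Finset.sum_congr rfl fun m _ => by rw [hP]
  have e4 : Av (lf (row b)) (TY S s a Y) w = AvP s (row b) (tP S P s) (H712.lp a w) := by
    have h1 := Av_lf_lp a (eg_tP S P s) (row b) w
    rw [hva] at h1
    rw [← h1]
    unfold Av
    refine integral_congr_ae (Filter.Eventually.of_forall fun u => ?_)
    simp only
    unfold TY
    simp only [hY', e3]
  have e5 : Av (lf (row b)) (fun w => TY S s a Y w * q6 S s (H712.lp a w)) w =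
      AvP s (row b) (fun u => tP S P s u * q6 S s u) (H712.lp a w) := by
    have h1 := Av_lf_lp a ((eg_tP S P s).mul (eg_q6 S s)) (row b) w
    rw [hva] at h1
    rw [← h1]
    unfold Av
    refine integral_congr_ae (Filter.Eventually.of_forall fun u => ?_)
    simp only
    unfold TY
    simp only [hY', e3]
  have key := nl_row hFn hs hΓ ht hΛ P (L w) b (fun i => hLb w i) (H712.lp a w)
  rw [e1, e4, e5]
  refine key.trans (le_of_eq ?_)
  have e6 : ∑ i, ∑ j, (∑ l, P i l * (AvP s (row b) (fun u => S.H s b u l j) (H712.lp a w) -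
      L w l j)) ^ 2 = lin S s a b Y L w := by
    have h0 : lin S s a b Y L w = ∑ j, ∑ l, ∑ m, Y w l m *
        ((Hb S s b (H712.lp a w) l j - L w l j) * (Hb S s b (H712.lp a w) m j - L w m j)) := by
      unfold lin
      calc _ = ∑ l, ∑ m, ∑ j, Y w l m * ((Hb S s b (H712.lp a w) l j - L w l j) *
              (Hb S s b (H712.lp a w) m j - L w m j)) := by
            refine Finset.sum_congr rfl fun l _ => Finset.sum_congr rfl fun m _ => ?_
            rw [Finset.mul_sum]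
        _ = ∑ l, ∑ j, ∑ m, Y w l m * ((Hb S s b (H712.lp a w) l j - L w l j) *
              (Hb S s b (H712.lp a w) m j - L w m j)) :=
            Finset.sum_congr rfl fun l _ => Finset.sum_comm
        _ = _ := Finset.sum_comm
    rw [h0, Finset.sum_comm]
    refine Finset.sum_congr rfl fun j _ => ?_
    exact (fact_form hP fun l => Hb S s b (H712.lp a w) l j - L w l j).symm
  rw [e6]
  unfold cK
  ring

lemma eg_TY {Y : MF n} (hY : ∀ i l, EG fun w => Y w i l) : EG (TY S s a Y) :=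
  EG.sum _ fun l _ => EG.sum _ fun m _ => (hY l m).mul (eg_lp a (S.eg_A s l m))

lemma eg_q6l : EG fun w : K4 (Pair n) → ℝ => q6 S s (H712.lp a w) := eg_lp a (eg_q6 S s)

lemma TY_nonneg {Y : MF n} (w : K4 (Pair n) → ℝ) (hYs : ∀ i l, Y w i l = Y w l i)
    (hYp : ∀ v : Fin n → ℝ, 0 ≤ ∑ i, ∑ l, Y w i l * (v i * v l)) : 0 ≤ TY S s a Y w := by
  obtain ⟨P, hP⟩ := psd_fact hYs hYp
  have e3 : tP S P s (H712.lp a w) = TY S s a Y w := by
    rw [tP_eq]
    exact Finset.sum_congr rfl fun l _ => Finset.sum_congr rfl fun m _ => by rw [hP]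
  rw [← e3]
  exact tP_nonneg P s _

end row

end Vale.Agent.P146.Cum
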