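import Vale.Agent.P146.H826.LawP
import Vale.Agent.P146.H712.AvPq

/-!
Derivatives of row averages.
-/

open MeasureTheory ProbabilityTheory

namespace Vale.Agent.P146.H712

open Vale.Agent.P157.Lv Vale.Agent.P146.H425 Vale.Agent.P146.H325 Vale.Agent.P146.R1C

set_option linter.unusedSectionVars false

variable {ι : Type} [Fintype ι] [DecidableEq ι]

/-- an affine position with a vector of coefficients -/
def rpR (p a : ι → ℝ) (y : ι → ℝ) : ι → ℝ := fun e => p e + a e * y e

lemma update_affR (y z : ι → ℝ) (c : ι → ℝ) (e : ι) (t : ℝ) :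
    (fun i => Function.update y e t i + c i * z i) =
      Function.update (fun i => y i + c i * z i) e (t + c e * z e) := by
  funext i
  by_cases h : i = e
  · subst h
    simp
  · simp [Function.update_of_ne h]

lemma update_rpR (p a y : ι → ℝ) (e : ι) (t : ℝ) :
    rpR p a (Function.update y e t) = Function.update (rpR p a y) e (p e + a e * t) := by
  funext i
  by_cases h : i = e
  · subst h
    simp [rpR]
  · simp [rpR, Function.update_of_ne h]

/-- derivatives of smoothed functions -/
lemma pd_TcR {H H' : (ι → ℝ) → ℝ} {e : ι} (hd : PD e H H') (hg : EG H) (hg' : EG H')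
    (c : ι → ℝ) : PD e (Tc c H) (Tc c H') := by
  intro y x
  obtain ⟨C, d, hC, hd', h1⟩ := hg'.bdd
  set c' : ι → ℝ := fun e => √(c e) with hc'
  have hK := bK_nonneg c'
  refine (hasDerivAt_integral_of_dominated_loc_of_deriv_le
    (F := fun t (z : ι → ℝ) => H (fun i => Function.update y e t i + √(c i) * z i))
    (F' := fun t (z : ι → ℝ) => H' (fun i => Function.update y e t i + √(c i) * z i))
    (bound := fun (z : ι → ℝ) => C * Real.exp (d * (‖y‖ + |x| + 1)) * Real.exp (d * bK c' * ‖z‖))
    (Metric.ball_mem_nhds x one_pos) ?_ ?_ ?_ ?_ ?_ ?_).2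
  · exact Filter.Eventually.of_forall fun t => (EG.aff hg _ c').meas.aestronglyMeasurable
  · exact (EG.aff hg _ c').integrable
  · exact (EG.aff hg' _ c').meas.aestronglyMeasurable
  · refine Filter.Eventually.of_forall fun z t ht => ?_
    rw [Metric.mem_ball, Real.dist_eq] at ht
    have h2 : ‖fun i => Function.update y e t i + √(c i) * z i‖ ≤
        (‖y‖ + |x| + 1) + bK c' * ‖z‖ := by
      refine (norm_aff_le _ c' z (le_bK c')).trans ?_
      have h3 := norm_update_le y e t
      have h4 : |t| ≤ |x| + 1 := by
        have := abs_add_le (t - x) x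
        rw [sub_add_cancel] at this
        linarith
      linarith
    rw [Real.norm_eq_abs]
    calc |H' (fun i => Function.update y e t i + √(c i) * z i)|
        ≤ C * Real.exp (d * ‖fun i => Function.update y e t i + √(c i) * z i‖) := h1 _
      _ ≤ C * Real.exp (d * ((‖y‖ + |x| + 1) + bK c' * ‖z‖)) := by gcongr
      _ = C * Real.exp (d * (‖y‖ + |x| + 1)) * Real.exp (d * bK c' * ‖z‖) := by
          rw [mul_assoc, ← Real.exp_add]
          congr 2
          ring
  · exact (integrable_exp_norm _).const_mul _
  · refine Filter.Eventually.of_forall fun z t _ => ?_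
    have e1 : ∀ t, (fun i => Function.update y e t i + √(c i) * z i) =
      Function.update (fun i => y i + √(c i) * z i) e (t + √(c e) * z e) :=
      fun t => update_affR y z (fun i => √(c i)) e t
    simp only [e1]
    have h3 := hd (fun i => y i + √(c i) * z i) (t + √(c e) * z e)
    have h4 : HasDerivAt (fun t : ℝ => t + √(c e) * z e) 1 t := (hasDerivAt_id t).add_const _
    exact (h3.comp t h4).congr_deriv (mul_one _)

/-- composition with an affine position -/
lemma pd_rpR {H H' : (ι → ℝ) → ℝ} {e : ι} (hd : PD e H H') (p a : ι → ℝ) :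
    PD e (fun y => H (rpR p a y)) (fun y => a e * H' (rpR p a y)) := by
  intro y x
  simp only [update_rpR]
  have h4 : HasDerivAt (fun t : ℝ => p e + a e * t) (a e) x := by
    simpa using ((hasDerivAt_id x).const_mul (a e)).const_add (p e)
  exact ((hd (rpR p a y) (p e + a e * x)).comp x h4).congr_deriv (mul_comm _ _)

lemma AvP_TcR (s : ℝ) (R : Finset ι) (f : (ι → ℝ) → ℝ) (z : ι → ℝ) :
    AvP s R f z = Tc (fun e => if e ∈ R then s else 0) f
      (rpR 0 (fun e => if e ∈ R then 0 else 1) z) := by
  unfold AvP Tc
  refine integral_congr_ae (Filter.Eventually.of_forall fun g => ?_)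
  simp only
  congr 1
  funext e
  unfold rpR H712.sw
  by_cases h : e ∈ R <;> simp [h]

/-- the factor of a derivative under a row average -/
def ouR (R : Finset ι) (e : ι) : ℝ := if e ∈ R then 0 else 1

lemma pd_AvPR {f f' : (ι → ℝ) → ℝ} {e : ι} (hd : PD e f f') (hf : EG f) (hf' : EG f') (s : ℝ)
    (R : Finset ι) : PD e (AvP s R f) (fun z => ouR R e * AvP s R f' z) := by
  have h := pd_rpR (pd_TcR hd hf hf' (fun e => if e ∈ R then s else 0)) 0
    (fun e => if e ∈ R then (0 : ℝ) else 1)
  have e1 : (fun z => Tc (fun e => if e ∈ R then s else 0) f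
      (rpR 0 (fun e => if e ∈ R then 0 else 1) z)) = AvP s R f := by
    funext z
    exact (AvP_TcR s R f z).symm
  rw [e1] at h
  refine h.congr fun z => ?_
  rw [← AvP_TcR]
  rfl

end Vale.Agent.P146.H712
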