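import Vale.Agent.P146.H712.AvPq
import Vale.Agent.P146.H712.Ou

/-!
Reverse Hoelder inequalities over a row: two nonnegative functions whose logarithms have small
derivatives in every coupling of the row.
-/

open MeasureTheory ProbabilityTheory

namespace Vale.Agent.P146.H712

open Vale.Agent.P157.Lv Vale.Agent.P146.R1 Vale.Agent.P146.R1C Vale.Agent.P146.H425

set_option linter.unusedSectionVars false

variable {κ : Type} [Fintype κ] [DecidableEq κ] {R : Finset κ} {s l : ℝ}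

lemma sw_empty (z w : κ → ℝ) : H712.sw (∅ : Finset κ) z w = z := by
  funext e
  simp [H712.sw]

lemma AvP_empty (f : (κ → ℝ) → ℝ) (z : κ → ℝ) : AvP s (∅ : Finset κ) f z = f z :=
  AvP_ind (s := s) (R := ∅) (f := f) (fun z w => by
    show f (H712.sw (∅ : Finset κ) z w) = f z
    rw [sw_empty]) z

/-- A nonnegative function with logarithmic derivatives at most `l` on `R`. -/
structure LL (R : Finset κ) (l : ℝ) (f : (κ → ℝ) → ℝ) : Prop where
  eg : EG f
  nn : ∀ z, 0 ≤ f z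
  pd : ∀ e ∈ R, ∃ f' : (κ → ℝ) → ℝ, EG f' ∧ PD e f f' ∧ ∀ z, |f' z| ≤ l * f z

lemma LL.mono {R' : Finset κ} {f : (κ → ℝ) → ℝ} (h : LL R l f) (hR : R' ⊆ R) : LL R' l f :=
  ⟨h.eg, h.nn, fun e he => h.pd e (hR he)⟩

lemma LL.le {l' : ℝ} {f : (κ → ℝ) → ℝ} (h : LL R l f) (hl : l ≤ l') : LL R l' f :=
  ⟨h.eg, h.nn, fun e he => by
    obtain ⟨f', h1, h2, h3⟩ := h.pd e he
    exact ⟨f', h1, h2, fun z => (h3 z).trans (mul_le_mul_of_nonneg_right hl (h.nn z))⟩⟩

lemma LL.av {R' : Finset κ} {f : (κ → ℝ) → ℝ} (h : LL R l f) (hl : 0 ≤ l) (s : ℝ) :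
    LL R l (AvP s R' f) := by
  refine ⟨eg_AvP h.eg s R', fun z => AvP_nonneg h.nn z, fun e he => ?_⟩
  obtain ⟨f', h1, h2, h3⟩ := h.pd e he
  refine ⟨fun z => ouR R' e * AvP s R' f' z, (eg_AvP h1 s R').const_mul _,
    pd_AvPR h2 h.eg h1 s R', fun z => ?_⟩
  have a1 : |AvP s R' f' z| ≤ l * AvP s R' f z := by
    rw [abs_le]
    constructor
    · have := AvP_mono (s := s) (R := R') (h.eg.const_mul (-l)) h1 (fun z => by
        have := (abs_le.1 (h3 z)).1
        linarith) z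
      rw [AvP_const_mul] at this
      linarith
    · have := AvP_mono (s := s) (R := R') h1 (h.eg.const_mul l) (fun z => (abs_le.1 (h3 z)).2) z
      rw [AvP_const_mul] at this
      exact this
  have a2 : |ouR R' e| ≤ 1 := by
    unfold ouR
    split_ifs <;> simp
  have a3 : 0 ≤ l * AvP s R' f z := mul_nonneg hl (AvP_nonneg h.nn z)
  rw [abs_mul]
  calc |ouR R' e| * |AvP s R' f' z| ≤ 1 * (l * AvP s R' f z) :=
        mul_le_mul a2 a1 (abs_nonneg _) zero_le_one
    _ = _ := one_mul _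

lemma LL.mul {l' : ℝ} {f g : (κ → ℝ) → ℝ} (hf : LL R l f) (hg : LL R l' g) :
    LL R (l + l') (fun z => f z * g z) := by
  refine ⟨hf.eg.mul hg.eg, fun z => mul_nonneg (hf.nn z) (hg.nn z), fun e he => ?_⟩
  obtain ⟨f', h1, h2, h3⟩ := hf.pd e he
  obtain ⟨g', k1, k2, k3⟩ := hg.pd e he
  refine ⟨fun z => f' z * g z + f z * g' z, (h1.mul hg.eg).add (hf.eg.mul k1), h2.mul k2,
    fun z => ?_⟩
  have a1 : |f' z * g z| ≤ l * f z * g z := by
    rw [abs_mul, abs_of_nonneg (hg.nn z)]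
    exact mul_le_mul_of_nonneg_right (h3 z) (hg.nn z)
  have a2 : |f z * g' z| ≤ f z * (l' * g z) := by
    rw [abs_mul, abs_of_nonneg (hf.nn z)]
    exact mul_le_mul_of_nonneg_left (k3 z) (hf.nn z)
  calc |f' z * g z + f z * g' z| ≤ |f' z * g z| + |f z * g' z| := abs_add_le _ _
    _ ≤ l * f z * g z + f z * (l' * g z) := add_le_add a1 a2
    _ = _ := by ring

/-- variance in one coupling -/
lemma LL.var (hs : 0 ≤ s) {f : (κ → ℝ) → ℝ} {e : κ} (h : LL {e} l f) (z : κ → ℝ) :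
    AvP s {e} (fun u => (f u - AvP s {e} f z) ^ 2) z ≤
      s * l ^ 2 * AvP s {e} (fun u => f u ^ 2) z := by
  obtain ⟨f', h1, h2, h3⟩ := h.pd e (Finset.mem_singleton_self e)
  have p1 := AvP_poincare (R := {e}) (F' := fun _ => f') hs h.eg (fun e' he' => by
    rw [Finset.mem_singleton.1 he']; exact h2) (fun _ _ => h1) z
  have e1 : AvP s {e} (fun u => (f u - AvP s {e} f u) ^ 2) z =
      AvP s {e} (fun u => (f u - AvP s {e} f z) ^ 2) z := by
    unfold AvP
    refine integral_congr_ae (Filter.Eventually.of_forall fun g => ?_)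
    simp only
    congr 2
    exact AvP_sw (s := s) (R := {e}) f z (√s • g)
  rw [e1] at p1
  refine p1.trans ?_
  rw [mul_assoc]
  refine mul_le_mul_of_nonneg_left ?_ hs
  have p2 : AvP s {e} (fun u => ∑ _e' ∈ ({e} : Finset κ), f' u ^ 2) z ≤
      AvP s {e} (fun u => l ^ 2 * f u ^ 2) z := by
    refine AvP_mono (EG.sum _ fun _ _ => h1.pow 2) ((h.eg.pow 2).const_mul _) (fun u => ?_) z
    simp only [Finset.sum_singleton]
    rw [← mul_pow, ← sq_abs (f' u)]
    exact pow_le_pow_left₀ (abs_nonneg _) (h3 u) 2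
  rwa [AvP_const_mul] at p2

lemma av_var {f : (κ → ℝ) → ℝ} (hf : EG f) (z : κ → ℝ) :
    AvP s R (fun u => (f u - AvP s R f z) ^ 2) z =
      AvP s R (fun u => f u ^ 2) z - AvP s R f z ^ 2 := by
  have e : (fun u => (f u - AvP s R f z) ^ 2) =
      fun u => (f u ^ 2 + (-2 * AvP s R f z) * f u) + AvP s R f z ^ 2 := by
    funext u; ring
  rw [e, AvP_add ((hf.pow 2).add (hf.const_mul _)) (EG.const _), AvP_add (hf.pow 2)
    (hf.const_mul _), AvP_const_mul, AvP_const]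
  ring

/-- **(RH1)**, one coupling -/
lemma LL.sq_one (hs : 0 ≤ s) (ht : s * l ^ 2 ≤ 1 / 4) {f : (κ → ℝ) → ℝ} {e : κ}
    (h : LL {e} l f) (z : κ → ℝ) : AvP s {e} (fun u => f u ^ 2) z ≤
      (1 + 2 * (s * l ^ 2)) * AvP s {e} f z ^ 2 := by
  have h1 := h.var hs z
  rw [av_var h.eg] at h1
  set a := AvP s {e} (fun u => f u ^ 2) z
  set m := AvP s {e} f z ^ 2
  set t := s * l ^ 2
  have ht0 : 0 ≤ t := mul_nonneg hs (sq_nonneg l)
  have hm : 0 ≤ m := sq_nonneg _
  have h2 : (1 - t) * a ≤ m := by linarith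
  have h3 : 1 ≤ (1 + 2 * t) * (1 - t) := by nlinarith
  have ha : 0 ≤ a := AvP_nonneg (fun u => sq_nonneg _) z
  calc a = 1 * a := (one_mul a).symm
    _ ≤ (1 + 2 * t) * (1 - t) * a := mul_le_mul_of_nonneg_right h3 ha
    _ = (1 + 2 * t) * ((1 - t) * a) := by ring
    _ ≤ (1 + 2 * t) * m := mul_le_mul_of_nonneg_left h2 (by linarith)

/-- **(RH1)** -/
theorem LL.sq (hs : 0 ≤ s) (hl : 0 ≤ l) (ht : s * l ^ 2 ≤ 1 / 4) :
    ∀ (R : Finset κ) {f : (κ → ℝ) → ℝ}, LL R l f → ∀ z, AvP s R (fun u => f u ^ 2) z ≤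
      (1 + 2 * (s * l ^ 2)) ^ R.card * AvP s R f z ^ 2 := by
  have ht0 : 0 ≤ s * l ^ 2 := mul_nonneg hs (sq_nonneg l)
  intro R
  induction R using Finset.induction_on with
  | empty =>
    intro f h z
    rw [AvP_empty, AvP_empty]
    simp
  | insert e R' he ih =>
    intro f h z
    have hR' : LL R' l f := h.mono (Finset.subset_insert _ _)
    have hav : LL {e} l (AvP s R' f) :=
      (h.av hl s).mono (Finset.singleton_subset_iff.2 (Finset.mem_insert_self _ _))
    have e1 : ∀ g : (κ → ℝ) → ℝ, EG g → AvP s (insert e R') g z =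
        AvP s {e} (AvP s R' g) z := by
      intro g hg
      rw [AvP_AvP hg, ← Finset.insert_eq]
    rw [e1 _ (h.eg.pow 2), e1 _ h.eg]
    have h1 : AvP s {e} (AvP s R' fun u => f u ^ 2) z ≤
        AvP s {e} (fun u => (1 + 2 * (s * l ^ 2)) ^ R'.card * AvP s R' f u ^ 2) z :=
      AvP_mono (eg_AvP (h.eg.pow 2) s R') (((eg_AvP h.eg s R').pow 2).const_mul _)
        (fun u => ih hR' u) z
    rw [AvP_const_mul] at h1
    have h2 := hav.sq_one hs ht z
    refine h1.trans ?_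
    rw [Finset.card_insert_of_notMem he, pow_succ (1 + 2 * (s * l ^ 2)) R'.card, mul_assoc]
    exact mul_le_mul_of_nonneg_left h2 (by positivity)

/-- **(RH2)**, one coupling -/
lemma LL.two_one (hs : 0 ≤ s) (ht : s * l ^ 2 ≤ 1 / 4) {f g : (κ → ℝ) → ℝ} {e : κ}
    (hf : LL {e} l f) (hg : LL {e} l g) (z : κ → ℝ) : AvP s {e} f z * AvP s {e} g z ≤
      (1 + 4 * (s * l ^ 2)) * AvP s {e} (fun u => f u * g u) z := by
  have ht0 : 0 ≤ s * l ^ 2 := mul_nonneg hs (sq_nonneg l)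
  set t := s * l ^ 2 with htd
  have vf := hf.var hs z
  have vg := hg.var hs z
  have sf := hf.sq_one hs ht z
  have sg := hg.sq_one hs ht z
  have f0 : 0 ≤ AvP s {e} f z := AvP_nonneg hf.nn z
  have g0 : 0 ≤ AvP s {e} g z := AvP_nonneg hg.nn z
  have p0 : 0 ≤ AvP s {e} (fun u => f u * g u) z :=
    AvP_nonneg (fun u => mul_nonneg (hf.nn u) (hg.nn u)) z
  rcases f0.eq_or_lt with f1 | f1
  · rw [← f1, zero_mul]
    positivity
  rcases g0.eq_or_lt with g1 | g1
  · rw [← g1, mul_zero]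
    positivity
  set a := AvP s {e} f z with ha
  set c := AvP s {e} g z with hc
  set F2 := AvP s {e} (fun u => f u ^ 2) z
  set G2 := AvP s {e} (fun u => g u ^ 2) z
  -- the covariance
  have key : 0 ≤ AvP s {e} (fun u => (c * (f u - a) + a * (g u - c)) ^ 2) z :=
    AvP_nonneg (fun u => sq_nonneg _) z
  have ef : EG fun u => (f u - a) ^ 2 := (hf.eg.sub (EG.const a)).pow 2
  have eg' : EG fun u => (g u - c) ^ 2 := (hg.eg.sub (EG.const c)).pow 2
  have efg : EG fun u => (f u - a) * (g u - c) :=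
    (hf.eg.sub (EG.const a)).mul (hg.eg.sub (EG.const c))
  have e1 : (fun u => (c * (f u - a) + a * (g u - c)) ^ 2) = fun u =>
      (c ^ 2 * (f u - a) ^ 2 + (2 * (a * c)) * ((f u - a) * (g u - c))) +
        a ^ 2 * (g u - c) ^ 2 := by
    funext u; ring
  rw [e1, AvP_add ((ef.const_mul _).add (efg.const_mul _)) (eg'.const_mul _),
    AvP_add (ef.const_mul _) (efg.const_mul _), AvP_const_mul, AvP_const_mul,
    AvP_const_mul] at key
  have e2 : AvP s {e} (fun u => (f u - a) * (g u - c)) z =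
      AvP s {e} (fun u => f u * g u) z - a * c := by
    have e3 : (fun u => (f u - a) * (g u - c)) = fun u =>
        ((f u * g u + (-c) * f u) + (-a) * g u) + a * c := by
      funext u; ring
    rw [e3, AvP_add (((hf.eg.mul hg.eg).add (hf.eg.const_mul _)).add (hg.eg.const_mul _))
      (EG.const _), AvP_add ((hf.eg.mul hg.eg).add (hf.eg.const_mul _)) (hg.eg.const_mul _),
      AvP_add (hf.eg.mul hg.eg) (hf.eg.const_mul _), AvP_const_mul, AvP_const_mul, AvP_const,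
      ← ha, ← hc]
    ring
  rw [e2] at key
  set q := AvP s {e} (fun u => f u * g u) z
  set Vf := AvP s {e} (fun u => (f u - a) ^ 2) z
  set Vg := AvP s {e} (fun u => (g u - c) ^ 2) z
  have k1 : Vf ≤ t * ((1 + 2 * t) * a ^ 2) := vf.trans (mul_le_mul_of_nonneg_left sf ht0)
  have k2 : Vg ≤ t * ((1 + 2 * t) * c ^ 2) := vg.trans (mul_le_mul_of_nonneg_left sg ht0)
  have k3 : c ^ 2 * Vf ≤ c ^ 2 * (t * ((1 + 2 * t) * a ^ 2)) :=
    mul_le_mul_of_nonneg_left k1 (sq_nonneg c)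
  have k4 : a ^ 2 * Vg ≤ a ^ 2 * (t * ((1 + 2 * t) * c ^ 2)) :=
    mul_le_mul_of_nonneg_left k2 (sq_nonneg a)
  have hac : 0 < a * c := mul_pos f1 g1
  have k5 : 0 ≤ 2 * (a * c) * (t * (1 + 2 * t) * (a * c) + (q - a * c)) := by
    calc (0 : ℝ) ≤ c ^ 2 * Vf + 2 * (a * c) * (q - a * c) + a ^ 2 * Vg := key
      _ ≤ c ^ 2 * (t * ((1 + 2 * t) * a ^ 2)) + 2 * (a * c) * (q - a * c) +
          a ^ 2 * (t * ((1 + 2 * t) * c ^ 2)) := by linarith
      _ = _ := by ring
  have k6 : 0 ≤ t * (1 + 2 * t) * (a * c) + (q - a * c) := by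
    by_contra hcon
    have := mul_neg_of_pos_of_neg (show 0 < 2 * (a * c) by positivity) (not_le.1 hcon)
    linarith
  have k7 : (1 - t * (1 + 2 * t)) * (a * c) ≤ q := by linarith
  have k9 : 0 ≤ t * (3 - 6 * t - 8 * t ^ 2) := mul_nonneg ht0 (by nlinarith)
  have k8 : 1 ≤ (1 + 4 * t) * (1 - t * (1 + 2 * t)) := by nlinarith
  calc a * c = 1 * (a * c) := (one_mul _).symm
    _ ≤ (1 + 4 * t) * (1 - t * (1 + 2 * t)) * (a * c) := mul_le_mul_of_nonneg_right k8 hac.le
    _ = (1 + 4 * t) * ((1 - t * (1 + 2 * t)) * (a * c)) := by ring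
    _ ≤ (1 + 4 * t) * q := mul_le_mul_of_nonneg_left k7 (by linarith)

/-- **(RH2)** -/
theorem LL.two (hs : 0 ≤ s) (hl : 0 ≤ l) (ht : s * l ^ 2 ≤ 1 / 4) :
    ∀ (R : Finset κ) {f g : (κ → ℝ) → ℝ}, LL R l f → LL R l g → ∀ z,
      AvP s R f z * AvP s R g z ≤
      (1 + 4 * (s * l ^ 2)) ^ R.card * AvP s R (fun u => f u * g u) z := by
  have ht0 : 0 ≤ s * l ^ 2 := mul_nonneg hs (sq_nonneg l)
  intro R
  induction R using Finset.induction_on with
  | empty =>
    intro f g _ _ z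
    rw [AvP_empty, AvP_empty, AvP_empty]
    simp
  | insert e R' he ih =>
    intro f g hf hg z
    have e1 : ∀ g : (κ → ℝ) → ℝ, EG g → AvP s (insert e R') g z =
        AvP s {e} (AvP s R' g) z := by
      intro g hg
      rw [AvP_AvP hg, ← Finset.insert_eq]
    have hsub : ({e} : Finset κ) ⊆ insert e R' :=
      Finset.singleton_subset_iff.2 (Finset.mem_insert_self _ _)
    rw [e1 _ hf.eg, e1 _ hg.eg, e1 _ (hf.eg.mul hg.eg)]
    have h1 := ((hf.av (R' := R') hl s).mono hsub).two_one hs ht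
      ((hg.av (R' := R') hl s).mono hsub) z
    have h2 : AvP s {e} (fun u => AvP s R' f u * AvP s R' g u) z ≤
        AvP s {e} (fun u => (1 + 4 * (s * l ^ 2)) ^ R'.card *
          AvP s R' (fun u => f u * g u) u) z :=
      AvP_mono ((eg_AvP hf.eg s R').mul (eg_AvP hg.eg s R'))
        ((eg_AvP (hf.eg.mul hg.eg) s R').const_mul _)
        (fun u => ih (hf.mono (Finset.subset_insert _ _)) (hg.mono (Finset.subset_insert _ _)) u) z
    rw [AvP_const_mul] at h2
    refine h1.trans ?_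
    rw [Finset.card_insert_of_notMem he, pow_succ' (1 + 4 * (s * l ^ 2)) R'.card, mul_assoc]
    exact mul_le_mul_of_nonneg_left h2 (by linarith)

end Vale.Agent.P146.H712
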