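import Vale.Agent.P146.H712.Mom6
import Vale.Agent.P146.H712.RH
import Vale.Agent.P146.H191.F1S

/-!
Row [KAP], part 2: the rest `N = U - k L y` of a row at a fixed bulk.
-/

open MeasureTheory ProbabilityTheory

namespace Vale.Agent.P146.Cum

open Vale.Agent.P157.Lv Vale.Agent.P146.H425 Vale.Agent.P146.H325
  Vale.Agent.P146.H712 Vale.Agent.P146.R1 Vale.Agent.P146.R1C Vale.Agent.P146.R1S
  Vale.Agent.P146.H191

set_option linter.unusedSectionVars false

section ll

variable {κ : Type} [Fintype κ] [DecidableEq κ] {R : Finset κ} {l : ℝ}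

lemma ll_sum {ι : Type} (s : Finset ι) {f : ι → (κ → ℝ) → ℝ} (hf : ∀ i ∈ s, LL R l (f i)) :
    LL R l (fun z => ∑ i ∈ s, f i z) := by
  refine ⟨EG.sum _ fun i hi => (hf i hi).eg, fun z => Finset.sum_nonneg fun i hi => (hf i hi).nn z,
    fun e he => ?_⟩
  choose! f' h1 h2 h3 using fun i hi => (hf i hi).pd e he
  refine ⟨fun z => ∑ i ∈ s, f' i z, EG.sum _ fun i hi => h1 i hi, PD.sum s fun i hi => h2 i hi,
    fun z => ?_⟩
  rw [Finset.mul_sum]
  exact (Finset.abs_sum_le_sum_abs _ _).trans (Finset.sum_le_sum fun i hi => h3 i hi z)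

lemma ll_cmul {c : ℝ} (hc : 0 ≤ c) {f : (κ → ℝ) → ℝ} (hf : LL R l f) :
    LL R l (fun z => c * f z) := by
  refine ⟨hf.eg.const_mul c, fun z => mul_nonneg hc (hf.nn z), fun e he => ?_⟩
  obtain ⟨f', h1, h2, h3⟩ := hf.pd e he
  refine ⟨fun z => c * f' z, h1.const_mul c, h2.const_mul c, fun z => ?_⟩
  rw [abs_mul, abs_of_nonneg hc]
  have := mul_le_mul_of_nonneg_left (h3 z) hc
  linarith

end ll

section dmu

variable {ι X : Type} [Fintype ι] [DecidableEq ι] [Fintype X] [DecidableEq X]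
  {k Γ : ℝ} {φ : ι → X → ℝ} {μ : (ι → ℝ) → X → ℝ}
  {T2 : (ι → ℝ) → (Lg2 → X) → ℝ}
  {T3 : (ι → ℝ) → (Lg3 → X) → ℝ} {T4 : (ι → ℝ) → (Lg4 → X) → ℝ}

lemma pk_ext {P : (ι → ℝ) → (Lg2 → X) → ℝ} {p : ℝ} (hP : Pk μ p P) (z : ι → ℝ) (v : X) :
    ∑ y, P z (ext (fun _ : Unit => v) y) = p * μ z v := by
  have h1 := hP.marg z (some ()) (fun u => if u = v then 1 else 0)
  rw [sum_ext] at h1
  have h2 : ∀ x : Unit → X, ∑ y, P z (fun o => o.elim y x) *
      (fun u => if u = v then (1 : ℝ) else 0) ((fun o : Option Unit => o.elim y x) (some ())) =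
      if x () = v then ∑ y, P z (ext x y) else 0 := by
    intro x
    split_ifs with h
    · refine Finset.sum_congr rfl fun y _ => ?_
      show P z (ext x y) * (if x () = v then (1 : ℝ) else 0) = _
      rw [if_pos h, mul_one]
    · refine Finset.sum_eq_zero fun y _ => ?_
      show P z (ext x y) * (if x () = v then (1 : ℝ) else 0) = _
      rw [if_neg h, mul_zero]
  rw [Finset.sum_congr rfl fun x _ => h2 x] at h1
  have h3 : ∑ x : Unit → X, (if x () = v then ∑ y, P z (ext x y) else 0) =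
      ∑ y, P z (ext (fun _ : Unit => v) y) := by
    rw [Finset.sum_eq_single (fun _ : Unit => v)]
    · simp
    · intro x _ hx
      rw [if_neg]
      intro h
      exact hx (funext fun _ => h)
    · simp
  rw [h3] at h1
  rw [h1]
  simp

lemma ll_mu (h : Four k φ μ Γ T2 T3 T4) (hφ : ∀ e v, |φ e v| ≤ 1) (hk : 0 ≤ k)
    (hμ : ∀ z v, 0 ≤ μ z v) (hμe : ∀ v, EG fun z => μ z v) (R : Finset ι) (v : X) :
    LL R (k * Γ) (fun z => μ z v) := by
  refine ⟨hμe v, fun z => hμ z v, fun e _ => ?_⟩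
  refine ⟨fun z => k * ∑ y, T2 z (ext (fun _ => v) y) * φ e y,
    (EG.sum _ fun y _ => (h.c2.eg _).mul (EG.const _)).const_mul k, h.d2 e fun _ => v,
    fun z => ?_⟩
  obtain ⟨P, M, p, m, hP, hM, hT, hpm⟩ := h.c2
  rw [abs_mul, abs_of_nonneg hk, mul_assoc]
  refine mul_le_mul_of_nonneg_left ?_ hk
  calc |∑ y, T2 z (ext (fun _ => v) y) * φ e y|
      ≤ ∑ y, |T2 z (ext (fun _ => v) y) * φ e y| := Finset.abs_sum_le_sum_abs _ _
    _ ≤ ∑ y, (P z (ext (fun _ => v) y) + M z (ext (fun _ => v) y)) := by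
        refine Finset.sum_le_sum fun y _ => ?_
        rw [abs_mul, hT]
        have a1 : |P z (ext (fun _ => v) y) - M z (ext (fun _ => v) y)| ≤
            P z (ext (fun _ => v) y) + M z (ext (fun _ => v) y) := by
          rw [abs_le]
          have := hP.nn z (ext (fun _ => v) y)
          have := hM.nn z (ext (fun _ => v) y)
          constructor <;> linarith
        have a2 := hP.nn z (ext (fun _ => v) y)
        have a3 := hM.nn z (ext (fun _ => v) y)
        calc _ ≤ (P z (ext (fun _ => v) y) + M z (ext (fun _ => v) y)) * 1 :=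
              mul_le_mul a1 (hφ e y) (abs_nonneg _) (by linarith)
          _ = _ := mul_one _
    _ = (p + m) * μ z v := by
        rw [Finset.sum_add_distrib, pk_ext hP, pk_ext hM]
        ring
    _ ≤ Γ * μ z v := mul_le_mul_of_nonneg_right hpm (hμ z v)

end dmu

section rows

variable {n : ℕ} {k x s Γ η : ℝ} {S : CS n k x} {b : Fin n}

/-- The mean of the square of the projected configuration: `tr (P' P C)`. -/
noncomputable def tP (S : CS n k x) (P : Matrix (Fin n) (Fin n) ℝ) (s : ℝ)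
    (z : Pair n → ℝ) : ℝ := ∑ σ, S.mu s z σ * ∑ i, (∑ l, P i l * sp σ l) ^ 2

lemma tP_nonneg (P : Matrix (Fin n) (Fin n) ℝ) (s : ℝ) (z : Pair n → ℝ) : 0 ≤ tP S P s z :=
  Finset.sum_nonneg fun σ _ => mul_nonneg (S.mu0 s z σ)
    (Finset.sum_nonneg fun i _ => sq_nonneg _)

lemma eg_tP (S : CS n k x) (P : Matrix (Fin n) (Fin n) ℝ) (s : ℝ) : EG (tP S P s) :=
  EG.sum _ fun σ _ => (S.eg_mu s σ).mul (EG.const _)

/-- the trace form -/
lemma tP_eq (P : Matrix (Fin n) (Fin n) ℝ) (s : ℝ) (z : Pair n → ℝ) :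
    tP S P s z = ∑ l, ∑ m, (∑ i, P i l * P i m) * S.A s z l m := by
  unfold tP
  simp_rw [S.A_mu, Finset.mul_sum]
  have e1 : ∀ σ : Fin n → ℤˣ, ∑ i, S.mu s z σ * (∑ l, P i l * sp σ l) ^ 2 =
      ∑ l, ∑ m, (∑ i, P i l * P i m) * (S.mu s z σ * pr l m σ) := by
    intro σ
    simp_rw [Finset.sum_mul]
    rw [Finset.sum_congr rfl fun l _ => Finset.sum_comm]
    rw [Finset.sum_comm]
    refine Finset.sum_congr rfl fun _ _ => ?_
    rw [pow_two, Finset.sum_mul_sum, Finset.mul_sum]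
    refine Finset.sum_congr rfl fun l _ => ?_
    rw [Finset.mul_sum]
    refine Finset.sum_congr rfl fun m _ => ?_
    unfold pr
    ring
  rw [Finset.sum_congr rfl fun σ _ => e1 σ, Finset.sum_comm]
  refine Finset.sum_congr rfl fun l _ => ?_
  rw [Finset.sum_comm]

/-- `tr (Y C Y C) ≤ (tr Y C)²` -/
lemma q2P_le (P : Matrix (Fin n) (Fin n) ℝ) (s : ℝ) (z : Pair n → ℝ) :
    q2P S P s z ≤ tP S P s z ^ 2 := by
  unfold q2P tP
  rw [pow_two, Finset.sum_mul_sum]
  refine Finset.sum_le_sum fun σ _ => ?_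
  rw [Finset.mul_sum]
  refine Finset.sum_le_sum fun τ _ => ?_
  have h1 : (∑ i, (∑ l, P i l * sp σ l) * (∑ l, P i l * sp τ l)) ^ 2 ≤
      (∑ i, (∑ l, P i l * sp σ l) ^ 2) * (∑ i, (∑ l, P i l * sp τ l) ^ 2) :=
    Finset.sum_mul_sq_le_sq_mul_sq _ _ _
  have h2 := mul_le_mul_of_nonneg_left h1 (mul_nonneg (S.mu0 s z σ) (S.mu0 s z τ))
  linarith

lemma SkS_abs (e : Pair n) (σ : Fin n → ℤˣ) : |SkS e σ| ≤ 1 := by
  have h1 : SkS e σ ^ 2 = 1 := by
    have : SkS e σ = sp σ e.1.1 * sp σ e.1.2 := rfl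
    rw [this, mul_pow, sp_sq, sp_sq, one_mul]
  have h2 : |SkS e σ| ^ 2 ≤ 1 ^ 2 := by rw [sq_abs, h1]; norm_num
  exact le_of_sq_le_sq h2 zero_le_one

lemma ll_tP (hFn : Fn k SkS (uu x s S.F) (S.mu s) Γ) (P : Matrix (Fin n) (Fin n) ℝ)
    (R : Finset (Pair n)) : LL R (k * Γ) (tP S P s) := by
  obtain ⟨T2, T3, T4, hF⟩ := hFn.four
  unfold tP
  refine ll_sum _ fun σ _ => ?_
  have h1 := ll_cmul (c := ∑ i, (∑ l, P i l * sp σ l) ^ 2)
    (Finset.sum_nonneg fun i _ => sq_nonneg _)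
    (ll_mu hF SkS_abs S.k0.le (S.mu0 s) (S.eg_mu s) R σ)
  have e1 : (fun z => S.mu s z σ * ∑ i, (∑ l, P i l * sp σ l) ^ 2) =
      fun z => (∑ i, (∑ l, P i l * sp σ l) ^ 2) * S.mu s z σ := by
    funext z
    exact mul_comm _ _
  rw [e1]
  exact h1

lemma ll_q6 (hFn : Fn k SkS (uu x s S.F) (S.mu s) Γ) (R : Finset (Pair n)) :
    LL R (2 * (k * Γ)) (q6 S s) := by
  obtain ⟨T2, T3, T4, hF⟩ := hFn.four
  unfold q6
  refine ll_sum _ fun σ _ => ?_
  have hm := fun σ => ll_mu hF SkS_abs S.k0.le (S.mu0 s) (S.eg_mu s) R σ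
  rw [two_mul]
  refine (hm σ).mul (ll_sum _ fun τ _ => ?_)
  have h1 := ll_cmul (c := (∑ i, sp σ i * sp τ i) ^ 6) (by positivity) (hm τ)
  have e1 : (fun z => S.mu s z τ * (∑ i, sp σ i * sp τ i) ^ 6) =
      fun z => (∑ i, sp σ i * sp τ i) ^ 6 * S.mu s z τ := by
    funext z
    exact mul_comm _ _
  rw [e1]
  exact h1

lemma card_row_le (b : Fin n) : (row b).card ≤ n := by
  have h2 := sum_row b (fun _ => (1 : ℝ))
  simp only [Finset.sum_const, nsmul_eq_mul, mul_one] at h2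
  have h3 : (Finset.univ.erase b).card ≤ n := by
    rw [Finset.card_erase_of_mem (Finset.mem_univ b)]
    simp
  have h4 : (row b).card = (Finset.univ.erase b).card := by exact_mod_cast h2
  rw [h4]
  exact h3

/-- The row constant. -/
noncomputable def cR (s k Γ : ℝ) (n : ℕ) : ℝ := (1 + 4 * (s * (2 * (k * Γ)) ^ 2)) ^ n

lemma cR_one (hs : 0 ≤ s) : 1 ≤ cR s k Γ n := by
  unfold cR
  exact one_le_pow₀ (by have : 0 ≤ s * (2 * (k * Γ)) ^ 2 := mul_nonneg hs (sq_nonneg _); linarith)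

lemma cR_le (s k Γ : ℝ) (hs : 0 ≤ s) (n : ℕ) :
    cR s k Γ n ≤ Real.exp (16 * s * k ^ 2 * Γ ^ 2 * n) := by
  unfold cR
  have h0 : 0 ≤ s * (2 * (k * Γ)) ^ 2 := mul_nonneg hs (sq_nonneg _)
  have h1 : 1 + 4 * (s * (2 * (k * Γ)) ^ 2) ≤ Real.exp (4 * (s * (2 * (k * Γ)) ^ 2)) := by
    have := Real.add_one_le_exp (4 * (s * (2 * (k * Γ)) ^ 2))
    linarith
  have h2 := pow_le_pow_left₀ (by linarith) h1 n
  rw [← Real.exp_nat_mul] at h2
  refine h2.trans (le_of_eq ?_)
  congr 1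
  ring

/-- **The nonlinear part at a fixed bulk**, with a free number `Λ` (the size of the matrix `C`). -/
theorem nl_nonlin (hFn : Fn k SkS (uu x s S.F) (S.mu s) Γ) (hs : 0 < s) (hΓ : 0 ≤ Γ)
    (ht : s * (2 * (k * Γ)) ^ 2 ≤ 1 / 4) {Λ : ℝ} (hΛ : 0 < Λ)
    (P : Matrix (Fin n) (Fin n) ℝ) (b : Fin n) (z : Pair n → ℝ) :
    AvP s (row b) (fun u => ∑ i, ∑ j, (∑ l, P i l * (S.H s b u l j -
      AvP s (row b) (fun u => S.H s b u l j) z)) ^ 2) z ≤
    s ^ 2 * (k ^ 4 * (6 * Γ ^ 3) ^ 2) * (cR s k Γ n / 2 * (Λ * AvP s (row b) (tP S P s) z +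
      Λ⁻¹ * AvP s (row b) (fun u => tP S P s u * q6 S s u) z)) := by
  set M := s ^ 2 * (k ^ 4 * (6 * Γ ^ 3) ^ 2) with hM
  have hM0 : 0 ≤ M := by positivity
  have hl0 : 0 ≤ 2 * (k * Γ) := mul_nonneg zero_le_two (mul_nonneg S.k0.le hΓ)
  have llT : LL (row b) (2 * (k * Γ)) (tP S P s) :=
    (ll_tP hFn P (row b)).le (by linarith [mul_nonneg S.k0.le hΓ])
  have ll6 := ll_q6 hFn (row b)
  have ht0 : 0 ≤ s * (2 * (k * Γ)) ^ 2 := mul_nonneg hs.le (sq_nonneg _)
  set a := AvP s (row b) (tP S P s) z with ha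
  set c := AvP s (row b) (q6 S s) z with hc
  set q := AvP s (row b) (fun u => tP S P s u * q6 S s u) z with hq
  have a0 : 0 ≤ a := AvP_nonneg (tP_nonneg P s) z
  have c0 : 0 ≤ c := AvP_nonneg (q6_nonneg S s) z
  have q0 : 0 ≤ q := AvP_nonneg (fun u => mul_nonneg (tP_nonneg P s u) (q6_nonneg S s u)) z
  have hR1 : (1 + 2 * (s * (2 * (k * Γ)) ^ 2)) ^ (row b).card ≤ cR s k Γ n := by
    unfold cR
    calc (1 + 2 * (s * (2 * (k * Γ)) ^ 2)) ^ (row b).card
        ≤ (1 + 4 * (s * (2 * (k * Γ)) ^ 2)) ^ (row b).card :=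
          pow_le_pow_left₀ (by linarith) (by linarith) _
      _ ≤ _ := pow_le_pow_right₀ (by linarith) (card_row_le b)
  have hR2 : (1 + 4 * (s * (2 * (k * Γ)) ^ 2)) ^ (row b).card ≤ cR s k Γ n :=
    pow_le_pow_right₀ (by linarith) (card_row_le b)
  have r1 : AvP s (row b) (fun u => tP S P s u ^ 2) z ≤ cR s k Γ n * a ^ 2 :=
    (LL.sq hs.le hl0 ht (row b) llT z).trans (mul_le_mul_of_nonneg_right hR1 (sq_nonneg _))
  have r2 : a * c ≤ cR s k Γ n * q :=
    (LL.two hs.le hl0 ht (row b) llT ll6 z).trans (mul_le_mul_of_nonneg_right hR2 q0)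
  set X := AvP s (row b) (fun u => ∑ i, ∑ j, (∑ l, P i l * (S.H s b u l j -
      AvP s (row b) (fun u => S.H s b u l j) z)) ^ 2) z with hX
  have main : ∀ η : ℝ, 0 < η → X ≤ M * (η⁻¹ / 2 * (cR s k Γ n * a ^ 2) + η / 2 * c) := by
    intro η hη
    have h1 := i2_6 hFn hs hη P b z
    rw [← hX, ← hM] at h1
    refine h1.trans (mul_le_mul_of_nonneg_left ?_ hM0)
    have h2 : AvP s (row b) (fun z => η⁻¹ / 2 * q2P S P s z + η / 2 * q6 S s z) z ≤
        AvP s (row b) (fun z => η⁻¹ / 2 * tP S P s z ^ 2 + η / 2 * q6 S s z) z := by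
      refine AvP_mono (((eg_q2P S P s).const_mul _).add ((eg_q6 S s).const_mul _))
        ((((eg_tP S P s).pow 2).const_mul _).add ((eg_q6 S s).const_mul _)) (fun u => ?_) z
      have h3 := mul_le_mul_of_nonneg_left (q2P_le (S := S) P s u)
        (show 0 ≤ η⁻¹ / 2 by positivity)
      linarith
    refine h2.trans ?_
    rw [AvP_add (((eg_tP S P s).pow 2).const_mul _) ((eg_q6 S s).const_mul _), AvP_const_mul,
      AvP_const_mul]
    have h4 := mul_le_mul_of_nonneg_left r1 (show 0 ≤ η⁻¹ / 2 by positivity)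
    linarith
  have hcR : 0 ≤ cR s k Γ n := zero_le_one.trans (cR_one hs.le)
  rcases a0.eq_or_lt with h0 | h0
  · have hX0 : X ≤ 0 := by
      refine le_of_forall_pos_le_add fun ε hε => ?_
      have h1 := main (ε / (M * c / 2 + 1)) (by positivity)
      rw [← h0] at h1
      have h2 : M * ((ε / (M * c / 2 + 1))⁻¹ / 2 * (cR s k Γ n * 0 ^ 2) +
          ε / (M * c / 2 + 1) / 2 * c) = ε * ((M * c / 2) / (M * c / 2 + 1)) := by
        ring
      rw [h2] at h1
      have h3 : (M * c / 2) / (M * c / 2 + 1) ≤ 1 := by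
        rw [div_le_one (by positivity)]
        linarith
      have h4 := mul_le_mul_of_nonneg_left h3 hε.le
      linarith
    refine hX0.trans ?_
    positivity
  · have h1 := main (a / Λ) (by positivity)
    refine h1.trans (mul_le_mul_of_nonneg_left ?_ hM0)
    have e1 : (a / Λ)⁻¹ / 2 * (cR s k Γ n * a ^ 2) = cR s k Γ n / 2 * (Λ * a) := by
      field_simp
    have e2 : a / Λ / 2 * c = Λ⁻¹ / 2 * (a * c) := by
      field_simp
    rw [e1, e2]
    have h2 := mul_le_mul_of_nonneg_left r2 (show 0 ≤ Λ⁻¹ / 2 by positivity)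
    linarith

/-! ### the Poincare inequality for the rest -/

lemma Uz_fl (S : CS n k x) (s : ℝ) (b i : Fin n) (z : Pair n → ℝ) :
    Uz S s b i (fl b z) = -Uz S s b i z := by
  unfold Uz
  by_cases h : i = b
  · simp [h]
  · simp only [h, if_false]
    exact S.A_fl_row s h z

/-- the rest of the row as a function of the position -/
noncomputable def Nz (S : CS n k x) (s : ℝ) (b : Fin n) (L : Matrix (Fin n) (Fin n) ℝ)
    (i : Fin n) (u : Pair n → ℝ) : ℝ :=
  Uz S s b i u - k * ∑ e ∈ row b, L i (oth b e) * u e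

lemma eg_Nz (L : Matrix (Fin n) (Fin n) ℝ) (i : Fin n) : EG (Nz S s b L i) :=
  (eg_Uz S s b i).sub ((EG.sum _ fun e _ => (EG.coord e).const_mul _).const_mul _)

/-- **The rest at a fixed bulk**: nonlinear part and linear part. -/
theorem nl_row (hFn : Fn k SkS (uu x s S.F) (S.mu s) Γ) (hs : 0 < s) (hΓ : 0 ≤ Γ)
    (ht : s * (2 * (k * Γ)) ^ 2 ≤ 1 / 4) {Λ : ℝ} (hΛ : 0 < Λ)
    (P L : Matrix (Fin n) (Fin n) ℝ) (b : Fin n) (hL : ∀ i, L i b = 0) (z : Pair n → ℝ) :
    AvP s (row b) (fun u => ∑ i, (∑ l, P i l * Nz S s b L l u) ^ 2) z ≤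
      s * k ^ 2 * (s ^ 2 * (k ^ 4 * (6 * Γ ^ 3) ^ 2) * (cR s k Γ n / 2 *
        (Λ * AvP s (row b) (tP S P s) z +
          Λ⁻¹ * AvP s (row b) (fun u => tP S P s u * q6 S s u) z))) +
      s * k ^ 2 * ∑ i, ∑ j, (∑ l, P i l * (AvP s (row b) (fun u => S.H s b u l j) z -
        L l j)) ^ 2 := by
  obtain ⟨T2, T3, T4, hF⟩ := hFn.four
  have eH := fun l j => eg_H (b := b) hF hs l j
  set f : Fin n → Fin n → (Pair n → ℝ) → ℝ := fun i j u => ∑ l, P i l * S.H s b u l j with hf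
  set r : Fin n → Fin n → ℝ := fun i j => ∑ l, P i l * L l j with hr
  have ef : ∀ i j, EG (f i j) := fun i j => EG.sum _ fun l _ => (eH l j).const_mul _
  set g : Fin n → (Pair n → ℝ) → ℝ := fun i u => ∑ l, P i l * Nz S s b L l u with hg
  have eg' : ∀ i, EG (g i) := fun i => EG.sum _ fun l _ => (eg_Nz L l).const_mul _
  -- the derivative
  have pd : ∀ i, ∀ e ∈ row b, PD e (g i) (fun u => k * (f i (oth b e) u - r i (oth b e))) := by
    intro i e he
    have h1 : ∀ l, PD e (Nz S s b L l) (fun u => k * (S.H s b u l (oth b e) - L l (oth b e))) := by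
      intro l
      have h2 := pd_Uz S hs b l he
      have h3 : PD e (fun u : Pair n → ℝ => k * ∑ e' ∈ row b, L l (oth b e') * u e')
          (fun _ => k * ∑ e' ∈ row b, L l (oth b e') * (if e' = e then 1 else 0)) :=
        (PD.sum _ fun e' _ => (PD.coord e').const_mul _).const_mul k
      refine (h2.sub h3).congr fun u => ?_
      have e1 : ∑ e' ∈ row b, L l (oth b e') * (if e' = e then (1 : ℝ) else 0) =
          L l (oth b e) := by
        simp [Finset.sum_ite_eq', he]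
      rw [e1]
      ring
    refine (PD.sum Finset.univ fun l _ => (h1 l).const_mul (P i l)).congr fun u => ?_
    simp only [hf, hr]
    rw [← Finset.sum_sub_distrib, Finset.mul_sum]
    exact Finset.sum_congr rfl fun l _ => by ring
  have g1 : ∀ i e, EG fun u => k * (f i (oth b e) u - r i (oth b e)) := fun i e =>
    ((ef i _).sub (EG.const _)).const_mul k
  have odd : ∀ i z, AvP s (row b) (g i) z = 0 := by
    intro i z
    refine AvP_odd0 (eg' i).meas (fun u => ?_) z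
    simp only [hg]
    rw [← Finset.sum_neg_distrib]
    refine Finset.sum_congr rfl fun l _ => ?_
    have h1 : Nz S s b L l (fl b u) = -Nz S s b L l u := by
      unfold Nz
      rw [Uz_fl]
      have e1 : ∑ e ∈ row b, L l (oth b e) * fl b u e = -∑ e ∈ row b, L l (oth b e) * u e := by
        rw [← Finset.sum_neg_distrib]
        refine Finset.sum_congr rfl fun e he => ?_
        rw [fl_row he]
        ring
      rw [e1]
      ring
    rw [h1]
    ring
  -- one index
  have one : ∀ i, AvP s (row b) (fun u => g i u ^ 2) z ≤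
      s * k ^ 2 * AvP s (row b) (fun u => ∑ j, (f i j u - r i j) ^ 2) z := by
    intro i
    have p1 := AvP_poincare (R := row b) hs.le (eg' i) (pd i) (fun e _ => g1 i e) z
    simp only [odd, sub_zero] at p1
    refine p1.trans (le_of_eq ?_)
    rw [mul_assoc, ← AvP_const_mul (k ^ 2)]
    congr 2
    funext u
    have e1 : ∀ e ∈ row b, (k * (f i (oth b e) u - r i (oth b e))) ^ 2 =
        (fun j => k ^ 2 * (f i j u - r i j) ^ 2) (oth b e) := fun e _ => by
      simp only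
      ring
    rw [Finset.sum_congr rfl e1, sum_row_all b (G := fun j => k ^ 2 * (f i j u - r i j) ^ 2) ?_,
      Finset.mul_sum]
    have h2 : f i b u = 0 := by simp only [hf, S.H_row hs, mul_zero, Finset.sum_const_zero]
    have h3 : r i b = 0 := by simp only [hr, hL, mul_zero, Finset.sum_const_zero]
    simp only [h2, h3]
    ring
  have e2 : AvP s (row b) (fun u => ∑ i, g i u ^ 2) z =
      ∑ i, AvP s (row b) (fun u => g i u ^ 2) z :=
    AvP_sum Finset.univ (fun i _ => (eg' i).pow 2) z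
  rw [e2]
  refine (Finset.sum_le_sum fun i _ => one i).trans ?_
  rw [← Finset.mul_sum, ← mul_add]
  refine mul_le_mul_of_nonneg_left ?_ (by have := sq_nonneg k; positivity)
  -- bias and variance
  have sp1 : ∀ i j, AvP s (row b) (fun u => (f i j u - r i j) ^ 2) z =
      AvP s (row b) (fun u => (f i j u - AvP s (row b) (f i j) z) ^ 2) z +
        (AvP s (row b) (f i j) z - r i j) ^ 2 := by
    intro i j
    rw [av_var (ef i j)]
    have e : (fun u => (f i j u - r i j) ^ 2) =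
        fun u => (f i j u ^ 2 + (-2 * r i j) * f i j u) + r i j ^ 2 := by
      funext u; ring
    rw [e, AvP_add (((ef i j).pow 2).add ((ef i j).const_mul _)) (EG.const _),
      AvP_add ((ef i j).pow 2) ((ef i j).const_mul _), AvP_const_mul, AvP_const]
    ring
  have hav : ∀ i j, AvP s (row b) (f i j) z =
      ∑ l, P i l * AvP s (row b) (fun u => S.H s b u l j) z := by
    intro i j
    simp only [hf]
    rw [AvP_sum Finset.univ fun l _ => (eH l j).const_mul _]
    exact Finset.sum_congr rfl fun l _ => AvP_const_mul _ _ _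
  have e3 : ∀ i, AvP s (row b) (fun u => ∑ j, (f i j u - r i j) ^ 2) z =
      ∑ j, AvP s (row b) (fun u => (f i j u - AvP s (row b) (f i j) z) ^ 2) z +
        ∑ j, (AvP s (row b) (f i j) z - r i j) ^ 2 := by
    intro i
    rw [AvP_sum Finset.univ fun j _ => ((ef i j).sub (EG.const _)).pow 2, ← Finset.sum_add_distrib]
    exact Finset.sum_congr rfl fun j _ => sp1 i j
  rw [Finset.sum_congr rfl fun i _ => e3 i, Finset.sum_add_distrib]
  refine add_le_add ?_ (le_of_eq ?_)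
  · have h5 := nl_nonlin hFn hs hΓ ht hΛ P b z
    refine le_trans (le_of_eq ?_) h5
    rw [AvP_sum Finset.univ fun i _ => EG.sum _ fun j _ =>
      (EG.sum _ fun l _ => ((eH l j).sub (EG.const _)).const_mul _).pow 2]
    refine Finset.sum_congr rfl fun i _ => ?_
    rw [AvP_sum Finset.univ fun j _ =>
      (EG.sum _ fun l _ => ((eH l j).sub (EG.const _)).const_mul _).pow 2]
    refine Finset.sum_congr rfl fun j _ => ?_
    congr 1
    funext u
    rw [hav]
    simp only [hf]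
    rw [← Finset.sum_sub_distrib]
    congr 1
    exact Finset.sum_congr rfl fun l _ => by ring
  · refine Finset.sum_congr rfl fun i _ => Finset.sum_congr rfl fun j _ => ?_
    rw [hav]
    simp only [hr]
    rw [← Finset.sum_sub_distrib]
    congr 1
    exact Finset.sum_congr rfl fun l _ => by ring

end rows

end Vale.Agent.P146.Cum
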