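import Vale.Agent.P146.H712.NlLaw
import Vale.Agent.P146.H640.Ee

/-!
Row [KAP], part 5: the law change for functions with a second moment, and the second moment of the
rest of a row.
-/

open MeasureTheory ProbabilityTheory

namespace Vale.Agent.P146.Cum

open Vale.Agent.P157.Lv Vale.Agent.P146.H425 Vale.Agent.P146.H325 Vale.Agent.P146.H332
  Vale.Agent.P146.H712 Vale.Agent.P146.R1 Vale.Agent.P146.R1C Vale.Agent.P146.R1S
  Vale.Agent.P146.H191 Vale.Agent.P146.H706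
open Vale.Agent.P146.H941 (nl)

set_option linter.unusedSectionVars false

section law

variable {ρ : Type} [Fintype ρ] [DecidableEq ρ] {ψ : (ρ → ℝ) → ℝ} {ψ' : ρ → (ρ → ℝ) → ℝ} {l : ℝ}

/-- law change, upper bound, for a function with a second moment -/
theorem lg_up2 (h : LG ψ ψ' l) (p : ℕ) (hp : ((2 * p + 2 : ℕ) : ℝ) ^ 2 * l ^ 2 ≤ 1)
    {f : (ρ → ℝ) → ℝ} (hf : EG f) {K : ℝ} (hK0 : 0 < K) (h0 : ∀ z, 0 ≤ f z)
    (hK : ∫ z, f z ^ 2 ∂(gI ρ) ≤ K ^ 2) :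
    ∫ z, kap ψ z * f z ∂(gI ρ) ≤ 2 * ∫ z, f z ∂(gI ρ) + 2 * K / 2 ^ p := by
  have h1 : ∀ z, kap ψ z * f z ≤ 2 * f z + (K / 2 / 2 ^ p * kap ψ z ^ (2 * p + 2) +
      K⁻¹ / 2 / 2 ^ p * f z ^ 2) := by
    intro z
    have hk := h.kap_pos z
    have r0 : 0 ≤ K / 2 / 2 ^ p * kap ψ z ^ (2 * p + 2) + K⁻¹ / 2 / 2 ^ p * f z ^ 2 := by
      positivity
    rcases le_total (kap ψ z) 2 with h2 | h2
    · have := mul_le_mul_of_nonneg_right h2 (h0 z)
      linarith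
    · have h3 : (1 : ℝ) ≤ (kap ψ z / 2) ^ p := one_le_pow₀ (by linarith)
      have h4 : kap ψ z * f z ≤ kap ψ z * f z * (kap ψ z / 2) ^ p :=
        le_mul_of_one_le_right (mul_nonneg hk.le (h0 z)) h3
      have h5 : kap ψ z * f z * (kap ψ z / 2) ^ p = (kap ψ z ^ (p + 1) * f z) / 2 ^ p := by
        rw [div_pow, pow_succ]; ring
      have h6 : kap ψ z ^ (p + 1) * f z ≤ K / 2 * kap ψ z ^ (2 * p + 2) + K⁻¹ / 2 * f z ^ 2 := by
        have e1 : kap ψ z ^ (2 * p + 2) = (kap ψ z ^ (p + 1)) ^ 2 := by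
          rw [← pow_mul]
          congr 1
          ring
        rw [e1]
        set y := kap ψ z ^ (p + 1)
        have h7 : 0 ≤ K⁻¹ * (K * y - f z) ^ 2 := by positivity
        have h8 : K⁻¹ * (K * y - f z) ^ 2 = K * y ^ 2 - 2 * (y * f z) + K⁻¹ * f z ^ 2 := by
          field_simp
          ring
        linarith
      have h9 : (kap ψ z ^ (p + 1) * f z) / 2 ^ p ≤
          (K / 2 * kap ψ z ^ (2 * p + 2) + K⁻¹ / 2 * f z ^ 2) / 2 ^ p :=
        div_le_div_of_nonneg_right h6 (by positivity)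
      have h10 : (K / 2 * kap ψ z ^ (2 * p + 2) + K⁻¹ / 2 * f z ^ 2) / 2 ^ p =
          K / 2 / 2 ^ p * kap ψ z ^ (2 * p + 2) + K⁻¹ / 2 / 2 ^ p * f z ^ 2 := by ring
      have := h0 z
      linarith
  have hpow : EG fun z => kap ψ z ^ (2 * p + 2) := h.eg_kap.pow _
  have i1 : Integrable (fun z => K / 2 / 2 ^ p * kap ψ z ^ (2 * p + 2)) (gI ρ) :=
    hpow.integrable.const_mul _
  have i2 : Integrable (fun z => K⁻¹ / 2 / 2 ^ p * f z ^ 2) (gI ρ) :=
    (hf.pow 2).integrable.const_mul _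
  have i12 : Integrable (fun z => K / 2 / 2 ^ p * kap ψ z ^ (2 * p + 2) +
      K⁻¹ / 2 / 2 ^ p * f z ^ 2) (gI ρ) := i1.add i2
  refine (integral_mono (h.eg_kap.mul hf).integrable ((hf.integrable.const_mul 2).add i12)
    h1).trans ?_
  simp only [Pi.add_apply]
  rw [integral_add (hf.integrable.const_mul 2) i12, integral_add i1 i2, integral_const_mul,
    integral_const_mul, integral_const_mul]
  have h7 := h.kap_pow (2 * p + 2) hp
  have h8 : Real.exp (((2 * p + 2 : ℕ) : ℝ) ^ 2 * l ^ 2) ≤ 3 := by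
    refine (Real.exp_le_exp.2 hp).trans ?_
    have := Real.exp_one_lt_d9
    linarith
  have h9 : K / 2 / 2 ^ p * ∫ z, kap ψ z ^ (2 * p + 2) ∂(gI ρ) ≤ K / 2 / 2 ^ p * 3 :=
    mul_le_mul_of_nonneg_left (h7.trans h8) (by positivity)
  have h10 : K⁻¹ / 2 / 2 ^ p * ∫ z, f z ^ 2 ∂(gI ρ) ≤ K⁻¹ / 2 / 2 ^ p * K ^ 2 :=
    mul_le_mul_of_nonneg_left hK (by positivity)
  have h11 : K⁻¹ / 2 / 2 ^ p * K ^ 2 = K / 2 / 2 ^ p := by
    field_simp
  have h12 : K / 2 / 2 ^ p * 3 + K / 2 / 2 ^ p = 2 * K / 2 ^ p := by ring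
  linarith

variable {ι : Type} [Fintype ι] [DecidableEq ι] {R : Finset ι} {Ψ : (ι → ℝ) → ℝ}
  {Ψ' : ι → (ι → ℝ) → ℝ}

/-- the same, fibered -/
theorem lf_up2 (h : LF R Ψ Ψ' l) (p : ℕ) (hp : ((2 * p + 2 : ℕ) : ℝ) ^ 2 * l ^ 2 ≤ 1)
    {f : (ι → ℝ) → ℝ} (hf : EG f) {K : ℝ} (hK0 : 0 < K) (h0 : ∀ z, 0 ≤ f z)
    (hK : ∀ z, Av R (fun z => f z ^ 2) z ≤ K ^ 2) :
    ∫ z, Real.exp (Ψ z) * f z ∂(gI ι) ≤
      2 * ∫ z, Real.exp (Ψ z) * Av R f z ∂(gI ι) +
        2 * K / 2 ^ p * ∫ z, Real.exp (Ψ z) ∂(gI ι) := by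
  have eN := h.en
  have h1 : ∀ z, Av R (fun z => Real.exp (Ψ z) * f z) z ≤
      2 * (Av R (fun z => Real.exp (Ψ z)) z * Av R f z) +
        2 * K / 2 ^ p * Av R (fun z => Real.exp (Ψ z)) z := by
    intro z
    have h2 := lg_up2 (h.lg z) p hp (H706.eg_sw hf R z) hK0 (fun w => h0 _) (hK z)
    have h3 := mul_le_mul_of_nonneg_left h2 (h.av_pos z).le
    rw [h.av_mul f z]
    have h4 : Av R f z = ∫ w, f (H712.sw R z w) ∂(gI ι) := rfl
    rw [h4]
    linarith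
  have i1 : Integrable (fun z => 2 * (Av R (fun z => Real.exp (Ψ z)) z * Av R f z)) (gI ι) :=
    ((eg_Av R eN).mul (eg_Av R hf)).integrable.const_mul _
  have i2 : Integrable (fun z => 2 * K / 2 ^ p * Av R (fun z => Real.exp (Ψ z)) z) (gI ι) :=
    (eg_Av R eN).integrable.const_mul _
  have h2 := integral_mono (eg_Av R (eN.mul hf)).integrable (i1.add i2) h1
  simp only [Pi.add_apply] at h2
  rw [integral_add i1 i2, integral_const_mul, integral_const_mul, integral_Av R eN,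
    integral_Av R (eN.mul hf), ← int_av_mul eN hf] at h2
  rw [int_mul_Av eN hf]
  exact h2

end law

section gl

variable {n : ℕ} {k : ℝ} {q : Par} {G : GD (Pair n)} (S : CS n k q.x)

/-- **the transfer for functions with a second moment** -/
theorem law_up2_SG (hq : q.OkS) (hG : G.Ok) (hr : GRow k q G) (b : Fin n) (p : ℕ)
    (hp : ((2 * p + 2 : ℕ) : ℝ) ^ 2 * (18 * q.x ^ 2 * k ^ 2 * n) ≤ 1)
    {f : (K4 (Pair n) → ℝ) → ℝ} (hf : EG f) {K : ℝ} (hK0 : 0 < K) (h0 : ∀ w, 0 ≤ f w)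
    (hK : ∀ w, Av (lf (row b)) (fun w => f w ^ 2) w ≤ K ^ 2) :
    EwG q G S.F f ≤ 2 * EwG q G S.F (Av (lf (row b)) f) +
      2 * K / 2 ^ p * EwG q G S.F (fun _ => 1) := by
  have hn : 0 ≤ 18 * q.x ^ 2 * k ^ 2 * n := by positivity
  have e : √(18 * q.x ^ 2 * k ^ 2 * n) ^ 2 = 18 * q.x ^ 2 * k ^ 2 * n := Real.sq_sqrt hn
  have hLF := lf_psi_SG S hq hG hr b b
  rw [Finset.union_self] at hLF
  have := lf_up2 hLF p (by rw [e]; exact hp) hf hK0 h0 hK
  unfold EwG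
  simpa only [mul_one, densG_eq] using this

end gl

/-! ### the second moment of the rest -/

section mom

variable {n : ℕ} {k x s Γ : ℝ} {S : CS n k x} {b : Fin n} {a : Fin 4 → ℝ}

lemma coord_sq (hs : 0 ≤ s) {e : Pair n} (he : e ∈ row b) (z : Pair n → ℝ) :
    AvP s (row b) (fun u => u e ^ 2) z ≤ s := by
  have h0 : ∀ z, AvP s (row b) (fun u : Pair n → ℝ => u e) z = 0 := fun z =>
    AvP_odd0 (s := s) (b := b) (g := fun u : Pair n → ℝ => u e) (EG.coord e).meas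
      (fun u => fl_row he u) z
  have h1 := H712.AvP_poincare (R := row b) hs (EG.coord e)
    (F' := fun e' _ => if e = e' then 1 else 0) (fun e' _ => by
      have := PD.coord (ι := Pair n) e (e := e')
      exact this) (fun _ _ => EG.const _) z
  simp only [h0, sub_zero] at h1
  refine h1.trans ?_
  have h2 : (fun _ : Pair n → ℝ => ∑ e' ∈ row b, (if e = e' then (1 : ℝ) else 0) ^ 2) =
      fun _ => 1 := by
    funext u
    have : ∀ e' : Pair n, (if e = e' then (1 : ℝ) else 0) ^ 2 = if e = e' then 1 else 0 := by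
      intro e'
      split_ifs <;> norm_num
    simp only [this, Finset.sum_ite_eq, he, if_true]
  rw [h2, AvP_const, mul_one]

lemma coord_four (hs : 0 ≤ s) {e : Pair n} (he : e ∈ row b) (z : Pair n → ℝ) :
    AvP s (row b) (fun u => u e ^ 4) z ≤ 5 * s ^ 2 := by
  have e2 : EG fun u : Pair n → ℝ => u e ^ 2 := (EG.coord e).pow 2
  have hc := coord_sq hs he z
  have hc0 : 0 ≤ AvP s (row b) (fun u => u e ^ 2) z := AvP_nonneg (fun _ => sq_nonneg _) z
  have pd : ∀ e' ∈ row b, PD e' (fun u : Pair n → ℝ => u e ^ 2)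
      (fun u => 2 * u e * (if e = e' then 1 else 0)) := fun e' _ => by
    have h := PD.coord (ι := Pair n) e (e := e')
    have h2 := h.mul h
    have e3 : (fun u : Pair n → ℝ => u e ^ 2) = fun u => u e * u e := by
      funext u; ring
    rw [e3]
    refine h2.congr fun u => ?_
    ring
  have h1 := R1C.AvP_poincare (R := row b) hs e2 pd
    (fun _ _ => ((EG.coord e).const_mul 2).mul (EG.const _)) z
  have h3 : (fun u : Pair n → ℝ => ∑ e' ∈ row b, (2 * u e * (if e = e' then (1 : ℝ) else 0)) ^ 2) =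
      fun u => 4 * u e ^ 2 := by
    funext u
    have : ∀ e' : Pair n, (2 * u e * (if e = e' then (1 : ℝ) else 0)) ^ 2 =
        if e = e' then 4 * u e ^ 2 else 0 := by
      intro e'
      split_ifs
      · ring
      · ring
    simp only [this, Finset.sum_ite_eq, he, if_true]
  rw [h3, AvP_const_mul] at h1
  have h4 : (fun u : Pair n → ℝ => (u e ^ 2) ^ 2) = fun u => u e ^ 4 := by
    funext u; ring
  rw [h4] at h1
  nlinarith [pow_le_pow_left₀ hc0 hc 2, mul_le_mul_of_nonneg_left hc hs]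

/-- the square of the row of a position -/
noncomputable def y2 (b : Fin n) (u : Pair n → ℝ) : ℝ := ∑ e ∈ row b, u e ^ 2

lemma y2_sq (hs : 0 ≤ s) (z : Pair n → ℝ) :
    AvP s (row b) (fun u => y2 b u ^ 2) z ≤ 5 * (n : ℝ) ^ 2 * s ^ 2 := by
  have hn : (0 : ℝ) ≤ n := Nat.cast_nonneg n
  have hc : ((row b).card : ℝ) ≤ n := by exact_mod_cast card_row_le b
  have h1 : ∀ u : Pair n → ℝ, y2 b u ^ 2 ≤ (n : ℝ) * ∑ e ∈ row b, u e ^ 4 := by
    intro u
    have h2 := Finset.sum_mul_sq_le_sq_mul_sq (row b) (fun _ => (1 : ℝ)) (fun e => u e ^ 2)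
    simp only [one_mul, one_pow, Finset.sum_const, nsmul_eq_mul, mul_one] at h2
    have h3 : ∑ e ∈ row b, (u e ^ 2) ^ 2 = ∑ e ∈ row b, u e ^ 4 :=
      Finset.sum_congr rfl fun e _ => by ring
    rw [h3] at h2
    have h4 : 0 ≤ ∑ e ∈ row b, u e ^ 4 := Finset.sum_nonneg fun e _ => by positivity
    exact h2.trans (mul_le_mul_of_nonneg_right hc h4)
  have h5 := AvP_mono (s := s) (R := row b) ((EG.sum _ fun e _ => (EG.coord e).pow 2).pow 2)
    ((EG.sum _ fun e _ => (EG.coord e).pow 4).const_mul _) h1 z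
  refine h5.trans ?_
  rw [AvP_const_mul, AvP_sum (row b) fun e _ => (EG.coord e).pow 4]
  have h6 : ∑ e ∈ row b, AvP s (row b) (fun u => u e ^ 4) z ≤ (n : ℝ) * (5 * s ^ 2) := by
    calc ∑ e ∈ row b, AvP s (row b) (fun u => u e ^ 4) z ≤ ∑ _e ∈ row b, 5 * s ^ 2 :=
          Finset.sum_le_sum fun e he => coord_four hs he z
      _ = ((row b).card : ℝ) * (5 * s ^ 2) := by rw [Finset.sum_const, nsmul_eq_mul]
      _ ≤ _ := mul_le_mul_of_nonneg_right hc (by positivity)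
  have h7 := mul_le_mul_of_nonneg_left h6 hn
  linarith [h7, show (n : ℝ) * (n * (5 * s ^ 2)) = 5 * (n : ℝ) ^ 2 * s ^ 2 by ring]

/-- the rest is at most polynomial -/
lemma form_Nz_le {BY BL : ℝ} (P L : Matrix (Fin n) (Fin n) ℝ) (hBY : ∑ i, ∑ l, P i l ^ 2 ≤ BY)
    (hBL : ∑ i, ∑ l, L i l ^ 2 ≤ BL) (hBL0 : 0 ≤ BL) (u : Pair n → ℝ) :
    ∑ i, (∑ l, P i l * Nz S s b L l u) ^ 2 ≤ BY * (2 * n + 2 * k ^ 2 * BL * y2 b u) := by
  have hy : 0 ≤ y2 b u := Finset.sum_nonneg fun e _ => sq_nonneg _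
  have h1 : ∀ i, (∑ l, P i l * Nz S s b L l u) ^ 2 ≤ (∑ l, P i l ^ 2) * ∑ l, Nz S s b L l u ^ 2 :=
    fun i => Finset.sum_mul_sq_le_sq_mul_sq _ _ _
  have h2 : ∀ l, Nz S s b L l u ^ 2 ≤ 2 * 1 + 2 * (k ^ 2 * ((∑ j, L l j ^ 2) * y2 b u)) := by
    intro l
    have a1 : Uz S s b l u ^ 2 ≤ 1 := by
      unfold Uz
      by_cases h : l = b
      · simp [h]
      · simp only [h, if_false]
        exact A_sq_le l b u
    have a2 : (∑ e ∈ row b, L l (oth b e) * u e) ^ 2 ≤ (∑ j, L l j ^ 2) * y2 b u := by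
      have h3 := Finset.sum_mul_sq_le_sq_mul_sq (row b) (fun e => L l (oth b e)) (fun e => u e)
      refine h3.trans (mul_le_mul_of_nonneg_right ?_ hy)
      have h4 := sum_row b (fun j => L l j ^ 2)
      rw [h4]
      exact Finset.sum_le_univ_sum_of_nonneg fun j => sq_nonneg _
    have a3 := mul_le_mul_of_nonneg_left a2 (sq_nonneg k)
    have a4 : Nz S s b L l u ^ 2 ≤ 2 * Uz S s b l u ^ 2 +
        2 * (k ^ 2 * (∑ e ∈ row b, L l (oth b e) * u e) ^ 2) := by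
      unfold Nz
      nlinarith [sq_nonneg (Uz S s b l u + k * ∑ e ∈ row b, L l (oth b e) * u e)]
    linarith
  have h3 : ∑ l, Nz S s b L l u ^ 2 ≤ 2 * n + 2 * k ^ 2 * BL * y2 b u := by
    calc ∑ l, Nz S s b L l u ^ 2
        ≤ ∑ l, (2 * 1 + 2 * (k ^ 2 * ((∑ j, L l j ^ 2) * y2 b u))) :=
          Finset.sum_le_sum fun l _ => h2 l
      _ = 2 * n + 2 * (k ^ 2 * ((∑ l, ∑ j, L l j ^ 2) * y2 b u)) := by
          rw [Finset.sum_add_distrib, Finset.sum_mul, Finset.mul_sum, Finset.mul_sum]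
          simp only [Finset.sum_const, Finset.card_univ, Fintype.card_fin, nsmul_eq_mul]
          ring
      _ ≤ 2 * n + 2 * (k ^ 2 * (BL * y2 b u)) := by
          have := mul_le_mul_of_nonneg_left (mul_le_mul_of_nonneg_right hBL hy) (sq_nonneg k)
          linarith
      _ = _ := by ring
  have hN : 0 ≤ ∑ l, Nz S s b L l u ^ 2 := Finset.sum_nonneg fun l _ => sq_nonneg _
  have hBY0 : 0 ≤ BY := (Finset.sum_nonneg fun i _ =>
    Finset.sum_nonneg fun l _ => sq_nonneg (P i l)).trans hBY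
  calc ∑ i, (∑ l, P i l * Nz S s b L l u) ^ 2
      ≤ ∑ i, (∑ l, P i l ^ 2) * ∑ l, Nz S s b L l u ^ 2 := Finset.sum_le_sum fun i _ => h1 i
    _ = (∑ i, ∑ l, P i l ^ 2) * ∑ l, Nz S s b L l u ^ 2 := by rw [Finset.sum_mul]
    _ ≤ BY * ∑ l, Nz S s b L l u ^ 2 := mul_le_mul_of_nonneg_right hBY hN
    _ ≤ _ := mul_le_mul_of_nonneg_left h3 hBY0

/-- **The second moment of the rest.** -/
theorem nl_sq_av (hs : 0 < s) (hva : vr a = s) {Y L : MF n} {BY BL : ℝ}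
    (hYi : ∀ i l, Ind (lf (row b)) fun w => Y w i l)
    (hLi : ∀ i l, Ind (lf (row b)) fun w => L w i l)
    (hYs : ∀ w i l, Y w i l = Y w l i)
    (hYp : ∀ w, ∀ v : Fin n → ℝ, 0 ≤ ∑ i, ∑ l, Y w i l * (v i * v l))
    (hBY : ∀ w, ∑ i, Y w i i ≤ BY) (hBL : ∀ w, ∑ i, ∑ l, L w i l ^ 2 ≤ BL)
    (w : K4 (Pair n) → ℝ) :
    Av (lf (row b)) (fun w => nl k S s a b Y L w ^ 2) w ≤
      (BY * (3 * n + 7 * k ^ 2 * BL * n * s)) ^ 2 := by
  obtain ⟨P, hP⟩ := psd_fact (hYs w) (hYp w)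
  have hn : (0 : ℝ) ≤ n := Nat.cast_nonneg n
  have hY' : ∀ u i l, Y (H712.sw (lf (row b)) w u) i l = Y w i l := fun u i l => hYi i l w u
  have hL' : ∀ u i l, L (H712.sw (lf (row b)) w u) i l = L w i l := fun u i l => hLi i l w u
  set Φ : (Pair n → ℝ) → ℝ := fun u => ∑ i, (∑ l, P i l * Nz S s b (L w) l u) ^ 2 with hΦ
  have ef : EG Φ := EG.sum _ fun i _ => (EG.sum _ fun l _ => (eg_Nz _ l).const_mul _).pow 2
  have e1 : Av (lf (row b)) (fun w => nl k S s a b Y L w ^ 2) w =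
      AvP s (row b) (fun u => Φ u ^ 2) (H712.lp a w) := by
    have h1 := Av_lf_lp a (ef.pow 2) (row b) w
    rw [hva] at h1
    rw [← h1]
    unfold Av
    refine integral_congr_ae (Filter.Eventually.of_forall fun u => ?_)
    simp only
    congr 1
    unfold nl qY
    simp only [hY']
    have e2 : ∀ i, Nr a k b L (Uz S s b) i (H712.sw (lf (row b)) w u) =
        Nz S s b (L w) i (H712.lp a (H712.sw (lf (row b)) w u)) := by
      intro i
      unfold Nr Ly Nz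
      simp only [hL']
    simp only [e2]
    exact fact_form hP fun l => Nz S s b (L w) l (H712.lp a (H712.sw (lf (row b)) w u))
  have hPB : ∑ i, ∑ l, P i l ^ 2 ≤ BY := by
    refine le_trans (le_of_eq ?_) (hBY w)
    rw [Finset.sum_comm]
    refine Finset.sum_congr rfl fun l _ => ?_
    rw [hP]
    exact Finset.sum_congr rfl fun i _ => pow_two _
  have hBY0 : 0 ≤ BY := (Finset.sum_nonneg fun i _ =>
    Finset.sum_nonneg fun l _ => sq_nonneg (P i l)).trans hPB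
  have hBL0 : 0 ≤ BL := (Finset.sum_nonneg fun i _ =>
    Finset.sum_nonneg fun l _ => sq_nonneg (L w i l)).trans (hBL w)
  have hΦ0 : ∀ u, 0 ≤ Φ u := fun u => Finset.sum_nonneg fun i _ => sq_nonneg _
  have h2 : ∀ u, Φ u ^ 2 ≤ BY ^ 2 * (8 * (n : ℝ) ^ 2) + BY ^ 2 * (8 * k ^ 4 * BL ^ 2) *
      y2 b u ^ 2 := by
    intro u
    have h3 := form_Nz_le (S := S) (s := s) (b := b) P (L w) hPB (hBL w) hBL0 u
    have h4 := pow_le_pow_left₀ (hΦ0 u) h3 2
    refine h4.trans ?_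
    rw [mul_pow]
    have h5 : (2 * (n : ℝ) + 2 * k ^ 2 * BL * y2 b u) ^ 2 ≤ 8 * (n : ℝ) ^ 2 +
        8 * k ^ 4 * BL ^ 2 * y2 b u ^ 2 := by
      nlinarith [sq_nonneg (2 * (n : ℝ) - 2 * k ^ 2 * BL * y2 b u)]
    have h6 := mul_le_mul_of_nonneg_left h5 (sq_nonneg BY)
    linarith
  rw [e1]
  have ey : EG fun u : Pair n → ℝ => y2 b u ^ 2 := (EG.sum _ fun e _ => (EG.coord e).pow 2).pow 2
  have h3 := AvP_mono (s := s) (R := row b) (ef.pow 2)
    ((EG.const (BY ^ 2 * (8 * (n : ℝ) ^ 2))).add (ey.const_mul _)) h2 (H712.lp a w)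
  rw [AvP_add (EG.const _) (ey.const_mul _), AvP_const, AvP_const_mul] at h3
  have h4 := mul_le_mul_of_nonneg_left (y2_sq (b := b) hs.le (H712.lp a w))
    (show 0 ≤ BY ^ 2 * (8 * k ^ 4 * BL ^ 2) by positivity)
  have h5 : BY ^ 2 * (8 * (n : ℝ) ^ 2) + BY ^ 2 * (8 * k ^ 4 * BL ^ 2) *
      (5 * (n : ℝ) ^ 2 * s ^ 2) ≤ (BY * (3 * n + 7 * k ^ 2 * BL * n * s)) ^ 2 := by
    have h6 : 0 ≤ BY ^ 2 * ((n : ℝ) ^ 2 + 9 * (k ^ 4 * BL ^ 2 * n ^ 2 * s ^ 2) +
        42 * (n * (k ^ 2 * BL * n * s))) := by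
      have hs0 := hs.le
      positivity
    nlinarith [h6]
  linarith

end mom

end Vale.Agent.P146.Cum
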